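import Vale.Agent.N144.C.At2
import Mathlib.Analysis.Complex.OpenMapping

/-!
The square root that transports the spinors under a conformal map.
-/

namespace Vale.Agent.N144.C

open Filter Topology Complex Metric Set
open Vale.Agent.P144.H170 (F2 PP gq)
open Vale.Agent.P144.H365 (ResNN)
open Vale.Agent.P144.H436 (rc rc_rc)
open Vale.Agent.P144M (cc cc_sub cc_pre mem_cc cn_of_lip3)
open P153.TOP (LogOn logOn_const logOn_of_norm_sub_one_lt log_diff_const logOn_of_compacts)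
open scoped ComplexConjugate

variable {D D' : Set ℂ} {f g : ℂ → ℂ}

/-- A holomorphic bijection has a holomorphic inverse. -/
theorem exists_bi (hD : IsOpen D) (hD' : IsOpen D') (hf : DifferentiableOn ℂ f D)
    (hb : BijOn f D D') : ∃ g, Bi D D' f g := by
  set g := Function.invFunOn f D
  have li : ∀ z ∈ D, g (f z) = z := fun z hz => hb.injOn.leftInvOn_invFunOn hz
  have ri : ∀ w ∈ D', f (g w) = w := fun w hw => hb.surjOn.rightInvOn_invFunOn hw
  have gm : MapsTo g D' D := hb.surjOn.mapsTo_invFunOn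
  have nc : ∀ z ∈ D, ¬ ∀ᶠ y in 𝓝 z, f y = f z := fun z hz h => by
    obtain ⟨y, ⟨h1, h2⟩, h3⟩ := (((h.and (hD.mem_nhds hz)).filter_mono nhdsWithin_le_nhds).and
      (self_mem_nhdsWithin (s := {z}ᶜ))).exists
    exact h3 (hb.injOn h2 hz h1)
  have gc : ∀ w ∈ D', ContinuousAt g w := fun w hw => by
    have h := ((hf.analyticAt (hD.mem_nhds (gm hw))).eventually_constant_or_nhds_le_map_nhds
      ).resolve_left (nc _ (gm hw))
    rw [ri w hw] at h
    refine (tendsto_map'_iff.2 (tendsto_id.congr' ?_)).mono_left h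
    filter_upwards [hD.mem_nhds (gm hw)] with y hy using (li y hy).symm
  refine ⟨g, hD, hD', hf, fun w hw => (analyticAt_of_differentiable_on_punctured_nhds_of_continuousAt
    ?_ (gc w hw)).differentiableAt.differentiableWithinAt, hb.mapsTo, gm, li, ri⟩
  have h1 := ((hf.analyticAt (hD.mem_nhds (gm hw))).deriv.eventually_eq_zero_or_eventually_ne_zero
    ).resolve_left fun h => by
      obtain ⟨ε, hε, hs⟩ := Metric.mem_nhds_iff.1 (h.and (hD.mem_nhds (gm hw)))
      refine nc _ (gm hw) ?_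
      filter_upwards [ball_mem_nhds _ hε] with y hy
      exact isOpen_ball.is_const_of_deriv_eq_zero (convex_ball _ _).isPreconnected
        (hf.mono fun x hx => (hs hx).2) (fun x hx => (hs hx).1) hy (mem_ball_self hε)
  have h2 : Tendsto g (𝓝[≠] w) (𝓝[≠] (g w)) := by
    refine tendsto_nhdsWithin_iff.2 ⟨(gc w hw).tendsto.mono_left nhdsWithin_le_nhds, ?_⟩
    filter_upwards [self_mem_nhdsWithin, nhdsWithin_le_nhds (hD'.mem_nhds hw)] with y h3 h4 e
    exact h3 (by rw [← ri y h4, mem_singleton_iff.1 e, ri w hw]; rfl)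
  filter_upwards [h2.eventually h1, nhdsWithin_le_nhds (hD'.mem_nhds hw)] with y h3 h4
  exact (HasDerivAt.of_local_left_inverse (gc y h4) (hf.differentiableAt
    (hD.mem_nhds (gm h4))).hasDerivAt h3 (by
      filter_upwards [hD'.mem_nhds h4] with x hx using ri x hx)).differentiableAt

/-! ### Logarithms -/

section log

variable {α : Type} [TopologicalSpace α] {P : Set α} {h : ℂ × α → ℂ}

theorem lg_near (hh : ContinuousOn h (D ×ˢ P)) (h0 : ∀ x ∈ D ×ˢ P, h x ≠ 0) {Q : Set ℂ}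
    (hQ : IsCompact Q) (hQD : Q ⊆ D) {t : α} (ht : t ∈ P) :
    ∀ᶠ t' in 𝓝[P] t, ∀ z ∈ Q, ‖h (z, t') / h (z, t) - 1‖ < 1 := by
  have key := hQ.eventually_forall_of_forall_eventually (x₀ := t)
    (P := fun t' z => t' ∈ P → z ∈ D → ‖h (z, t') / h (z, t) - 1‖ < 1) fun z hz => by
      have m : (z, t) ∈ D ×ˢ P := ⟨hQD hz, ht⟩
      have c1 : ContinuousWithinAt (fun x : α × ℂ => h (x.2, x.1)) (P ×ˢ D) (t, z) :=
        (hh _ m).comp (f := fun x : α × ℂ => (x.2, x.1)) (by fun_prop)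
          fun x hx => mk_mem_prod hx.2 hx.1
      have c2 : ContinuousWithinAt (fun x : α × ℂ => h (x.2, t)) (P ×ˢ D) (t, z) :=
        (hh _ m).comp (f := fun x : α × ℂ => (x.2, t)) (by fun_prop)
          fun x hx => mk_mem_prod hx.2 ht
      have c3 := ((c1.div c2 (h0 _ m)).tendsto.sub_const 1).norm
      simp only [Pi.div_apply, div_self (h0 _ m), sub_self, norm_zero] at c3
      filter_upwards [eventually_nhdsWithin_iff.1 (c3.eventually_lt_const one_pos)] with x hx a b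
      exact hx ⟨a, b⟩
  filter_upwards [nhdsWithin_le_nhds key, self_mem_nhdsWithin] with t' a b z hz
  exact a z hz b (hQD hz)

theorem lg_sec (hh : ContinuousOn h (D ×ˢ P)) {t : α} (ht : t ∈ P) :
    ContinuousOn (fun z => h (z, t)) D :=
  hh.comp (f := fun z => (z, t)) (by fun_prop) fun _ hz => ⟨hz, ht⟩

/-- Having a logarithm is invariant under deformations. -/
theorem lg_param (ho : IsOpen D) (hc : IsPreconnected D) (hP : IsPreconnected P)
    (hh : ContinuousOn h (D ×ˢ P)) (h0 : ∀ x ∈ D ×ˢ P, h x ≠ 0) {t t' : α} (ht : t ∈ P)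
    (ht' : t' ∈ P) (h1 : LogOn D fun z => h (z, t)) : LogOn D fun z => h (z, t') := by
  refine logOn_of_compacts ho hc fun Q hQD hQ => ?_
  refine (hP.induction₂' (fun x y => (LogOn Q fun z => h (z, x)) ↔ LogOn Q fun z => h (z, y))
    (fun x hx => ?_) (fun _ _ _ _ _ _ => Iff.trans) ht ht').1 (h1.mono hQD)
  filter_upwards [lg_near hh h0 hQ hQD hx, self_mem_nhdsWithin] with y a hy
  have b := logOn_of_norm_sub_one_lt (((lg_sec hh hy).mono hQD).div ((lg_sec hh hx).mono hQD)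
    fun z hz => h0 _ ⟨hQD hz, hx⟩) a
  have e : (LogOn Q fun z => h (z, x)) ↔ LogOn Q fun z => h (z, y) :=
    ⟨fun k => (b.mul k).congr fun z hz => by
        rw [Pi.div_apply, div_mul_cancel₀ _ (h0 (z, x) ⟨hQD hz, hx⟩)],
      fun k => (k.div b).congr fun z hz => by
        rw [Pi.div_apply, div_div_cancel₀ (h0 (z, y) ⟨hQD hz, hy⟩)]⟩
  exact ⟨e, e.symm⟩

end log

/-- The logarithm on the diagonal. -/
theorem lg_diag (ho : IsOpen D) (hc : IsPreconnected D) {h : ℂ × ℂ → ℂ}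
    (hh : ContinuousOn h (D ×ˢ D)) {m : ℂ} (hm : m ∈ D) (h1 : ∀ t ∈ D, h (m, t) = 1)
    (hl : ∀ t ∈ D, LogOn D fun z => h (z, t)) : LogOn D fun z => h (z, z) := by
  have h0 : ∀ x ∈ D ×ˢ D, h x ≠ 0 := fun x hx => (hl x.2 hx.2).ne_zero hx.1
  have hn : ∀ t ∈ D, ∃ L : ℂ → ℂ, ContinuousOn L D ∧ (∀ z ∈ D, exp (L z) = h (z, t)) ∧
      L m = 0 := fun t ht => by
    obtain ⟨L, a1, a2⟩ := hl t ht
    exact ⟨fun z => L z - L m, a1.sub continuousOn_const, fun z hz => by
      simp only [exp_sub, a2 z hz, a2 m hm, h1 t ht, div_one], sub_self _⟩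
  choose! L a1 a2 a3 using hn
  refine ⟨fun z => L z z, fun z hz => ?_, fun z hz => a2 z hz z hz⟩
  obtain ⟨γ, hγ⟩ := (ho.isConnected_iff_isPathConnected.1 ⟨⟨m, hm⟩, hc⟩).joinedIn m hm z hz
  obtain ⟨ε, hε, hb⟩ := nhds_basis_closedBall.mem_iff.1 (ho.mem_nhds hz)
  have hQD : range γ ∪ closedBall z ε ⊆ D := union_subset (range_subset_iff.2 hγ) hb
  have hQ := (isCompact_range γ.continuous).union (isCompact_closedBall z ε)
  have hQp := (isPreconnected_range γ.continuous).union z (mem_range.2 ⟨1, γ.target⟩)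
    (mem_closedBall_self hε.le) (convex_closedBall z ε).isPreconnected
  have c1 : ContinuousWithinAt (fun y => h (y, y)) D z :=
    (hh (z, z) ⟨hz, hz⟩).comp (f := fun y => (y, y)) (by fun_prop) fun y hy => mk_mem_prod hy hy
  have c2 := (c1.div (lg_sec hh hz z hz) (h0 (z, z) ⟨hz, hz⟩)).clog
    (by rw [Pi.div_apply, div_self (h0 (z, z) ⟨hz, hz⟩)]; exact one_mem_slitPlane)
  have key : ∀ᶠ y in 𝓝[D] z, L y y = L z y + log (h (y, y) / h (y, z)) := by
    filter_upwards [lg_near hh h0 hQ hQD hz, self_mem_nhdsWithin,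
      nhdsWithin_le_nhds (closedBall_mem_nhds z hε)] with y b1 b2 b3
    have s : ∀ x ∈ range γ ∪ closedBall z ε, h (x, y) / h (x, z) ∈ slitPlane := fun x hx => by
      simpa using mem_slitPlane_of_norm_lt_one (b1 x hx)
    have := log_diff_const hQp ((a1 y b2).mono hQD) (((a1 z hz).mono hQD).add
      ((((lg_sec hh b2).mono hQD).div ((lg_sec hh hz).mono hQD)
        fun x hx => h0 _ ⟨hQD hx, hz⟩).clog s)) (fun x hx => by
        simp only [Pi.add_apply, Pi.div_apply]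
        rw [exp_add, exp_log (slitPlane_ne_zero (s x hx)), a2 y b2 x (hQD hx), a2 z hz x (hQD hx),
          mul_div_cancel₀ _ (h0 (x, z) ⟨hQD hx, hz⟩)]) (Or.inr b3) (Or.inl ⟨0, γ.source⟩)
    simp only [Pi.add_apply, Pi.div_apply] at this
    rw [a3 y b2, a3 z hz, h1 y b2, h1 z hz, div_one, log_one] at this
    linear_combination this
  exact ((a1 z hz z hz).add c2).congr_of_eventuallyEq key (key.self_of_nhdsWithin hz)

/-- A holomorphic function with a logarithm has a holomorphic square root. -/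
theorem sq_of_log (ho : IsOpen D) {u : ℂ → ℂ} (hu : DifferentiableOn ℂ u D) (hl : LogOn D u) :
    ∃ s, DifferentiableOn ℂ s D ∧ ∀ z ∈ D, s z ≠ 0 ∧ s z ^ 2 = u z := by
  obtain ⟨L, a1, a2⟩ := hl
  have e : ∀ z ∈ D, exp (L z / 2) ^ 2 = u z := fun z hz => by
    rw [← exp_nat_mul, ← a2 z hz]; congr 1; push_cast; ring
  refine ⟨fun z => exp (L z / 2), fun z hz => ?_, fun z hz => ⟨exp_ne_zero _, e z hz⟩⟩
  refine (P153.TOP.RMT.sqrt_hasDerivAt (q := fun z => exp (L z / 2))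
    ((a1.continuousAt (ho.mem_nhds hz)).div_const 2).cexp (exp_ne_zero _) (fun _ => rfl)
    ((hu.differentiableAt (ho.mem_nhds hz)).hasDerivAt.congr_of_eventuallyEq ?_)
    ).differentiableAt.differentiableWithinAt
  filter_upwards [ho.mem_nhds hz] with y hy using e y hy

/-! ### The difference quotient -/

theorem ds_mul (f : ℂ → ℂ) (m z : ℂ) : f z - f m = (z - m) * dslope f m z :=
  (sub_smul_dslope f m z).symm

theorem ds_ne (f : ℂ → ℂ) {m z : ℂ} (h : z ≠ m) : dslope f m z = (f z - f m) / (z - m) := by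
  rw [ds_mul f m z, mul_div_cancel_left₀ _ (sub_ne_zero.2 h)]

theorem ds_symm (f : ℂ → ℂ) (m z : ℂ) : dslope f m z = dslope f z m := by
  by_cases h : z = m
  · rw [h]
  · rw [ds_ne f h, ds_ne f (Ne.symm h), ← neg_div_neg_eq, neg_sub, neg_sub]

theorem Bi.ds_ne (B : Bi D D' f g) {m z : ℂ} (hm : m ∈ D) (hz : z ∈ D) : dslope f m z ≠ 0 := by
  by_cases h : z = m
  · rw [h, dslope_same]; exact B.ne hm
  · rw [C.ds_ne f h]
    exact div_ne_zero (sub_ne_zero.2 fun e => h (B.inj hz hm e)) (sub_ne_zero.2 h)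

theorem Bi.ds_diff (B : Bi D D' f g) {m : ℂ} (hm : m ∈ D) : DifferentiableOn ℂ (dslope f m) D :=
  (differentiableOn_dslope (B.op.mem_nhds hm)).2 B.fd

theorem Bi.ds_inv (B : Bi D D' f g) {m z : ℂ} (hm : m ∈ D') (hz : z ∈ D') :
    dslope g m z * dslope f (g m) (g z) = 1 := by
  by_cases h : z = m
  · rw [h, dslope_same, dslope_same, mul_comm]; exact B.symm.mul hm
  · have h' : g z ≠ g m := fun e => h (B.symm.inj hz hm e)
    rw [C.ds_ne g h, C.ds_ne f h', B.ri _ hz, B.ri _ hm]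
    have := sub_ne_zero.2 h
    have := sub_ne_zero.2 h'
    field_simp

theorem Bi.ds_cont (B : Bi D D' f g) : ContinuousOn (fun x : ℂ × ℂ => dslope f x.2 x.1) (D ×ˢ D) := by
  rintro ⟨z, m⟩ ⟨hz, hm⟩
  refine ContinuousAt.continuousWithinAt ?_
  by_cases h : z = m
  · subst h
    have an := B.fd.analyticAt (B.op.mem_nhds hz)
    have h1 := an.hasStrictDerivAt.isLittleO
    rw [ContinuousAt, Metric.tendsto_nhds]
    intro ε hε
    filter_upwards [h1.bound (half_pos hε), (continuous_fst.tendsto (z, z)).eventually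
      (Metric.tendsto_nhds.1 an.deriv.continuousAt ε hε)] with x a1 a2
    rw [dslope_same]
    by_cases e : x.1 = x.2
    · rwa [← e, dslope_same]
    · have e' := sub_ne_zero.2 e
      rw [C.ds_ne f e, dist_eq_norm, div_sub' e', norm_div, div_lt_iff₀ (norm_pos_iff.2 e')]
      simp only [ContinuousLinearMap.toSpanSingleton_apply, smul_eq_mul] at a1
      nlinarith [norm_pos_iff.2 e']
  · have c1 : ContinuousAt f z := (B.der hz).continuousAt
    have c2 : ContinuousAt f m := (B.der hm).continuousAt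
    refine (((c1.comp continuousAt_fst).sub (c2.comp continuousAt_snd)).div
      (continuousAt_fst.sub continuousAt_snd) (sub_ne_zero.2 h)).congr ?_
    filter_upwards [(isOpen_ne_fun continuous_fst continuous_snd).mem_nhds h] with x hx
    exact (C.ds_ne f hx).symm

theorem Bi.lg_ds (B : Bi D D' f g) (hc : IsPreconnected D) {m w : ℂ} (hm : m ∈ D) (hw : w ∈ D) :
    LogOn D fun z => dslope f w z / dslope f m z :=
  lg_param (h := fun x => dslope f x.2 x.1 / dslope f m x.1) B.op hc hc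
    (B.ds_cont.div ((B.ds_diff hm).continuousOn.comp continuousOn_fst fun _ hx => hx.1)
      fun _ hx => B.ds_ne hm hx.1) (fun _ hx => div_ne_zero (B.ds_ne hx.2 hx.1) (B.ds_ne hm hx.1))
    hm hw ((logOn_const one_ne_zero).congr fun _ hz => div_self (B.ds_ne hm hz))

theorem Bi.lg_der (B : Bi D D' f g) (hc : IsPreconnected D) {m : ℂ} (hm : m ∈ D) :
    LogOn D fun z => deriv f z / dslope f m z ^ 2 := by
  have c := (B.ds_diff hm).continuousOn
  have h := lg_diag (h := fun x => dslope f x.2 x.1 / dslope f m x.1 *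
    (dslope f m m / dslope f m x.2)) B.op hc ((B.ds_cont.div (c.comp continuousOn_fst
      fun _ hx => hx.1) fun _ hx => B.ds_ne hm hx.1).mul (continuousOn_const.div
        (c.comp continuousOn_snd fun _ hx => hx.2) fun _ hx => B.ds_ne hm hx.2)) hm
    (fun t ht => by
      have := B.ds_ne hm hm
      have := B.ds_ne hm ht
      simp only [ds_symm f t m]
      field_simp)
    fun t ht => (B.lg_ds hc hm ht).mul (logOn_const (div_ne_zero (B.ds_ne hm hm) (B.ds_ne hm ht)))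
  refine (h.div (logOn_const (B.ds_ne hm hm))).congr fun z hz => ?_
  have := B.ds_ne hm hm
  have := B.ds_ne hm hz
  simp only [dslope_same f z]
  field_simp

/-! ### Corresponding points -/

/-- `ζ'` corresponds to `ζ`: it is the image if `ζ` is in `D`, and lies in the corresponding
component of the complement if not. -/
def Mp (D : Set ℂ) (f : ℂ → ℂ) (ζ ζ' : ℂ) : Prop := ∃ u : ℂ → ℂ, DifferentiableOn ℂ u D ∧
  (∀ z ∈ D, f z - ζ' = (z - ζ) * u z) ∧ ∀ m ∈ D, LogOn D fun z => u z / dslope f m z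

variable {ζ ζ' : ℂ}

theorem Mp.inn (B : Bi D D' f g) (hc : IsPreconnected D) (h : ζ ∈ D) : Mp D f ζ (f ζ) :=
  ⟨_, B.ds_diff h, fun z _ => ds_mul f ζ z, fun _ hm => B.lg_ds hc hm h⟩

theorem Mp.eq (h : Mp D f ζ ζ') (hζ : ζ ∈ D) : ζ' = f ζ := by
  obtain ⟨u, -, h, -⟩ := h
  have := h ζ hζ
  rw [sub_self, zero_mul, sub_eq_zero] at this
  exact this.symm

theorem Mp.out (B : Bi D D' f g) (h : Mp D f ζ ζ') (hζ : ζ ∉ D) : ζ' ∉ D' := fun b => by
  obtain ⟨u, -, h1, h2⟩ := h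
  have a := h1 _ (B.gm b)
  rw [B.ri _ b, sub_self] at a
  exact mul_ne_zero (sub_ne_zero.2 fun e : g ζ' = ζ => hζ (e ▸ B.gm b))
    (div_ne_zero_iff.1 ((h2 _ (B.gm b)).ne_zero (B.gm b))).1 a.symm

theorem Mp.symm (B : Bi D D' f g) (h : Mp D f ζ ζ') : Mp D' g ζ' ζ := by
  obtain ⟨u, h0, h1, h2⟩ := h
  have n : ∀ w ∈ D', u (g w) ≠ 0 := fun w hw =>
    (div_ne_zero_iff.1 ((h2 _ (B.gm hw)).ne_zero (B.gm hw))).1
  refine ⟨fun w => (u (g w))⁻¹, (h0.comp B.gd B.gm).inv n, fun w hw => ?_, fun m hm =>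
    ((h2 _ (B.gm hm)).comp B.gd.continuousOn B.gm).inv.congr fun w hw => ?_⟩
  · rw [← B.ri w hw, h1 _ (B.gm hw), B.ri w hw, mul_inv_cancel_right₀ (n w hw)]
  · rw [eq_inv_of_mul_eq_one_left (B.ds_inv hm hw)]
    have := n w hw
    have := B.ds_ne (B.gm hm) (B.gm hw)
    field_simp

theorem Mp.move (ho : IsOpen D) (hc : IsPreconnected D) (h : Mp D f ζ ζ') {K : Set ℂ}
    (hK : IsPreconnected K) (hs : K ⊆ Dᶜ) (h1 : ζ ∈ K) {ξ : ℂ} (h2 : ξ ∈ K) : Mp D f ξ ζ' := by
  obtain ⟨u, a0, a1, a2⟩ := h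
  have n : ∀ z ∈ D, ∀ x ∈ K, z - x ≠ 0 := fun z hz x hx => sub_ne_zero.2 fun e => hs hx (e ▸ hz)
  refine ⟨fun z => (z - ζ) / (z - ξ) * u z, (DifferentiableOn.div (by fun_prop) (by fun_prop)
    fun z hz => n z hz ξ h2).mul a0, fun z hz => ?_, fun m hm => ?_⟩
  · rw [a1 z hz, ← mul_assoc, mul_div_cancel₀ _ (n z hz ξ h2)]
  · refine ((lg_param (h := fun x => (x.1 - ζ) / (x.1 - x.2)) ho hc hK
      (ContinuousOn.div (by fun_prop) (by fun_prop) fun x hx => n _ hx.1 _ hx.2)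
      (fun x hx => div_ne_zero (n _ hx.1 _ h1) (n _ hx.1 _ hx.2)) h1 h2
      ((logOn_const one_ne_zero).congr fun z hz => div_self (n z hz _ h1))).mul
      (a2 m hm)).congr fun z _ => mul_div_assoc _ _ _

/-- Limits of the graph at the boundary. -/
theorem Mp.lim (B : Bi D D' f g) (hc : IsPreconnected D) (h1 : ζ ∉ D) (h2 : ζ' ∉ D')
    (hcl : (ζ, ζ') ∈ closure ((fun m => (m, f m)) '' D)) : Mp D f ζ ζ' := by
  classical
  have n : ∀ z ∈ D, z - ζ ≠ 0 := fun z hz => sub_ne_zero.2 fun e => h1 (e ▸ hz)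
  refine ⟨fun z => (f z - ζ') / (z - ζ), (B.fd.sub_const _).div (by fun_prop) n,
    fun z hz => (mul_div_cancel₀ _ (n z hz)).symm, fun m hm => ?_⟩
  have hP := (hc.image (fun m => (m, f m)) (continuousOn_id.prodMk B.fd.continuousOn)
    ).subset_closure (subset_insert (ζ, ζ') _) (insert_subset hcl subset_closure)
  have c := (B.ds_diff hm).continuousOn
  have := lg_param (h := fun x : ℂ × ℂ × ℂ => (if x.2.1 ∈ D then dslope f x.2.1 x.1 else
    (f x.1 - x.2.2) / (x.1 - x.2.1)) / dslope f m x.1) B.op hc hP (ContinuousOn.div ?_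
      (c.comp continuousOn_fst fun _ hx => hx.1) fun _ hx => B.ds_ne hm hx.1) ?_
    (Or.inr ⟨m, hm, rfl⟩) (mem_insert _ _) ((logOn_const one_ne_zero).congr fun z hz => by
      simp only [if_pos hm]; exact div_self (B.ds_ne hm hz))
  · simpa only [if_neg h1] using this
  · rintro ⟨z, x⟩ ⟨hz, rfl | ⟨w, hw, rfl⟩⟩
    · have c1 : ContinuousAt (fun x : ℂ × ℂ × ℂ => (f x.1 - x.2.2) / (x.1 - x.2.1)) (z, ζ, ζ') :=
        (((B.der hz).continuousAt.comp continuousAt_fst).sub (by fun_prop)).div (by fun_prop)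
          (n z hz)
      refine c1.continuousWithinAt.congr_of_eventuallyEq ?_ (if_neg h1)
      filter_upwards [self_mem_nhdsWithin, nhdsWithin_le_nhds ((isOpen_ne_fun continuous_fst
        (continuous_fst.comp continuous_snd)).mem_nhds (sub_ne_zero.1 (n z hz)))] with x a1 a2
      split_ifs with a3
      · rcases a1.2 with e | ⟨w, -, e⟩
        · exact absurd (by simpa only [e] using a3) h1
        · rw [C.ds_ne f (m := x.2.1) a2, ← e]
      · rfl
    · have c1 : ContinuousAt (fun x : ℂ × ℂ × ℂ => dslope f x.2.1 x.1) (z, w, f w) :=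
        ContinuousAt.comp (f := fun x : ℂ × ℂ × ℂ => (x.1, x.2.1)) (x := (z, w, f w))
          (B.ds_cont.continuousAt ((B.op.prod B.op).mem_nhds (mk_mem_prod hz hw))) (by fun_prop)
      refine (c1.congr ?_).continuousWithinAt
      filter_upwards [(continuous_fst.comp continuous_snd).continuousAt.preimage_mem_nhds
        (B.op.mem_nhds hw)] with x hx
      exact (if_pos hx).symm
  · rintro ⟨z, x⟩ ⟨hz, rfl | ⟨w, hw, rfl⟩⟩
    · simp only [if_neg h1]
      exact div_ne_zero (div_ne_zero (sub_ne_zero.2 fun e => h2 (e ▸ B.fm hz)) (n z hz))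
        (B.ds_ne hm hz)
    · simp only [if_pos hw]
      exact div_ne_zero (B.ds_ne hw hz) (B.ds_ne hm hz)

/-- **Every outer point has corresponding outer points.** -/
theorem exists_mp (h : Sm D) (h' : Sm D') (B : Bi D D' f g) {ξ : ℂ} (hξ : ξ ∉ D) :
    ∃ w : ℂ, ∃ ρ > (0 : ℝ), ball w ρ ⊆ P144Y.Ext D' ∧ ∀ ξ' ∈ ball w ρ, Mp D f ξ ξ' := by
  obtain ⟨κ, r, R, c⟩ := cn_of_lip3 h.lip h.con
  obtain ⟨κ', r', R', c'⟩ := cn_of_lip3 h'.lip h'.con
  obtain ⟨x, hx⟩ := h.con.nonempty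
  obtain ⟨q, hq⟩ : (frontier (cc D ξ)).Nonempty := nonempty_frontier_iff.2
    ⟨⟨ξ, mem_cc hξ⟩, fun e => cc_sub D ξ (e.symm ▸ mem_univ x) hx⟩
  have q1 : q ∈ cc D ξ := (c.closed ξ).frontier_subset hq
  have q2 : q ∈ closure D := by
    rw [Metric.mem_closure_iff]
    intro ε hε
    rw [← frontier_compl] at hq
    obtain ⟨z, hz, hd⟩ := Metric.mem_closure_iff.1 (frontier_subset_closure hq) _
      (lt_min hε (mul_pos c.k0 (div_pos c.r0 four_pos)))
    refine ⟨z, by_contra fun b => hz (c.sep q1 b ?_), hd.trans_le (min_le_left _ _)⟩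
    rw [← dist_eq_norm, dist_comm]
    exact hd.trans_le (min_le_right _ _)
  have := mem_closure_iff_nhdsWithin_neBot.1 q2
  have hU := Ultrafilter.of_le (𝓝[D] q)
  generalize Ultrafilter.of (𝓝[D] q) = U at hU
  have hD : ∀ᶠ m in (U : Filter ℂ), m ∈ D := hU self_mem_nhdsWithin
  obtain ⟨p, hp, hl⟩ := h'.lip.2.1.isCompact_closure.ultrafilter_le_nhds (U.map f)
    (le_principal_iff.2 (hD.mono fun m hm => subset_closure (B.fm hm)))
  have hl : Tendsto f U (𝓝 p) := hl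
  have hq' : Tendsto id (U : Filter ℂ) (𝓝 q) := hU.trans nhdsWithin_le_nhds
  have p1 : p ∉ D' := fun b => cc_sub D ξ q1 (tendsto_nhds_unique
    (((B.symm.der b).continuousAt.tendsto.comp hl).congr' (hD.mono fun m hm => B.li m hm)) hq' ▸
      B.gm b)
  have m1 := (Mp.lim B h.con.isPreconnected (cc_sub D ξ q1) p1 (mem_closure_of_tendsto
    (hq'.prodMk_nhds hl) (hD.mono fun m hm => ⟨m, hm, rfl⟩))).move B.op h.con.isPreconnected
    (cc_pre D ξ) (cc_sub D ξ) q1 (mem_cc hξ)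
  obtain ⟨k, k0, k1, r₀, r0, hF⟩ := P144Q.V.fat' (P144Q.L.fat3 h'.lip)
  have s0 := mul_pos c'.k0 (div_pos c'.r0 four_pos)
  obtain ⟨t, t0, t1, t2, t3⟩ : ∃ t > (0 : ℝ), t ≤ r₀ ∧ t ≤ 1 / 8 ∧ t ≤ κ' * (r' / 4) / 2 :=
    ⟨min r₀ (min (1 / 8) (κ' * (r' / 4) / 2)), by positivity, min_le_left _ _,
      (min_le_right _ _).trans (min_le_left _ _), (min_le_right _ _).trans (min_le_right _ _)⟩
  obtain ⟨w, w1, w2⟩ := hF p p1 t t0 t1
  have w3 : ∀ y ∈ ball w (k * t), y ∉ D' := fun y hy => w2 y (mem_ball_iff_norm.1 hy).le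
  have w4 : ∀ y ∈ ball w (k * t), ‖y - p‖ < 2 * t := fun y hy => by
    nlinarith [mem_ball_iff_norm.1 hy, norm_sub_le_norm_sub_add_norm_sub y w p]
  refine ⟨w, k * t, by positivity, fun y hy => ⟨?_, fun b => ?_⟩, fun y hy =>
    ((m1.symm B).move B.op' h'.con.isPreconnected (cc_pre D' p) (cc_sub D' p) (mem_cc p1)
      (c'.sep (mem_cc p1) (w3 y hy) (by linarith [w4 y hy]))).symm B.symm⟩
  · have := closure_ball_subset_closedBall (closure_mono h'.small hp)
    rw [mem_closedBall_zero_iff] at this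
    linarith [w4 y hy, norm_le_norm_sub_add y p]
  · obtain ⟨z, z1, z2⟩ := mem_closure_iff_nhds.1 b _ (isOpen_ball.mem_nhds hy)
    exact w3 z z1 z2

/-! ### The square root -/

theorem lg_prod {κ : Type} (T : Finset κ) {u : κ → ℂ → ℂ} (h : ∀ p, LogOn D (u p)) :
    LogOn D fun z => ∏ p ∈ T, u p z := by
  classical
  induction T using Finset.induction_on with
  | empty => simpa using logOn_const one_ne_zero
  | insert p T hp ih => simpa only [Finset.prod_insert hp] using (h p).mul ih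

theorem sq_of (B : Bi D D' f g) (hc : IsConnected D) {κ : Type} [Fintype κ] {u : κ → ℂ → ℂ}
    (hd : ∀ p, DifferentiableOn ℂ (u p) D) (hl : ∀ p, ∀ m ∈ D, LogOn D fun z => u p z / dslope f m z)
    (he : Even (Fintype.card κ)) : ∃ s, DifferentiableOn ℂ s D ∧
      ∀ z ∈ D, s z ≠ 0 ∧ s z ^ 2 * ∏ p, u p z = deriv f z := by
  obtain ⟨m, hm⟩ := hc.nonempty
  obtain ⟨k, hk⟩ := he
  have n := fun z hz => B.ds_ne (z := z) hm hz
  have l := lg_prod Finset.univ fun p => hl p m hm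
  obtain ⟨s, s1, s2⟩ := sq_of_log B.op (((B.fd.deriv B.op).div ((B.ds_diff hm).pow 2)
    fun z hz => pow_ne_zero 2 (n z hz)).div (DifferentiableOn.fun_finsetProd fun p _ =>
      (hd p).div (B.ds_diff hm) n) fun z hz => l.ne_zero hz) ((B.lg_der hc.isPreconnected hm).div l)
  refine ⟨fun z => s z * dslope f m z / dslope f m z ^ k, (s1.mul (B.ds_diff hm)).div
    ((B.ds_diff hm).pow k) fun z hz => pow_ne_zero k (n z hz), fun z hz =>
      ⟨div_ne_zero (mul_ne_zero (s2 z hz).1 (n z hz)) (pow_ne_zero k (n z hz)), ?_⟩⟩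
  have a := l.ne_zero hz
  have b := n z hz
  rw [div_pow, mul_pow, (s2 z hz).2]
  simp only [Pi.div_apply, Pi.pow_apply, Finset.prod_div_distrib, Finset.prod_const,
    Finset.card_univ, hk] at a ⊢
  have c := (div_ne_zero_iff.1 a).1
  field_simp
  ring

open Classical in
/-- The quotient of the factors of two corresponding points. -/
noncomputable def uf (D : Set ℂ) (f : ℂ → ℂ) (ζ ζ' z : ℂ) : ℂ :=
  if ζ ∈ D then dslope f ζ z else (f z - ζ') / (z - ζ)

theorem uf_in (h : ζ ∈ D) : uf D f ζ ζ' = dslope f ζ := funext fun _ => if_pos h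

theorem Mp.uf (B : Bi D D' f g) (hc : IsPreconnected D) (h : Mp D f ζ ζ') :
    DifferentiableOn ℂ (uf D f ζ ζ') D ∧ (∀ z ∈ D, f z - ζ' = (z - ζ) * uf D f ζ ζ' z) ∧
      ∀ m ∈ D, LogOn D fun z => uf D f ζ ζ' z / dslope f m z := by
  by_cases a : ζ ∈ D
  · rw [uf_in a, h.eq a]
    exact ⟨B.ds_diff a, fun z _ => ds_mul f ζ z, fun _ hm => B.lg_ds hc hm a⟩
  obtain ⟨u, h0, h1, h2⟩ := h
  have e : ∀ z ∈ D, C.uf D f ζ ζ' z = u z := fun z hz => by
    rw [C.uf, if_neg a, h1 z hz, mul_div_cancel_left₀ _ (sub_ne_zero.2 fun e : z = ζ => a (e ▸ hz))]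
  exact ⟨h0.congr e, fun z hz => by rw [e z hz, h1 z hz],
    fun m hm => (h2 m hm).congr fun z hz => by rw [e z hz]⟩

section

variable {κ κ' : Type} [Fintype κ] [Fintype κ']

/-- `s` transports the spinors with the branch points `ζ'`, `f ω` to spinors with the branch
points `ζ`, `ω`. -/
structure Tp (D : Set ℂ) (f : ℂ → ℂ) (ζ ζ' : κ → ℂ) (ω : κ' → ℂ) (s : ℂ → ℂ) : Prop where
  sd : DifferentiableOn ℂ s D
  ne : ∀ z ∈ D, s z ≠ 0
  mp : ∀ p, Mp D f (ζ p) (ζ' p)
  fac : ∀ p, ∀ z ∈ D, f z - ζ' p = (z - ζ p) * uf D f (ζ p) (ζ' p) z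
  ufn : ∀ p, ∀ z ∈ D, uf D f (ζ p) (ζ' p) z ≠ 0
  dsn : ∀ p, ∀ z ∈ D, dslope f (ω p) z ≠ 0
  eq : ∀ z ∈ D, s z ^ 2 * ((∏ p, uf D f (ζ p) (ζ' p) z) * ∏ p, dslope f (ω p) z) = deriv f z

variable {ζ ζ' : κ → ℂ} {ω : κ' → ℂ} {s q : ℂ → ℂ}

/-- **The square root exists.** -/
theorem exists_tp (B : Bi D D' f g) (hc : IsConnected D) (h : ∀ p, Mp D f (ζ p) (ζ' p))
    (hω : ∀ p, ω p ∈ D) (he : Even (Fintype.card κ + Fintype.card κ')) : ∃ s, Tp D f ζ ζ' ω s := by
  have k := fun p => (h p).uf B hc.isPreconnected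
  obtain ⟨s, s1, s2⟩ := sq_of B hc (u := Sum.elim (fun p => uf D f (ζ p) (ζ' p))
    fun p => dslope f (ω p)) (Sum.rec (fun p => (k p).1) fun p => B.ds_diff (hω p))
    (Sum.rec (fun p => (k p).2.2) fun p _ hm => B.lg_ds hc.isPreconnected hm (hω p))
    (by rwa [Fintype.card_sum])
  exact ⟨s, s1, fun z hz => (s2 z hz).1, h, fun p => (k p).2.1,
    fun p z hz => (div_ne_zero_iff.1 (((k p).2.2 z hz).ne_zero hz)).1,
    fun p z hz => B.ds_ne (hω p) hz, fun z hz => by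
      simpa only [Fintype.prod_sum_type, Sum.elim_inl, Sum.elim_inr] using (s2 z hz).2⟩

theorem Tp.pp (h : Tp D f ζ ζ' ω s) {z : ℂ} (hz : z ∈ D) : PP ζ' (fun p => f (ω p)) (f z) =
    PP ζ ω z * ((∏ p, uf D f (ζ p) (ζ' p) z) * ∏ p, dslope f (ω p) z) := by
  unfold PP
  simp only [fun p => h.fac p z hz, ds_mul f _ z, Finset.prod_mul_distrib]
  ring

theorem Tp.F2 (h : Tp D f ζ ζ' ω s) (q : ℂ → ℂ) {z : ℂ} (hz : z ∈ D) :
    F2 ζ ω (fun z => q (f z) * s z) z = F2 ζ' (fun p => f (ω p)) q (f z) * deriv f z := by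
  have a := mul_ne_zero (Finset.prod_ne_zero_iff.2 fun p (_ : p ∈ Finset.univ) => h.ufn p z hz)
    (Finset.prod_ne_zero_iff.2 fun p (_ : p ∈ Finset.univ) => h.dsn p z hz)
  unfold P144.H170.F2
  rw [h.pp hz, ← h.eq z hz, div_mul_eq_mul_div, ← mul_assoc, mul_div_mul_right _ _ a, mul_pow]

/-- Transport of the boundary condition. -/
theorem Tp.bd (h : Tp D f ζ ζ' ω s) (B : Bi D D' f g) (hD' : HasAt D')
    (b : BdA D' (P144.H170.F2 ζ' (fun p => f (ω p)) q)) :
    BdA D (P144.H170.F2 ζ ω fun z => q (f z) * s z) :=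
  b.pull B hD' isCompact_empty (empty_subset _) fun _ hz _ => h.F2 q hz

/-- Transport of the residues. -/
theorem Tp.res (h : Tp D f ζ ζ' ω s) (B : Bi D D' f g) {m : ℂ} (hm : m ∈ D)
    (r : ResNN ζ' (fun p => f (ω p)) q (f m)) : ResNN ζ ω (fun z => q (f z) * s z) m := by
  obtain ⟨c, hc, hl⟩ := r
  have t1 : Tendsto f (𝓝[≠] m) (𝓝[≠] (f m)) := by
    refine tendsto_nhdsWithin_iff.2 ⟨(B.der hm).continuousAt.tendsto.mono_left
      nhdsWithin_le_nhds, ?_⟩
    filter_upwards [self_mem_nhdsWithin, nhdsWithin_le_nhds (B.op.mem_nhds hm)] with y a b e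
    exact a (B.inj b hm e)
  have t2 := (((B.fd.deriv B.op).continuousOn.continuousAt (B.op.mem_nhds hm)).div
    ((B.ds_diff hm).continuousOn.continuousAt (B.op.mem_nhds hm)) (B.ds_ne hm hm)).tendsto
  rw [Pi.div_apply, dslope_same, div_self (B.ne hm)] at t2
  have t3 := (hl.comp t1).mul (t2.mono_left nhdsWithin_le_nhds)
  rw [mul_one] at t3
  refine ⟨c, hc, t3.congr' ?_⟩
  filter_upwards [nhdsWithin_le_nhds (B.op.mem_nhds hm)] with y b
  have e := h.F2 q b
  have n := B.ds_ne hm b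
  unfold P144.H170.F2 at e
  simp only [Function.comp_apply, gq, Pi.div_apply]
  rw [e, ds_mul f m y]
  field_simp

/-- The identity at a single source. -/
theorem Tp.one {ω : ℂ} (h : Tp D f ζ ζ' (fun _ : Unit => ω) s) {z : ℂ} (hz : z ∈ D) :
    s z ^ 2 * (∏ p, (f z - ζ' p)) * dslope f ω z = deriv f z * ∏ p, (z - ζ p) := by
  rw [← h.eq z hz]
  simp only [fun p => h.fac p z hz, Finset.prod_mul_distrib, Fintype.prod_unique]
  ring

theorem Tp.src {ω : ℂ} (h : Tp D f ζ ζ' (fun _ : Unit => ω) s) (hω : ω ∈ D) {c : ℂ}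
    (e : c * q (f ω) ^ 2 = ∏ p, (f ω - ζ' p)) : c * (q (f ω) * s ω) ^ 2 = ∏ p, (ω - ζ p) := by
  have a := h.one hω
  have n := h.dsn () ω hω
  rw [dslope_same] at a n
  rw [← e] at a
  exact mul_left_cancel₀ n (by linear_combination a)

/-! ### The reflection -/

theorem PP_rc (ζ : κ → ℂ) (ω : κ' → ℂ) (z : ℂ) : PP (fun p => rc (ζ p)) (fun p => rc (ω p)) (rc z) =
    (-1) ^ (Fintype.card κ + Fintype.card κ') * conj (PP ζ ω z) := by
  unfold PP
  simp only [rc_sub, Finset.prod_neg, Finset.card_univ, map_mul, map_prod, pow_add]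
  ring

theorem F2_rc {u : ℂ} (hu : u ^ 2 = -I * (-1) ^ (Fintype.card κ + Fintype.card κ')) (z : ℂ) :
    P144.H170.F2 ζ ω (fun z => u * conj (q (rc z))) z =
      -I * conj (P144.H170.F2 (fun p => rc (ζ p)) (fun p => rc (ω p)) q (rc z)) := by
  unfold P144.H170.F2
  rw [PP_rc, mul_pow, hu]
  simp only [map_div₀, map_mul, map_pow, map_neg, map_one, conj_conj]
  rcases neg_one_pow_eq_or ℂ (Fintype.card κ + Fintype.card κ') with e | e <;> rw [e] <;> ring

theorem bd_rc {u : ℂ} (hu : u ^ 2 = -I * (-1) ^ (Fintype.card κ + Fintype.card κ'))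
    (b : BdA (rc '' D) (P144.H170.F2 (fun p => rc (ζ p)) (fun p => rc (ω p)) q)) :
    BdA D (P144.H170.F2 ζ ω fun z => u * conj (q (rc z))) :=
  b.refl isCompact_empty (empty_subset _) fun z _ _ => F2_rc hu z

theorem res_rc {u : ℂ} (hu : u ^ 2 = -I * (-1) ^ (Fintype.card κ + Fintype.card κ')) {m : ℂ}
    (r : ResNN (fun p => rc (ζ p)) (fun p => rc (ω p)) q (rc m)) :
    ResNN ζ ω (fun z => u * conj (q (rc z))) m := by
  obtain ⟨c, hc, hl⟩ := r
  have t1 : Tendsto rc (𝓝[≠] m) (𝓝[≠] (rc m)) := by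
    refine tendsto_nhdsWithin_iff.2 ⟨(P144Q.U.rc_cont.tendsto m).mono_left nhdsWithin_le_nhds, ?_⟩
    filter_upwards [self_mem_nhdsWithin] with y a e
    exact a (by rw [← rc_rc y, mem_singleton_iff.1 e, rc_rc]; rfl)
  have t2 := (continuous_conj.tendsto _).comp (hl.comp t1)
  rw [conj_ofReal] at t2
  refine ⟨c, hc, t2.congr fun y => ?_⟩
  have e := F2_rc (ζ := ζ) (ω := ω) (q := q) hu y
  have e3 : conj (⟨-1 / 2, 1 / 2⟩ : ℂ) = (⟨-1 / 2, 1 / 2⟩ : ℂ) * I := by
    apply Complex.ext <;> simp <;> ring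
  unfold P144.H170.F2 at e
  simp only [Function.comp_apply, gq]
  rw [e, rc_sub, map_mul, map_mul, map_neg, conj_conj, e3]
  ring

theorem diff_rc (ho : IsOpen D) {T : Set ℂ} (hT : IsClosed T) (u : ℂ)
    (h : DifferentiableOn ℂ q (rc '' D \ rc '' T)) :
    DifferentiableOn ℂ (fun z => u * conj (q (rc z))) (D \ T) := fun z hz => by
  have o : IsOpen (rc '' D \ rc '' T) := by
    rw [P144Q.U.rc_image, P144Q.U.rc_image]
    exact (ho.sdiff hT).preimage P144Q.U.rc_cont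
  exact ((der_rc (h.differentiableAt (o.mem_nhds ⟨⟨z, hz.1, rfl⟩, fun b => hz.2 (by
    simpa only [rc_rc] using mem_rc.1 b)⟩)).hasDerivAt).const_mul u
    ).differentiableAt.differentiableWithinAt

theorem src_rc {ω u : ℂ} (hu : u ^ 2 = -I * (-1) ^ (Fintype.card κ + Fintype.card Unit))
    (e : (Real.pi / 2 : ℂ) * (1 - I) * q (rc ω) ^ 2 = ∏ p, (rc ω - rc (ζ p))) :
    (Real.pi / 2 : ℂ) * (1 - I) * (u * conj (q (rc ω))) ^ 2 = ∏ p, (ω - ζ p) := by
  have a := congrArg conj e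
  simp only [rc_sub, Finset.prod_neg, Finset.card_univ, map_mul, map_prod, map_pow, map_neg,
    map_one, conj_conj, map_sub, conj_I, map_div₀, conj_ofReal, conj_ofNat] at a
  rw [mul_pow, hu, Fintype.card_unit, pow_succ]
  rcases neg_one_pow_eq_or ℂ (Fintype.card κ) with b | b <;> rw [b] at a ⊢
  · linear_combination a + (-(Real.pi / 2 : ℂ) * conj (q (rc ω)) ^ 2) * I_mul_I
  · linear_combination -a + ((Real.pi / 2 : ℂ) * conj (q (rc ω)) ^ 2) * I_mul_I

end

end Vale.Agent.N144.C
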