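import Vale.Agent.N144.C.Defs
import Vale.Agent.N144.C.Sqrt

/-!
The statements about the disorder correlations and the algebraic blocks.
-/

namespace Vale.Agent.N144.C

open Filter Topology Finset Vale.Agent.P144
open Vale.Agent.P144Y (Dom Ext FamP Rep GW fm)
open Vale.Agent.P144T (Fam0 Good0 Gn)
open scoped symmDiff

/-- The limit of the disorder correlations of the free model along moving points. -/
def GLim (Λ : ℝ → Finset Site) {n : ℕ} (x : Fin n → ℂ) (g : ℝ) : Prop :=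
  ∀ (ι : Type) (l : Filter ι) (a : ι → ℝ) (x' : ι → Fin n → ℂ), Tendsto a l (𝓝[>] 0) →
    (∀ i, Tendsto (fun k => x' k i) l (𝓝 (x i))) →
      Tendsto (fun k => Gn Λ (univ.image (x' k)) (a k)) l (𝓝 g)

/-- The same with the spins of the components of the points of `S`. -/
def WLim (P : ℝ → Finset Site) {n : ℕ} (x : Fin n → ℂ) (S : Finset ℂ) (g : ℝ) : Prop :=
  ∀ (ι : Type) (l : Filter ι) (a : ι → ℝ) (x' : ι → Fin n → ℂ), Tendsto a l (𝓝[>] 0) →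
    (∀ i, Tendsto (fun k => x' k i) l (𝓝 (x i))) →
      Tendsto (fun k => GW P (univ.image (x' k)) S (a k)) l (𝓝 g)

/-- The factor of the spins. -/
noncomputable def sf (φ : ℂ → ℂ) {n : ℕ} (x : Fin n → ℂ) : ℝ := ∏ i, ‖deriv φ (x i)‖ ^ (1 / 8 : ℝ)

/-- The factor of the energies. -/
noncomputable def ef (φ : ℂ → ℂ) {m : ℕ} (y : Fin m → ℂ) : ℝ := ∏ k, ‖deriv φ (y k)‖

/-- The spins of a configuration. -/
abbrev q0 (p : Pts) : Pts := ⟨p.n, 0, p.x, Fin.elim0, Fin.elim0⟩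

/-- No energies. -/
def eN : EF 0 := ⟨Fin.elim0, Fin.elim0, Fin.elim0⟩

/-- Moving points, free model. -/
def SGm : Prop := ∀ (D : Set ℂ) (Λ : ℝ → Finset Site), Sm D → Fam0 D Λ →
  ∀ (n : ℕ) (x : Fin n → ℂ), Even n → Function.Injective x → (∀ i, x i ∈ D) → ∃ g > 0, GLim Λ x g

/-- Moving points, plus model. -/
def SWm : Prop := ∀ (D : Set ℂ) (P : ℝ → Finset Site), Sm D → FamP D P →
  ∀ (n : ℕ) (x : Fin n → ℂ) (S : Finset ℂ), Function.Injective x → (∀ i, x i ∈ D) →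
    (∀ z ∈ S, z ∈ Ext D) → ∃ g > 0, WLim P x S g

/-- Covariance of the disorder correlations, free model. -/
def SGc : Prop := ∀ (D D' : Set ℂ) (φ : ℂ → ℂ) (Λ Λ' : ℝ → Finset Site), Sm D → Sm D' →
  Bih D D' φ → Fam0 D Λ → Fam0 D' Λ' → ∀ (n : ℕ) (x : Fin n → ℂ), Even n →
    Function.Injective x → (∀ i, x i ∈ D) → ∀ g g' : ℝ, GLim Λ x g →
      GLim Λ' (fun i => φ (x i)) g' → g = sf φ x * g'

/-- Covariance of the disorder correlations, plus model. -/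
def SWc : Prop := ∀ (D D' : Set ℂ) (φ : ℂ → ℂ) (P P' : ℝ → Finset Site), Sm D → Sm D' →
  Bih D D' φ → FamP D P → FamP D' P' → ∀ (N : ℕ) (ξ ξ' : Fin N → ℂ), Function.Injective ξ →
    Function.Injective ξ' → (∀ s, ξ s ∈ Ext D) → (∀ s, ξ' s ∈ Ext D') →
    (∀ s, Mp D φ (ξ s) (ξ' s)) → ∀ (n : ℕ) (x : Fin n → ℂ) (S : Finset (Fin N)),
      Even (n + S.card) → Function.Injective x → (∀ i, x i ∈ D) → ∀ g g' : ℝ,
        WLim P x (S.image ξ) g → WLim P' (fun i => φ (x i)) (S.image ξ') g' → g = sf φ x * g'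

/-- Matching domains exist, with corresponding outer points. -/
def SPair2 : Prop := ∀ (D D' : Set ℂ) (φ : ℂ → ℂ), Sm D → Sm D' → Bih D D' φ →
  ∃ c : Pair φ, c.Ω.D = D ∧ c.Ω'.D = D' ∧ ∀ s, Mp D φ (c.ξ s) (c.ξ' s)

/-- Covariance of the Pfaffian of the free model. -/
def SAlgF : Prop := ∀ (φ : ℂ → ℂ) (c : Pair0 φ) (p : Pts), Good0 c.Ω.D p → Even p.n →
  ∀ (s s' : Fin p.n → ℂ → ℂ) (e e₀ e' e₀' : EF p.m), IsF c.Ω p s e e₀ →
    IsF c.Ω' (im φ p) s' e' e₀' → 0 < vF (q0 p) s eN eN → 0 < vF (q0 (im φ p)) s' eN eN →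
      vF p s e e₀ = ef φ p.y * vF (im φ p) s' e' e₀'

/-- Covariance of the value of the plus model. -/
def SAlgP : Prop := ∀ (φ : ℂ → ℂ) (c : Pair φ) (p : Pts), Good0 c.Ω.D p →
  ∀ (g g₀ g' g₀' : Finset ℂ → ℝ) (e e₀ e' e₀' : Finset ℂ → EF p.m) (t : ℝ),
    (∀ S ⊆ univ.image c.ξ, IsE c.Ω (P144Y.C.zs p S) p.y (e S)) →
    (∀ S ⊆ univ.image c.ξ, IsE c.Ω (P144Y.C.zs (P144Y.J.p0 p) S) p.y (e₀ S)) →
    (∀ S ⊆ univ.image c.ξ', IsE c.Ω' (P144Y.C.zs (im φ p) S) (im φ p).y (e' S)) →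
    (∀ S ⊆ univ.image c.ξ', IsE c.Ω' (P144Y.C.zs (P144Y.J.p0 (im φ p)) S) (im φ p).y (e₀' S)) →
    (∀ S : Finset (Fin c.N), Even (p.n + S.card) → g (S.image c.ξ) = t * g' (S.image c.ξ')) →
    (∀ S : Finset (Fin c.N), Even S.card → g₀ (S.image c.ξ) = g₀' (S.image c.ξ')) →
    (∀ S : Finset (Fin c.N), g ((S ∆ {c.o}).image c.ξ) = g (S.image c.ξ) ∧
      g₀ ((S ∆ {c.o}).image c.ξ) = g₀ (S.image c.ξ)) →
    (∀ S : Finset (Fin c.N), g' ((S ∆ {c.o'}).image c.ξ') = g' (S.image c.ξ') ∧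
      g₀' ((S ∆ {c.o'}).image c.ξ') = g₀' (S.image c.ξ')) →
      cP p (univ.image c.ξ) g g₀ e e₀ =
        t * ef φ p.y * cP (im φ p) (univ.image c.ξ') g' g₀' e' e₀'

end Vale.Agent.N144.C
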