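import Vale.Agent.N144.C.AlgP

/-!
Covariance of the Pfaffian of the free model.
-/

namespace Vale.Agent.N144.C

open Finset Vale.Agent.P144
open Vale.Agent.P144.AL (Pf Pf_congr Pf_scale Pf_map flat flat_cons flat_map flat_length Lb lbs)
open Vale.Agent.P144.H135 (w0)
open Vale.Agent.P144S.F (sj)
open Vale.Agent.P144Y (Dom)
open Vale.Agent.P144T (Good0)

section phase

variable {α ι : Type} {K : α → α → ℂ} {e : ι → ℂ → α}

/-- The kernel is bilinear in the phases and vanishes on the diagonal. -/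
structure Bc (K : α → α → ℂ) (e : ι → ℂ → α) : Prop where
  l : ∀ k (s t : ℝ) η η' y, K (e k (s * η + t * η')) y = s * K (e k η) y + t * K (e k η') y
  r : ∀ k (s t : ℝ) η η' y, K y (e k (s * η + t * η')) = s * K y (e k η) + t * K y (e k η')
  z : ∀ k η, K (e k η) (e k η) = 0

theorem Bc.slot (h : Bc K e) (k : ι) (η : ℂ) (p r : List α) : Pf K (p ++ e k η :: r) =
    η.re * Pf K (p ++ e k 1 :: r) + η.im * Pf K (p ++ e k Complex.I :: r) := by
  have a : η = η.re * 1 + η.im * Complex.I := by simp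
  conv_lhs => rw [a]
  exact pf_slot (h.r k _ _ _ _) (h.l k _ _ _ _) p r

theorem Bc.pair (h : Bc K e) (k : ι) (η η' : ℂ) (p r : List α) :
    Pf K (p ++ e k η :: e k η' :: r) =
      (η.re * η'.im - η.im * η'.re : ℝ) * Pf K (p ++ e k 1 :: e k Complex.I :: r) := by
  have key : ∀ η η' : ℂ, Pf K (p ++ e k η :: e k η' :: r) =
      η.re * η'.im * Pf K (p ++ e k 1 :: e k Complex.I :: r) +
        η.im * η'.re * Pf K (p ++ e k Complex.I :: e k 1 :: r) := fun η η' => by
    have a := h.slot k η' (p ++ [e k 1]) r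
    have b := h.slot k η' (p ++ [e k Complex.I]) r
    simp only [List.append_assoc, List.singleton_append] at a b
    rw [h.slot, a, b, pf_rep (h.z _ _), pf_rep (h.z _ _)]
    ring
  have a := key (1 + Complex.I) (1 + Complex.I)
  rw [pf_rep (h.z _ _)] at a
  simp only [Complex.add_re, Complex.one_re, Complex.I_re, Complex.add_im, Complex.one_im,
    Complex.I_im, add_zero, zero_add, Complex.ofReal_one] at a
  rw [key]
  push_cast
  linear_combination (-η.im * η'.re : ℂ) * a

theorem Bc.phase (h : Bc K e) (a b σ : ι → ℂ) (ks : List ι) (p : List α) :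
    Pf K (p ++ flat (fun k => e k (a k * σ k)) (fun k => e k (b k * σ k)) ks) =
      ((ks.map fun k => ‖σ k ^ 2‖).prod : ℝ) *
        Pf K (p ++ flat (fun k => e k (a k)) (fun k => e k (b k)) ks) := by
  induction ks generalizing p with
  | nil => simp [flat]
  | cons k ks ih =>
    have := ih (p ++ [e k 1, e k Complex.I])
    simp only [List.append_assoc, List.cons_append, List.nil_append] at this
    rw [flat_cons, flat_cons, h.pair, h.pair k (a k), this, List.map_cons, List.prod_cons, norm_pow,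
      Complex.sq_norm, Complex.normSq_apply, ← mul_assoc, ← mul_assoc, ← Complex.ofReal_mul,
      ← Complex.ofReal_mul]
    simp only [Complex.mul_re, Complex.mul_im]
    congr 2
    ring

end phase

section

variable {n m : ℕ} (x : Fin n → ℂ) (y : Fin m → ℂ) (s : Fin n → ℂ → ℂ) (e : EF m)
  (Y : Fin m → ℂ → ℂ)

/-- The kernel with arbitrary phases. -/
noncomputable def kX : Fin n ⊕ Fin m × ℂ → Fin n ⊕ Fin m × ℂ → ℂ
  | .inl i, .inl j => -(Complex.I * (sc0 * s j (x i)) * (sc0 * s j (x j)))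
  | .inl j, .inr u => ((u.2 * (s j (y u.1) / e.R u.1)).re : ℝ) * (sc0 * s j (x j))
  | .inr u, .inr v => (kE e y Y u.1 u.2 v.1 v.2 : ℝ)
  | .inr _, .inl _ => 0

theorem pf_kF (η : Fin m → Bool → ℂ) (ks : List (Fin m)) :
    Pf (kF x y s e Y η) (lbs ks []) = Pf (kX x y s e Y) ((List.finRange n).map .inl ++
      flat (fun k => .inr (k, η k false)) (fun k => .inr (k, η k true)) ks) := by
  let g : Fin n ⊕ Fin m × Bool → Lb n m :=
    Sum.elim .src fun u => if u.2 then .hi u.1 else .lo u.1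
  let L : List (Fin n ⊕ Fin m × Bool) := (List.finRange n).map .inl ++
    flat (fun k => .inr (k, false)) (fun k => .inr (k, true)) ks
  have a : lbs ks [] = L.map g := by simp [L, g, lbs, flat_map]
  have b := Pf_map (kX x y s e Y) (Sum.map id fun u : Fin m × Bool => (u.1, η u.1 u.2)) L
  simp only [L, List.map_append, List.map_map, flat_map] at b
  rw [a, Pf_map]
  refine Eq.trans (congrArg (Pf · L) ?_) b.symm
  funext u v
  rcases u with i | ⟨k, _ | _⟩ <;> rcases v with j | ⟨l, _ | _⟩ <;> rfl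

theorem cs_sq (hx : Function.Injective x) (L : List (Fin n)) (hL : L.Nodup) :
    csL x L ^ 2 * ∏ j ∈ L.toFinset, ∏ i ∈ L.toFinset.erase j, (x j - x i) = 1 := by
  induction L with
  | nil => simp [csL]
  | cons i L ih =>
    obtain ⟨h1, h2⟩ := List.nodup_cons.1 hL
    have h3 : i ∉ L.toFinset := fun b => h1 (List.mem_toFinset.1 b)
    have a : ∏ j ∈ L.toFinset, ∏ k ∈ (insert i L.toFinset).erase j, (x j - x k) =
        (∏ j ∈ L.toFinset, (x j - x i)) * ∏ j ∈ L.toFinset, ∏ k ∈ L.toFinset.erase j, (x j - x k) := by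
      rw [← prod_mul_distrib]
      refine prod_congr rfl fun j hj => ?_
      rw [erase_insert_of_ne fun b : i = j => h3 (b ▸ hj), prod_insert fun b => h3 (mem_of_mem_erase b)]
    have b : (∏ j ∈ L.toFinset, 1 / (Complex.I * (x i - x j))) ^ 2 *
        ((∏ j ∈ L.toFinset, (x i - x j)) * ∏ j ∈ L.toFinset, (x j - x i)) = 1 := by
      rw [← prod_pow, ← prod_mul_distrib, ← prod_mul_distrib]
      refine prod_eq_one fun j hj => ?_
      have : x i - x j ≠ 0 := sub_ne_zero.2 fun b => h3 (hx b ▸ hj)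
      field_simp
      simp
    rw [csL, List.toFinset_cons, prod_insert h3, erase_insert h3, a, ← List.prod_toFinset _ h2]
    linear_combination (csL x L ^ 2 * ∏ j ∈ L.toFinset, ∏ i ∈ L.toFinset.erase j, (x j - x i)) * b +
      ih h2

theorem cs_sq' (hx : Function.Injective x) : csL x (List.finRange n) ^ 2 *
    ∏ j, ∏ i : {i // i ≠ j}, (x j - x i) = 1 := by
  rw [← cs_sq x hx _ (List.nodup_finRange n), List.toFinset_finRange]
  congr 1
  exact prod_congr rfl fun j _ => (prod_subtype _ (by simp) fun i => x j - x i).symm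

end

variable {κ : Type} [Fintype κ] {Ω : Dom} {ζ : κ → ℂ}

theorem IsE.bc {n m : ℕ} (x : Fin n → ℂ) (s : Fin n → ℂ → ℂ) {y : Fin m → ℂ} {e : EF m}
    (h : IsE Ω ζ y e) {Y : Fin m → ℂ → ℂ} (hY : LA Y) :
    Bc (kX x y s e Y) fun k η => .inr (k, η) := by
  have b := h.bl hY
  refine ⟨fun k s t η η' v => ?_, fun k s t η η' v => ?_, fun k η => ?_⟩
  · rcases v with j | v
    · simp [kX]
    · simp only [kX]
      exact_mod_cast b.l k s t η η' v
  · rcases v with j | v
    · simp only [kX, add_mul, mul_assoc, Complex.add_re, Complex.re_ofReal_mul]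
      push_cast
      ring
    · simp only [kX]
      exact_mod_cast b.r k s t η η' v
  · simp only [kX]
    exact_mod_cast b.z (k, η)

theorem x_inj {D : Set ℂ} {p : Pts} (hp : Good0 D p) : Function.Injective p.x := fun _ _ h =>
  Sum.inl_injective (hp.2.2 (by simpa using h))

theorem vF_cov {φ m : ℂ → ℂ} {c : Pair0 φ} {p : Pts} (hp : Good0 c.Ω.D p) (he : Even p.n)
    (h : Mt c.Ω.D φ p.x (fun i => φ (p.x i)) m) {ε : ℝ}
    (hε : (∏ i, m (p.x i)) * csL p.x (List.finRange p.n) =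
      ε * csL (fun i => φ (p.x i)) (List.finRange p.n))
    {s s' : Fin p.n → ℂ → ℂ} {e e₀ e' e₀' : EF p.m} (a : IsF c.Ω p s e e₀)
    (a' : IsF c.Ω' (im φ p) s' e' e₀') :
    vF p s e e₀ = ε * ef φ p.y * vF (im φ p) s' e' e₀' := by
  choose σ hσ using fun k => IsAlgClosed.exists_pow_nat_eq (deriv φ (p.y k)) two_pos
  have hne : ∀ i k, p.x i ≠ p.y k := fun i k b => Sum.inl_ne_inr (hp.2.2 (a₁ := .inl i)
    (a₂ := .inr k) b)
  obtain ⟨m₀, h₀⟩ := c.mt0 _ w0 (fun q => q.elim) (by simp)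
  have y0 := (vP_cov (h₀.of_eq (ζ := w0) (ζ' := w0) (fun _ => rfl) fun _ => by simp)
    (fun q => q.elim) hp.2.1 (y_inj hp) (fun q => q.elim) hσ a.e₀ a'.e₀).1
  obtain ⟨t, t1, t2, t3, t4⟩ := (IsE.pull h hp.2.1 hne hσ a'.e).unique (x_inj hp) hne hp.2.1 a.e
  choose τ τ1 τ2 using fun j => (a.s j).unique ((x_inj hp).comp Subtype.val_injective)
    (fun (i : {i // i ≠ j}) b => i.2 (x_inj hp b)) (hp.1 j) (SSol.pull h (prod_split p.x j)
      (prod_split (fun i => φ (p.x i)) j) (hp.1 j) (a'.s j))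
  have t1' : ∀ k, (t k : ℂ) * t k = 1 := fun k => by exact_mod_cast t1 k
  have τ1' : ∀ k, (τ k : ℂ) * τ k = 1 := fun k => by exact_mod_cast τ1 k
  have k1 : ∀ k η l η', kE e p.y e₀.Y k η l η' =
      t k * t l * kE e' (fun k => φ (p.y k)) e₀'.Y k (η * σ k) l (η' * σ l) := fun k η l η' => by
    rw [← kE_pull (m := m) e' (fun k => h.ne _ (hp.2.1 k)), y0]
    unfold kE
    split_ifs with b
    · rw [t4, b, t1, one_mul]
    · rw [t3 l η' _ (hp.2.1 k) fun d => b (y_inj hp d), t2, ← Complex.re_ofReal_mul,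
        mul_div_mul_comm, div_eq_mul_inv (t l : ℂ), ← eq_inv_of_mul_eq_one_left (t1' k)]
      congr 1
      push_cast
      ring
  set w : Fin p.n ⊕ Fin p.m × ℂ → ℂ := Sum.elim (fun i => m (p.x i)) fun u => t u.1
  set g : Fin p.n ⊕ Fin p.m × ℂ → Fin p.n ⊕ Fin p.m × ℂ := Sum.map id fun u => (u.1, u.2 * σ u.1)
  have k2 : kX p.x p.y s e e₀.Y = fun u v => w u * w v *
      kX (fun i => φ (p.x i)) (fun k => φ (p.y k)) s' e' e₀'.Y (g u) (g v) := by
    funext u v
    rcases u with i | u <;> rcases v with j | v <;>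
      simp only [kX, w, g, Sum.elim_inl, Sum.elim_inr, Sum.map_inl, Sum.map_inr, id, mul_zero]
    · rw [τ2 j _ (hp.1 i), τ2 j _ (hp.1 j)]
      linear_combination (-(Complex.I * sc0 ^ 2 * m (p.x i) * m (p.x j) * s' j (φ (p.x i)) *
        s' j (φ (p.x j)))) * τ1' j
    · have b : v.2 * (s i (p.y v.1) / e.R v.1) =
          (τ i * t v.1 : ℝ) * (v.2 * σ v.1 * (s' i (φ (p.y v.1)) / e'.R v.1)) := by
        rw [τ2 i _ (hp.2.1 _), t2, mul_div_mul_comm, div_eq_mul_inv (τ i : ℂ),
          ← eq_inv_of_mul_eq_one_left (t1' _)]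
        simp only [EF.pull]
        rw [div_div_eq_mul_div, mul_assoc (m _), mul_div_mul_left _ _ (h.ne _ (hp.2.1 _))]
        push_cast
        ring
      rw [b, Complex.re_ofReal_mul, τ2 i _ (hp.1 i)]
      push_cast
      linear_combination (t v.1 * sc0 * m (p.x i) * s' i (φ (p.x i)) *
        (v.2 * σ v.1 * (s' i (φ (p.y v.1)) / e'.R v.1)).re : ℂ) * τ1' i
    · rw [k1]
      push_cast
      ring
  have k3 : ∀ (u v : Fin p.m → ℂ) (ks : List (Fin p.m)),
      ((flat (fun k => .inr (k, u k)) (fun k => .inr (k, v k)) ks).map w).prod = 1 := fun u v ks => by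
    induction ks with
    | nil => rfl
    | cons k ks ih =>
      rw [flat_cons, List.map_cons, List.map_cons, List.prod_cons, List.prod_cons, ih, mul_one]
      exact t1' k
  have k4 := (a'.e.bc (im φ p).x s' ⟨a'.e₀.linY, a'.e₀.asy⟩).phase (fun _ => 1)
    (fun k => eh (p.j k)) σ univ.toList ((List.finRange p.n).map .inl)
  unfold vF
  rw [pf_kF, pf_kF, k2, Pf_scale _ w _ (by
    rw [List.length_append, List.length_map, List.length_finRange, flat_length]
    exact he.add (even_two_mul _)), ← Pf_map, List.map_append, List.map_append, List.prod_append, k3]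
  simp only [List.map_map, flat_map, g, Sum.map_inr, Bool.false_eq_true, if_false, if_true]
  rw [show (Sum.map id fun u : Fin p.m × ℂ => (u.1, u.2 * σ u.1)) ∘ Sum.inl = Sum.inl from rfl, k4,
    ← Fin.prod_univ_def, mul_one, ← mul_assoc, mul_comm (csL _ _),
    show ∏ i, (w ∘ Sum.inl) i = ∏ i, m (p.x i) from rfl, hε, mul_assoc, Complex.re_ofReal_mul,
    mul_left_comm (csL _ _), Complex.re_ofReal_mul]
  simp only [hσ, prod_map_toList, ef]
  ring

/-- **Covariance of the Pfaffian of the free model.** -/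
theorem salgF : SAlgF := by
  intro φ c p hp he s s' e e₀ e' e₀' a a' h1 h2
  obtain ⟨m, h⟩ := c.mt0 _ p.x hp.1 (by simpa using he)
  obtain ⟨ε, e1, e2⟩ : ∃ ε : ℝ, (ε = 1 ∨ ε = -1) ∧ (∏ i, m (p.x i)) * csL p.x (List.finRange p.n) =
      ε * csL (fun i => φ (p.x i)) (List.finRange p.n) := by
    have b := cs_sq' p.x (x_inj hp)
    have b' := cs_sq' (fun i => φ (p.x i)) (x_inj (c.good hp))
    have d : (∏ i, m (p.x i)) ^ 2 * ∏ j, ∏ i : {i // i ≠ j}, (φ (p.x j) - φ (p.x i)) =
        ∏ j, ∏ i : {i // i ≠ j}, (p.x j - p.x i) := by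
      rw [← prod_pow, ← prod_mul_distrib]
      exact prod_congr rfl fun j _ => h.src (prod_split p.x j)
        (prod_split (fun i => φ (p.x i)) j) (hp.1 j)
    rcases sq_eq_sq_iff_eq_or_eq_neg.1 (mul_right_cancel₀ (right_ne_zero_of_mul_eq_one b')
      (show ((∏ i, m (p.x i)) * csL p.x (List.finRange p.n)) ^ 2 * _ = _ by
        rw [b', ← b, ← d]; ring)) with f | f
    · exact ⟨1, Or.inl rfl, by simpa using f⟩
    · exact ⟨-1, Or.inr rfl, by simpa using f⟩
  have n : ∀ {κ : Type} [Fintype κ] (Ω : Dom) (ζ : κ → ℂ) (y : Fin 0 → ℂ), IsE Ω ζ y eN :=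
    fun _ _ _ => ⟨(·.elim0), (·.elim0), (·.elim0), (·.elim0), (·.elim0)⟩
  have k := vF_cov (p := q0 p) ⟨hp.1, (·.elim0), fun u v b => by
    rcases u with i | i <;> rcases v with j | j
    exacts [congrArg _ (x_inj hp b), j.elim0, i.elim0, i.elim0]⟩ he h e2
    ⟨a.s, n _ _ _, n _ _ _⟩ ⟨a'.s, n _ _ _, n _ _ _⟩
  have k' : vF (im φ (q0 p)) s' eN eN = vF (q0 (im φ p)) s' eN eN :=
    congrArg (fun y => vF ⟨p.n, 0, fun i => φ (p.x i), y, Fin.elim0⟩ s' eN eN) (funext (·.elim0))
  rw [k', ef, univ_eq_empty, prod_empty] at k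
  rw [vF_cov hp he h e2 a a', e1.resolve_right fun b => by rw [b] at k; linarith, one_mul]

end Vale.Agent.N144.C
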