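import Vale.Agent.N144.C.Pair
import Vale.Agent.P144.H436.JPf

/-!
Covariance of the value of the plus model.
-/

namespace Vale.Agent.N144.C

open Finset Vale.Agent.P144
open Vale.Agent.P144.AL (Pf Pf_cons sumE sumE_append sumE_congr Pf_congr Pf_scale Pf_map flat
  flat_cons)
open Vale.Agent.P144.H436 (sumE_lin sumE_zero sumE_symm)
open Vale.Agent.P144S.F (sj lb lb_even lb_prod)
open Vale.Agent.P144Y (Dom Ext)
open Vale.Agent.P144Y.C (zs zs_ne)
open Vale.Agent.P144T (Good0)
open scoped symmDiff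

section pf

variable {α 𝕜 : Type} [CommRing 𝕜] {K : α → α → 𝕜}

theorem pf_slot {x x₁ x₂ : α} {s t : 𝕜} (h1 : ∀ y, K y x = s * K y x₁ + t * K y x₂)
    (h2 : ∀ y, K x y = s * K x₁ y + t * K x₂ y) (p r : List α) :
    Pf K (p ++ x :: r) = s * Pf K (p ++ x₁ :: r) + t * Pf K (p ++ x₂ :: r) := by
  induction hn : p.length + r.length using Nat.strong_induction_on generalizing p r with
  | _ n ih =>
    cases p with
    | nil =>
      simp only [List.nil_append, Pf_cons, ← sumE_lin]
      exact sumE_congr r fun j hj => by rw [h2]; ring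
    | cons c p =>
      simp only [List.cons_append, Pf_cons, sumE_append, sumE]
      have a : sumE (fun y u => K c y * Pf K (u ++ x :: r)) p =
          s * sumE (fun y u => K c y * Pf K (u ++ x₁ :: r)) p +
            t * sumE (fun y u => K c y * Pf K (u ++ x₂ :: r)) p := by
        rw [← sumE_lin]
        refine sumE_congr p fun j hj => ?_
        rw [ih _ (by rw [← hn, List.length_eraseIdx, if_pos hj, List.length_cons]; omega) _ r rfl]
        ring
      have b : sumE (fun y u => K c y * Pf K (p ++ x :: u)) r =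
          s * sumE (fun y u => K c y * Pf K (p ++ x₁ :: u)) r +
            t * sumE (fun y u => K c y * Pf K (p ++ x₂ :: u)) r := by
        rw [← sumE_lin]
        refine sumE_congr r fun j hj => ?_
        rw [ih _ (by rw [← hn, List.length_eraseIdx, if_pos hj, List.length_cons]; omega) p _ rfl]
        ring
      rw [a, b, h1]
      ring

theorem pf_rep {e : α} (h : K e e = 0) (p r : List α) : Pf K (p ++ e :: e :: r) = 0 := by
  induction hn : p.length + r.length using Nat.strong_induction_on generalizing p r with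
  | _ n ih =>
    cases p with
    | nil =>
      rw [List.nil_append, Pf_cons, sumE, h, zero_mul, zero_sub, neg_eq_zero,
        ← sumE_symm (fun y z u => K e y * K e z * Pf K u) (fun _ _ _ => by ring) r]
      refine sumE_congr r fun j hj => ?_
      have := sumE_lin (fun z u => K e z * Pf K u) (fun _ _ => (0 : 𝕜)) (K e r[j]) 0 (r.eraseIdx j)
      simp only [mul_zero, add_zero, zero_mul] at this
      simp only [Pf_cons, ← this, mul_assoc]
    | cons c p =>
      simp only [List.cons_append, Pf_cons, sumE_append, sumE]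
      have a : sumE (fun y u => K c y * Pf K (u ++ e :: e :: r)) p = 0 := by
        rw [← sumE_zero (𝕜 := 𝕜) p]
        refine sumE_congr p fun j hj => ?_
        rw [ih _ (by rw [← hn, List.length_eraseIdx, if_pos hj, List.length_cons]; omega) _ r rfl,
          mul_zero]
      have b : sumE (fun y u => K c y * Pf K (p ++ e :: e :: u)) r = 0 := by
        rw [← sumE_zero (𝕜 := 𝕜) r]
        refine sumE_congr r fun j hj => ?_
        rw [ih _ (by rw [← hn, List.length_eraseIdx, if_pos hj, List.length_cons]; omega) p _ rfl,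
          mul_zero]
      rw [a, b]
      ring

end pf

section phase

variable {ι : Type} {K : ι × ℂ → ι × ℂ → ℝ}

/-- The kernel is bilinear in the phases and vanishes on the diagonal. -/
structure Bl (K : ι × ℂ → ι × ℂ → ℝ) : Prop where
  l : ∀ k (s t : ℝ) η η' y, K (k, s * η + t * η') y = s * K (k, η) y + t * K (k, η') y
  r : ∀ k (s t : ℝ) η η' y, K y (k, s * η + t * η') = s * K y (k, η) + t * K y (k, η')
  z : ∀ x, K x x = 0

theorem Bl.slot (h : Bl K) (k : ι) (η : ℂ) (p r : List (ι × ℂ)) : Pf K (p ++ (k, η) :: r) =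
    η.re * Pf K (p ++ (k, 1) :: r) + η.im * Pf K (p ++ (k, Complex.I) :: r) := by
  have e : η = η.re * 1 + η.im * Complex.I := by simp
  conv_lhs => rw [e]
  exact pf_slot (h.r k _ _ _ _) (h.l k _ _ _ _) p r

theorem Bl.pair (h : Bl K) (k : ι) (η η' : ℂ) (p r : List (ι × ℂ)) :
    Pf K (p ++ (k, η) :: (k, η') :: r) =
      (η.re * η'.im - η.im * η'.re) * Pf K (p ++ (k, 1) :: (k, Complex.I) :: r) := by
  have key : ∀ η η' : ℂ, Pf K (p ++ (k, η) :: (k, η') :: r) =
      η.re * η'.im * Pf K (p ++ (k, 1) :: (k, Complex.I) :: r) +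
        η.im * η'.re * Pf K (p ++ (k, Complex.I) :: (k, 1) :: r) := fun η η' => by
    have a := h.slot k η' (p ++ [(k, 1)]) r
    have b := h.slot k η' (p ++ [(k, Complex.I)]) r
    simp only [List.append_assoc, List.singleton_append] at a b
    rw [h.slot, a, b, pf_rep (h.z _), pf_rep (h.z _)]
    ring
  have a := key (1 + Complex.I) (1 + Complex.I)
  rw [pf_rep (h.z _)] at a
  simp only [Complex.add_re, Complex.one_re, Complex.I_re, Complex.add_im, Complex.one_im,
    Complex.I_im] at a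
  rw [key]
  linear_combination (-η.im * η'.re) * a

theorem Bl.phase (h : Bl K) (a b σ : ι → ℂ) (ks : List ι) (p : List (ι × ℂ)) :
    Pf K (p ++ flat (fun k => (k, a k * σ k)) (fun k => (k, b k * σ k)) ks) =
      (ks.map fun k => ‖σ k ^ 2‖).prod *
        Pf K (p ++ flat (fun k => (k, a k)) (fun k => (k, b k)) ks) := by
  induction ks generalizing p with
  | nil => simp [flat]
  | cons k ks ih =>
    have := ih (p ++ [(k, 1), (k, Complex.I)])
    simp only [List.append_assoc, List.cons_append, List.nil_append] at this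
    rw [flat_cons, flat_cons, h.pair, h.pair k (a k), this, List.map_cons, List.prod_cons, norm_pow,
      Complex.sq_norm, Complex.normSq_apply]
    simp only [Complex.mul_re, Complex.mul_im]
    ring

end phase

/-- The subtracted term is linear and antisymmetric. -/
structure LA {m : ℕ} (Y : Fin m → ℂ → ℂ) : Prop where
  lin : ∀ l (s t : ℝ) (η η' : ℂ), Y l (s * η + t * η') = s * Y l η + t * Y l η'
  asy : ∀ l η, (η * Y l η).re = 0

variable {κ κ' : Type} [Fintype κ] [Fintype κ'] {Ω : Dom} {ζ : κ → ℂ} {ζ' : κ' → ℂ}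

theorem IsE.bl {m : ℕ} {y : Fin m → ℂ} {e : EF m} (h : IsE Ω ζ y e) {Y : Fin m → ℂ → ℂ}
    (hY : LA Y) : Bl fun u v : Fin m × ℂ => kE e y Y u.1 u.2 v.1 v.2 := by
  refine ⟨fun k s t η η' v => ?_, fun k s t η η' v => ?_, fun v => ?_⟩ <;> unfold kE
  · split_ifs <;> simp only [add_mul, mul_assoc, Complex.add_re, Complex.re_ofReal_mul]
  · split_ifs with a
    · simp only [h.linY, hY.lin, ← Complex.re_ofReal_mul, ← Complex.add_re]
      congr 1
      ring
    · simp only [h.linq _ _ a, ← Complex.re_ofReal_mul, ← Complex.add_re]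
      congr 1
      ring
  · rw [if_pos rfl, mul_sub, Complex.sub_re, h.asy, hY.asy, sub_zero]

theorem lb_map {α : Type} {m : ℕ} (f : Fin m × Bool → α) (ks : List (Fin m)) :
    (lb ks).map f = flat (fun k => f (k, false)) (fun k => f (k, true)) ks := by
  simp [lb, flat, List.map_flatMap]

/-- **Covariance of the Pfaffian.** -/
theorem vP_cov {φ m : ℂ → ℂ} {c : Pair0 φ} (h : Mt c.Ω.D φ ζ ζ' m) {p : Pts} {σ : Fin p.m → ℂ}
    {e e' : EF p.m} (hi : Function.Injective ζ) (hy : ∀ k, p.y k ∈ c.Ω.D)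
    (hj : Function.Injective p.y) (hne : ∀ i k, ζ i ≠ p.y k) (hσ : ∀ k, σ k ^ 2 = deriv φ (p.y k)) (s : IsE c.Ω ζ p.y e)
    (s' : IsE c.Ω' ζ' (fun k => φ (p.y k)) e') :
    (e.Y = fun k η => σ k * e'.Y k (η * σ k)) ∧ ∀ Y, LA Y →
      vP p e (fun k η => σ k * Y k (η * σ k)) = ef φ p.y * vP (im φ p) e' Y := by
  obtain ⟨t, t1, t2, t3, t4⟩ := (IsE.pull h hy hne hσ s').unique hi hne hy s
  refine ⟨t4, fun Y hY => ?_⟩
  have k : ∀ k η l η', kE e p.y (fun k η => σ k * Y k (η * σ k)) k η l η' =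
      t k * t l * kE e' (fun k => φ (p.y k)) Y k (η * σ k) l (η' * σ l) := fun k η l η' => by
    rw [← kE_pull (m := m) e' fun k => h.ne _ (hy k)]
    unfold kE
    split_ifs with a
    · rw [t4, a, t1, one_mul]
    · have b : (t k : ℂ) * t k = 1 := by exact_mod_cast t1 k
      rw [t3 l η' _ (hy k) fun b => a (hj b), t2, ← Complex.re_ofReal_mul,
        mul_div_mul_comm, div_eq_mul_inv (t l : ℂ), ← eq_inv_of_mul_eq_one_left b]
      congr 1
      push_cast
      ring
  have a := (s'.bl hY).phase (fun k => eh (p.j k)) (fun _ => 1) σ univ.toList []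
  have b := Pf_map (fun u v : Fin p.m × ℂ => kE e' (fun k => φ (p.y k)) Y u.1 u.2 v.1 v.2)
    (fun u : Fin p.m × Bool => (u.1, (if u.2 then 1 else eh (p.j u.1)) * σ u.1)) (lb univ.toList)
  have b' := Pf_map (fun u v : Fin p.m × ℂ => kE e' (fun k => φ (p.y k)) Y u.1 u.2 v.1 v.2)
    (fun u : Fin p.m × Bool => (u.1, if u.2 then 1 else eh (p.j u.1))) (lb univ.toList)
  simp only [lb_map, Bool.false_eq_true, if_false, if_true] at b b'
  simp only [List.nil_append, b, b', hσ, prod_map_toList] at a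
  unfold vP ef
  simp only [k]
  rw [Pf_scale _ (fun u : Fin p.m × Bool => t u.1) _ (lb_even _), lb_prod, a]
  simp only [t1, List.map_const', List.prod_replicate, one_pow]
  ring

theorem sum_par {N : ℕ} {M : Type} [AddCommMonoid M] {F : Finset (Fin N) → M} {o : Fin N}
    (h : ∀ S, F (S ∆ {o}) = F S) (n : ℕ) :
    ∑ S, F S = 2 • ∑ S with Even (n + S.card), F S := by
  have k : ∀ S : Finset (Fin N), Even (n + (S ∆ {o}).card) ↔ ¬ Even (n + S.card) := fun S => by
    by_cases a : o ∈ S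
    · have e : S ∆ {o} = S.erase o := by
        ext x
        by_cases b : x = o <;> simp [mem_symmDiff, a, b]
      rw [e, ← card_erase_add_one a, ← add_assoc, Nat.even_add_one, not_not]
    · have e : S ∆ {o} = insert o S := by
        ext x
        by_cases b : x = o <;> simp [mem_symmDiff, a, b]
      rw [e, card_insert_of_notMem a, ← add_assoc, Nat.even_add_one]
  rw [← sum_filter_add_sum_filter_not univ fun S => Even (n + S.card), two_nsmul]
  congr 1
  refine sum_nbij' (· ∆ {o}) (· ∆ {o}) (fun S hS => ?_) (fun S hS => ?_)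
    (fun S _ => symmDiff_symmDiff_cancel_right _ _) (fun S _ => symmDiff_symmDiff_cancel_right _ _)
    fun S _ => (h S).symm
  · simpa [k] using hS
  · exact mem_filter.2 ⟨mem_univ _, fun b => (k S).1 b (mem_filter.1 hS).2⟩

theorem sum_tog {N : ℕ} {M : Type} [CommRing M] {F F' : Finset (Fin N) → M} {o o' : Fin N} {c : M}
    (h : ∀ S, F (S ∆ {o}) = F S) (h' : ∀ S, F' (S ∆ {o'}) = F' S) (n : ℕ)
    (e : ∀ S, Even (n + S.card) → F S = c * F' S) : ∑ S, F S = c * ∑ S, F' S := by
  rw [sum_par h n, sum_par h' n, mul_smul_comm, mul_sum,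
    sum_congr rfl fun S hS => e S (mem_filter.1 hS).2]

section

variable {N : ℕ} {ξ : Fin N → ℂ}

theorem sum_pow {M : Type} [AddCommMonoid M] (hi : Function.Injective ξ) (F : Finset ℂ → M) :
    ∑ S ∈ (univ.image ξ).powerset, F S = ∑ S : Finset (Fin N), F (S.image ξ) := by
  rw [powerset_image, powerset_univ, sum_image fun _ _ _ _ e => image_injective hi e]

theorem prod_zs (hi : Function.Injective ξ) (p : Pts) (S : Finset (Fin N)) (z : ℂ) :
    ∏ i, (z - zs p (S.image ξ) i) = (∏ i, (z - p.x i)) * ∏ s ∈ S, (z - ξ s) := by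
  rw [Fintype.prod_sum_type, ← prod_image (f := fun w => z - w) fun _ _ _ _ e => hi e,
    ← prod_coe_sort (S.image ξ)]
  rfl

theorem zs_inj {p : Pts} (hp : Good0 Ω.D p) {T : Finset ℂ} (hT : ∀ z ∈ T, z ∈ Ext Ω.D) :
    Function.Injective (zs p T) := by
  have o : ∀ (i : Fin p.n) (s : T), p.x i ≠ s := fun i s e =>
    (hT _ s.2).2 (subset_closure (e ▸ hp.1 i))
  rintro (i | s) (j | t) h
  · exact congrArg Sum.inl (Sum.inl_injective (hp.2.2 (by simpa [zs] using h)))
  · exact absurd h (o i t)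
  · exact absurd h.symm (o j s)
  · exact congrArg Sum.inr (Subtype.ext h)

theorem y_inj {D : Set ℂ} {p : Pts} (hp : Good0 D p) : Function.Injective p.y := fun _ _ h =>
  Sum.inr_injective (hp.2.2 (by simpa using h))

theorem ext_im {D : Set ℂ} (h : ∀ s, ξ s ∈ Ext D) (S : Finset (Fin N)) :
    ∀ z ∈ S.image ξ, z ∈ Ext D := fun z hz => by
  obtain ⟨s, -, rfl⟩ := mem_image.1 hz
  exact h s

/-- The outer point does not matter. -/
theorem tog {Ωr : Dom} (rf : RF Ω Ωr) (lin : Lin Ω) (hi : Function.Injective ξ)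
    (hx : ∀ s, ξ s ∈ Ext Ω.D) {o : Fin N}
    (ho : ∃ m : ℂ → ℂ, DifferentiableOn ℂ m Ω.D ∧ ∀ z ∈ Ω.D, m z ^ 2 = z - ξ o) {p : Pts}
    (hp : Good0 Ω.D p) {e : Finset ℂ → EF p.m}
    (h : ∀ S ⊆ univ.image ξ, IsE Ω (zs p S) p.y (e S)) (S : Finset (Fin N)) :
    (e ((S ∆ {o}).image ξ)).Y = (e (S.image ξ)).Y ∧
      ∀ Y, LA Y → vP p (e ((S ∆ {o}).image ξ)) Y = vP p (e (S.image ξ)) Y := by
  obtain ⟨m, m1, m2⟩ := ho
  have key : ∀ S : Finset (Fin N), o ∉ S → (e ((insert o S).image ξ)).Y = (e (S.image ξ)).Y ∧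
      ∀ Y, LA Y → vP p (e ((insert o S).image ξ)) Y = vP p (e (S.image ξ)) Y := fun S a => by
    have hm : Mt (idPair rf lin).Ω.D id (zs p ((insert o S).image ξ)) (zs p (S.image ξ)) m :=
      ⟨m1, fun z hz b => (hx o).2 (subset_closure (by
        have := m2 z hz
        rw [b, zero_pow two_ne_zero, eq_comm, sub_eq_zero] at this
        exact this ▸ hz)), fun z hz => by
        rw [m2 z hz, prod_zs hi, prod_zs hi, prod_insert a, deriv_id, id]
        ring⟩
    have := vP_cov hm (σ := fun _ => 1) (zs_inj hp (ext_im hx _)) hp.2.1 (y_inj hp)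
      (fun i k => zs_ne hp (ext_im hx _) k i) (fun _ => by simp)
      (h _ (image_subset_image (subset_univ _))) (h _ (image_subset_image (subset_univ _)))
    simp only [ef, deriv_id, norm_one, prod_const_one, one_mul, mul_one] at this
    exact this
  by_cases a : o ∈ S
  · have e1 : S ∆ {o} = S.erase o := by
      ext x
      by_cases b : x = o <;> simp [mem_symmDiff, a, b]
    have := key _ (notMem_erase o S)
    rw [insert_erase a] at this
    exact e1 ▸ ⟨this.1.symm, fun Y hY => (this.2 Y hY).symm⟩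
  · have e1 : S ∆ {o} = insert o S := by
      ext x
      by_cases b : x = o <;> simp [mem_symmDiff, a, b]
    exact e1 ▸ key S a

end

theorem la_sum {m : ℕ} {T : Finset (Finset ℂ)} (w : Finset ℂ → ℝ) {e : Finset ℂ → EF m}
    (h : ∀ S ∈ T, LA (e S).Y) : LA fun k η => ∑ S ∈ T, (w S : ℂ) * (e S).Y k η where
  lin := fun l s t η η' => by
    rw [mul_sum, mul_sum, ← sum_add_distrib]
    exact sum_congr rfl fun S hS => by rw [(h S hS).lin]; ring
  asy := fun l η => by
    rw [mul_sum, Complex.re_sum]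
    exact sum_eq_zero fun S hS => by
      rw [mul_left_comm, Complex.re_ofReal_mul, (h S hS).asy, mul_zero]

theorem Pair0.good {φ : ℂ → ℂ} (c : Pair0 φ) {p : Pts} (hp : Good0 c.Ω.D p) :
    Good0 c.Ω'.D (im φ p) := by
  have k : ∀ u, Sum.elim p.x p.y u ∈ c.Ω.D := Sum.rec hp.1 hp.2.1
  refine ⟨fun i => c.mem (hp.1 i), fun i => c.mem (hp.2.1 i), fun u v h => hp.2.2
    (c.bih.b.injOn (k u) (k v) ?_)⟩
  cases u <;> cases v <;> exact h

theorem Pair.cov {φ : ℂ → ℂ} (c : Pair φ) {p : Pts} (hp : Good0 c.Ω.D p) {σ : Fin p.m → ℂ}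
    (hσ : ∀ k, σ k ^ 2 = deriv φ (p.y k)) {e e' : Finset ℂ → EF p.m}
    (h : ∀ S ⊆ univ.image c.ξ, IsE c.Ω (zs p S) p.y (e S))
    {x' : Fin p.n → ℂ} (hx : x' = fun i => φ (p.x i)) (h' : ∀ S ⊆ univ.image c.ξ',
      IsE c.Ω' (zs (mv p x' fun k => φ (p.y k)) S) (fun k => φ (p.y k)) (e' S))
    (S : Finset (Fin c.N)) (he : Even (p.n + S.card)) :
    ((e (S.image c.ξ)).Y = fun k η => σ k * (e' (S.image c.ξ')).Y k (η * σ k)) ∧ ∀ Y, LA Y →
      vP p (e (S.image c.ξ)) (fun k η => σ k * Y k (η * σ k)) =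
        ef φ p.y * vP (im φ p) (e' (S.image c.ξ')) Y := by
  subst hx
  obtain ⟨m, hm⟩ := c.mt _ p.x S hp.1 (by simpa using he)
  refine vP_cov (c := c.toPair0) (hm.of_eq (fun z => ?_) fun z => ?_) (zs_inj hp (ext_im c.ext _))
    hp.2.1 (y_inj hp) (fun i k => zs_ne hp (ext_im c.ext _) k i) hσ
    (h _ (image_subset_image (subset_univ _))) (h' _ (image_subset_image (subset_univ _)))
  · rw [prod_zs c.inj, Fintype.prod_sum_type, ← prod_coe_sort S]; rfl
  · rw [prod_zs c.inj', Fintype.prod_sum_type, ← prod_coe_sort S]; rfl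

/-- **Covariance of the value of the plus model.** -/
theorem salgP : SAlgP := by
  intro φ c p hp g g₀ g' g₀' e e₀ e' e₀' t h h₀ h' h₀' a1 a2 a3 a4
  choose σ hσ using fun k => IsAlgClosed.exists_pow_nat_eq (deriv φ (p.y k)) two_pos
  have hp' := c.good hp
  have z : ∑ S ∈ (univ.image c.ξ).powerset, g₀ S = ∑ S ∈ (univ.image c.ξ').powerset, g₀' S := by
    rw [sum_pow c.inj, sum_pow c.inj', sum_tog (c := 1) (fun S => (a3 S).2) (fun S => (a4 S).2) 0
      fun S b => by rw [one_mul, a2 S (by simpa using b)], one_mul]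
  unfold cP
  rw [z]
  generalize ∑ S ∈ (univ.image c.ξ').powerset, g₀' S = Z
  have l' := la_sum (fun S => g₀' S / Z) (T := (univ.image c.ξ').powerset) fun S hS =>
    ⟨(h₀' S (mem_powerset.1 hS)).linY, (h₀' S (mem_powerset.1 hS)).asy⟩
  have l := la_sum (fun S => g₀ S / Z) (T := (univ.image c.ξ).powerset) fun S hS =>
    ⟨(h₀ S (mem_powerset.1 hS)).linY, (h₀ S (mem_powerset.1 hS)).asy⟩
  have y : (fun k η => ∑ S ∈ (univ.image c.ξ).powerset, ((g₀ S / Z : ℝ) : ℂ) * (e₀ S).Y k η) =
      fun k η => σ k * ∑ S ∈ (univ.image c.ξ').powerset,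
        ((g₀' S / Z : ℝ) : ℂ) * (e₀' S).Y k (η * σ k) := by
    funext k η
    rw [sum_pow c.inj, sum_pow c.inj']
    refine sum_tog (o := c.o) (o' := c.o') (fun S => ?_) (fun S => ?_) 0 fun S b => ?_
    · rw [(a3 S).2, (tog c.rf c.lin c.inj c.ext c.rto (P144Y.J.good_p0 hp) h₀ S).1]
    · rw [(a4 S).2, (tog c.rf' c.lin' c.inj' c.ext' c.rto' (P144Y.J.good_p0 hp') h₀' S).1]
    · rw [a2 S (by simpa using b),
        (c.cov (P144Y.J.good_p0 hp) hσ h₀ (funext fun i => i.elim0) h₀' S b).1, mul_left_comm]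
  rw [← mul_div_assoc, sum_pow c.inj, sum_pow c.inj']
  congr 1
  refine sum_tog (o := c.o) (o' := c.o') (fun S => ?_) (fun S => ?_) p.n fun S b => ?_
  · rw [(a3 S).1, (tog c.rf c.lin c.inj c.ext c.rto hp h S).2 _ l]
  · rw [(a4 S).1, (tog c.rf' c.lin' c.inj' c.ext' c.rto' hp' h' S).2 _ l']
  · rw [a1 S b, y, (c.cov hp hσ h rfl h' S b).2 _ l']
    ring

end Vale.Agent.N144.C
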