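import Vale.Agent.N144.C.Tr
import Vale.Agent.N144.C.Defs2
import Vale.Agent.P144Y.N.Hole

/-!
Matching domains exist: corresponding points in all components of the complements.
-/

namespace Vale.Agent.N144.C

open Filter Topology Complex Metric Set Vale.Agent.P144
open Vale.Agent.P144.H170 (pt pt_fl_norm)
open Vale.Agent.P144M (cc cc_sub cc_pre cc_eq mem_cc cn_of_lip3)
open Vale.Agent.P144Y (Ext FamP Rep Cn Std)
open Vale.Agent.P144Y.L (fl_out srep)
open Vale.Agent.P144S.V (small0)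
open P153.TOP (LogOn logOn_const logOn_of_norm_sub_one_lt)

variable {D D' : Set ℂ} {φ g : ℂ → ℂ} {P : ℝ → Finset Site}

theorem Sm.std (h : Sm D) : Std D := ⟨h.lip.1, h.small, P144Q.L.fat3 h.lip, h.con.nonempty⟩

/-- Points in the same component are connected on the lattice. -/
theorem cn_cc (h : Sm D) (hP : FamP D P) {x y : ℂ} (hx : x ∉ closure D) (hy : y ∉ closure D)
    (hc : y ∈ cc D x) : ∀ᶠ a in 𝓝[>] (0 : ℝ), Cn (P a) (fl a x) (fl a y) := by
  obtain ⟨hP, r, hr, hL⟩ := hP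
  obtain ⟨κ, hκ, r₀, hr₀, hF⟩ := h.std.fat
  have s0 : 0 < min r₀ (r / 8) := by positivity
  have s1 := min_le_right r₀ (r / 8)
  have ex : ∀ y ∉ D, ∃ w, ‖w - y‖ ≤ r / 8 ∧ w ∉ closure D := fun y hy => by
    obtain ⟨w, w1, w2⟩ := hF y hy _ s0 (min_le_left _ _)
    refine ⟨w, w1.trans s1, fun hc => ?_⟩
    obtain ⟨u, u1, u2⟩ := Metric.mem_closure_iff.1 hc _ (mul_pos hκ s0)
    exact w2 u (by rw [← dist_eq_norm, dist_comm]; exact u2.le) u1
  choose! w w1 w2 using ex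
  have near : ∀ u ∉ closure D, ∀ v ∉ closure D, ‖u - v‖ ≤ r / 2 →
      ∀ᶠ a in 𝓝[>] (0 : ℝ), Cn (P a) (fl a u) (fl a v) := fun u hu v hv e => by
    filter_upwards [hL, fl_out hP hu, fl_out hP hv, small0 (s := r / 8) (by positivity)]
      with a b1 b2 b3 ⟨b4, b5⟩
    refine b1 _ b2 _ b3 ?_
    have d1 := norm_sub_le_norm_sub_add_norm_sub (pt a (fl a u)) u (pt a (fl a v))
    have d2 := norm_sub_le_norm_sub_add_norm_sub u v (pt a (fl a v))
    rw [norm_sub_rev v] at d2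
    linarith [pt_fl_norm b4 u, pt_fl_norm b4 v]
  have x0 : x ∉ D := fun b => hx (subset_closure b)
  have y0 : y ∉ D := fun b => hy (subset_closure b)
  have key := (cc_pre D x).induction₂'
    (fun u v => ∀ᶠ a in 𝓝[>] (0 : ℝ), Cn (P a) (fl a (w u)) (fl a (w v))) (fun u hu => by
      filter_upwards [self_mem_nhdsWithin, nhdsWithin_le_nhds (ball_mem_nhds u
        (show 0 < r / 8 by positivity))] with v a b
      have u0 := cc_sub D x hu
      have v0 := cc_sub D x a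
      have e : ‖w u - w v‖ ≤ r / 2 := by
        have d1 := norm_sub_le_norm_sub_add_norm_sub (w u) u (w v)
        have d2 := norm_sub_le_norm_sub_add_norm_sub u v (w v)
        rw [norm_sub_rev v, norm_sub_rev u v] at d2
        linarith [w1 u u0, w1 v v0, mem_ball_iff_norm.1 b]
      exact ⟨near _ (w2 u u0) _ (w2 v v0) e, near _ (w2 v v0) _ (w2 u u0) (by rwa [norm_sub_rev])⟩)
    (fun _ _ _ _ _ _ a b => (a.and b).mono fun _ e => e.1.trans e.2) (mem_cc x0) hc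
  filter_upwards [key, near x hx _ (w2 x x0) (by rw [norm_sub_rev]; linarith [w1 x x0]),
    near _ (w2 y y0) y hy (by linarith [w1 y y0])] with a b1 b2 b3
  exact (b2.trans b1).trans b3

/-- Every component contains a ball of outer points. -/
theorem exists_ball (h : Sm D) {ξ : ℂ} (hξ : ξ ∉ D) :
    ∃ w : ℂ, ∃ ρ > (0 : ℝ), ball w ρ ⊆ Ext D ∩ cc D ξ := by
  obtain ⟨κ, r, R, c⟩ := cn_of_lip3 h.lip h.con
  obtain ⟨x, hx⟩ := h.con.nonempty
  obtain ⟨p, hp⟩ : (frontier (cc D ξ)).Nonempty := nonempty_frontier_iff.2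
    ⟨⟨ξ, mem_cc hξ⟩, fun e => cc_sub D ξ (e.symm ▸ mem_univ x) hx⟩
  have q1 : p ∈ cc D ξ := (c.closed ξ).frontier_subset hp
  have s0 := mul_pos c.k0 (div_pos c.r0 four_pos)
  have q2 : p ∈ closure D := by
    rw [Metric.mem_closure_iff]
    intro ε hε
    rw [← frontier_compl] at hp
    obtain ⟨z, hz, hd⟩ := Metric.mem_closure_iff.1 (frontier_subset_closure hp) _ (lt_min hε s0)
    refine ⟨z, by_contra fun b => hz (c.sep q1 b ?_), hd.trans_le (min_le_left _ _)⟩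
    rw [← dist_eq_norm, dist_comm]
    exact hd.trans_le (min_le_right _ _)
  obtain ⟨k, k0, k1, r₀, r0, hF⟩ := P144Q.V.fat' (P144Q.L.fat3 h.lip)
  obtain ⟨t, t0, t1, t2, t3⟩ : ∃ t > (0 : ℝ), t ≤ r₀ ∧ t ≤ 1 / 8 ∧ t ≤ κ * (r / 4) / 2 :=
    ⟨min r₀ (min (1 / 8) (κ * (r / 4) / 2)), by positivity, min_le_left _ _,
      (min_le_right _ _).trans (min_le_left _ _), (min_le_right _ _).trans (min_le_right _ _)⟩
  obtain ⟨w, w1, w2⟩ := hF p (cc_sub D ξ q1) t t0 t1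
  have w3 : ∀ y ∈ ball w (k * t), y ∉ D := fun y hy => w2 y (mem_ball_iff_norm.1 hy).le
  have w4 : ∀ y ∈ ball w (k * t), ‖y - p‖ < 2 * t := fun y hy => by
    nlinarith [mem_ball_iff_norm.1 hy, norm_sub_le_norm_sub_add_norm_sub y w p]
  refine ⟨w, k * t, by positivity, fun y hy => ⟨⟨?_, fun b => ?_⟩,
    c.sep q1 (w3 y hy) (by linarith [w4 y hy])⟩⟩
  · have := closure_ball_subset_closedBall (closure_mono h.small q2)
    rw [mem_closedBall_zero_iff] at this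
    linarith [w4 y hy, norm_le_norm_sub_add y p]
  · obtain ⟨z, z1, z2⟩ := mem_closure_iff_nhds.1 b _ (isOpen_ball.mem_nhds hy)
    exact w3 z z1 z2

section

variable {ι : Type} [Fintype ι] {ξ : ι → ℂ}

theorem exists_inj {U : ι → Set ℂ} (h : ∀ i, (U i).Infinite) :
    ∃ x : ι → ℂ, Function.Injective x ∧ ∀ i, x i ∈ U i := by
  classical
  choose t t1 t2 using fun i => (h i).exists_subset_card_eq (Fintype.card ι)
  obtain ⟨x, x1, x2⟩ := (Finset.all_card_le_biUnion_card_iff_exists_injective t).1 fun s => by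
    rcases s.eq_empty_or_nonempty with rfl | ⟨i, hi⟩
    · simp
    · exact s.card_le_univ.trans (t2 i ▸ Finset.card_le_card (Finset.subset_biUnion_of_mem t hi))
  exact ⟨x, x1, fun i => t1 i (x2 i)⟩

/-- The points `ξ` lie outside and meet all components. -/
def Al (D : Set ℂ) (ξ : ι → ℂ) : Prop := (∀ s, ξ s ∈ Ext D) ∧ ∀ p ∉ D, ∃ s, ξ s ∈ cc D p

theorem Al.rep (h : Sm D) (a : Al D ξ) (hP : FamP D P) : Rep P (Finset.univ.image ξ) := by
  obtain ⟨T, t1, t2⟩ := srep D P h.std hP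
  have k : ∀ t ∈ T, ∀ᶠ b in 𝓝[>] (0 : ℝ), ∃ s, Cn (P b) (fl b t) (fl b (ξ s)) := fun t ht => by
    obtain ⟨s, hs⟩ := a.2 t fun b => (t1 t ht).2 (subset_closure b)
    exact (cn_cc h hP (t1 t ht).2 (a.1 s).2 hs).mono fun _ e => ⟨s, e⟩
  filter_upwards [t2, (eventually_all_finset T).2 k,
    eventually_all.2 fun s => fl_out hP.1 (a.1 s).2] with b b1 b2 b3
  refine ⟨fun t ht => ?_, fun v hv => ?_⟩
  · obtain ⟨s, -, rfl⟩ := Finset.mem_image.1 ht
    exact b3 s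
  · obtain ⟨t, ht, e⟩ := b1.2 v hv
    obtain ⟨s, e'⟩ := b2 t ht
    exact ⟨_, Finset.mem_image_of_mem ξ (Finset.mem_univ s), e.trans e'⟩

omit [Fintype ι] in
/-- The outer component. -/
theorem Al.out (h : Sm D) (a : Al D ξ) : ∃ o, (∀ P, FamP D P → ∀ᶠ b in 𝓝[>] (0 : ℝ), ∀ R,
    P144S.MM (P b) (fl b (ξ o) ::ₘ R) = P144S.MM (P b) R) ∧
    ∃ m : ℂ → ℂ, DifferentiableOn ℂ m D ∧ ∀ z ∈ D, m z ^ 2 = z - ξ o := by
  have e := (P144Y.N.ext38 h.small).2
  have e0 : ((3 / 8 : ℝ) : ℂ) ∉ D := fun b => e (subset_closure b)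
  obtain ⟨o, ho⟩ := a.2 _ e0
  refine ⟨o, fun P hP => ?_, ?_⟩
  · filter_upwards [cn_cc h hP e (a.1 o).2 ho, fl_out hP.1 e, P144Y.N.far38 h.small hP.1]
      with b b1 b2 b3 R
    rw [← P144Y.K.smm.con _ _ _ R b2 b1, b3]
  · have n : ∀ x ∈ D ×ˢ cc D ((3 / 8 : ℝ) : ℂ), x.1 - x.2 ≠ 0 := fun x hx =>
      sub_ne_zero.2 fun b => cc_sub _ _ hx.2 (b ▸ hx.1)
    have l : LogOn D fun z => z - ((3 / 8 : ℝ) : ℂ) := by
      refine ((logOn_of_norm_sub_one_lt (f := fun z => 1 - z * (8 / 3)) (by fun_prop)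
        fun z hz => ?_).mul (logOn_const (c := -(3 / 8)) (by norm_num))).congr fun z _ => ?_
      · have := mem_ball_zero_iff.1 (h.small hz)
        rw [sub_sub_cancel_left, norm_neg, norm_mul, norm_div, Complex.norm_ofNat,
          Complex.norm_ofNat]
        linarith
      · push_cast
        ring
    obtain ⟨m, m1, m2⟩ := sq_of_log (u := fun z => z - ξ o) h.lip.1 (by fun_prop)
      (lg_param (h := fun x : ℂ × ℂ => x.1 - x.2) h.lip.1 h.con.isPreconnected (cc_pre _ _)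
        (by fun_prop) n (mem_cc e0) ho l)
    exact ⟨m, m1, fun z hz => (m2 z hz).2⟩

end

/-- Corresponding balls for all components of one domain. -/
theorem exists_half (h : Sm D) (h' : Sm D') (B : Bi D D' φ g) :
    ∃ (ι : Type) (_ : Fintype ι) (U U' : ι → Set ℂ), (∀ i, (U i).Infinite ∧ (U' i).Infinite ∧
      U i ⊆ Ext D ∧ U' i ⊆ Ext D' ∧ ∀ x ∈ U i, ∀ y ∈ U' i, Mp D φ x y) ∧
      ∀ p ∉ D, ∃ i, U i ⊆ cc D p := by
  obtain ⟨κ, r, R, c⟩ := cn_of_lip3 h.lip h.con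
  have k : ∀ K : cc D '' Dᶜ, ∃ U U' : Set ℂ, (U.Infinite ∧ U'.Infinite ∧ U ⊆ Ext D ∧ U' ⊆ Ext D' ∧
      ∀ x ∈ U, ∀ y ∈ U', Mp D φ x y) ∧ U ⊆ K := by
    rintro ⟨_, p, hp, rfl⟩
    obtain ⟨w, ρ, r0, r1⟩ := exists_ball h hp
    obtain ⟨w', ρ', r2, r3, r4⟩ := exists_mp h h' B hp
    exact ⟨_, _, ⟨infinite_of_mem_nhds w (ball_mem_nhds w r0),
      infinite_of_mem_nhds w' (ball_mem_nhds w' r2), fun x hx => (r1 hx).1, r3,
      fun x hx y hy => (r4 y hy).move B.op h.con.isPreconnected (cc_pre D p) (cc_sub D p)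
        (mem_cc hp) (r1 hx).2⟩, fun x hx => (r1 hx).2⟩
  choose U U' k1 k2 using k
  exact ⟨_, c.finite.fintype, U, U', k1, fun p hp => ⟨⟨_, p, hp, rfl⟩, k2 _⟩⟩

/-- **Corresponding points in all components.** -/
theorem exists_al (h : Sm D) (h' : Sm D') (B : Bi D D' φ g) : ∃ (N : ℕ) (ξ ξ' : Fin N → ℂ),
    Function.Injective ξ ∧ Function.Injective ξ' ∧ Al D ξ ∧ Al D' ξ' ∧
      ∀ s, Mp D φ (ξ s) (ξ' s) := by
  obtain ⟨ι, _, U, U', a1, a2⟩ := exists_half h h' B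
  obtain ⟨ι', _, V', V, b1, b2⟩ := exists_half h' h B.symm
  obtain ⟨x, x1, x2⟩ := exists_inj (U := Sum.elim U V)
    (Sum.rec (fun i => (a1 i).1) fun i => (b1 i).2.1)
  obtain ⟨y, y1, y2⟩ := exists_inj (U := Sum.elim U' V')
    (Sum.rec (fun i => (a1 i).2.1) fun i => (b1 i).1)
  set e := (Fintype.equivFin (ι ⊕ ι')).symm
  refine ⟨_, x ∘ e, y ∘ e, x1.comp e.injective, y1.comp e.injective, ⟨fun s => ?_, fun p hp => ?_⟩,
    ⟨fun s => ?_, fun p hp => ?_⟩, fun s => ?_⟩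
  · rcases hs : e s with i | i <;> simp only [Function.comp_apply, hs]
    exacts [(a1 i).2.2.1 (x2 (.inl i)), (b1 i).2.2.2.1 (x2 (.inr i))]
  · obtain ⟨i, hi⟩ := a2 p hp
    exact ⟨e.symm (.inl i), by simpa using hi (x2 (.inl i))⟩
  · rcases hs : e s with i | i <;> simp only [Function.comp_apply, hs]
    exacts [(a1 i).2.2.2.1 (y2 (.inl i)), (b1 i).2.2.1 (y2 (.inr i))]
  · obtain ⟨i, hi⟩ := b2 p hp
    exact ⟨e.symm (.inr i), by simpa using hi (y2 (.inr i))⟩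
  · rcases hs : e s with i | i <;> simp only [Function.comp_apply, hs]
    exacts [(a1 i).2.2.2.2 _ (x2 (.inl i)) _ (y2 (.inl i)),
      ((b1 i).2.2.2.2 _ (y2 (.inr i)) _ (x2 (.inr i))).symm B.symm]

theorem spair2 : SPair2 := by
  intro D D' φ h h' hb
  obtain ⟨g, B⟩ := exists_bi h.lip.1 h'.lip.1 hb.d hb.b
  obtain ⟨N, ξ, ξ', i, i', a, a', mp⟩ := exists_al h h' B
  obtain ⟨o, o1, o2⟩ := a.out h
  obtain ⟨o', o3, o4⟩ := a'.out h'
  exact ⟨⟨h.pair h' hb, N, ξ, ξ', o, o', i, i', a.1, a'.1, fun P hP => by convert a.rep h hP,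
    fun P hP => by convert a'.rep h' hP, o1, o3, o2, o4, fun κ _ x S hx he => exists_Mt B h.con
      (Sum.rec (fun p => Mp.inn B h.con.isPreconnected (hx p)) fun s => mp s)
      (by simpa using he)⟩, rfl, rfl, mp⟩

theorem spair : SPair := fun D D' φ a b c a' b' c' hb =>
  (spair2 D D' φ ⟨a, b, c⟩ ⟨a', b', c'⟩ hb).imp fun _ h => ⟨h.1, h.2.1⟩

/-- The identity map; it is used to add or remove outer points. -/
def idPair {Ω Ωr : P144Y.Dom} (rf : RF Ω Ωr) (lin : Lin Ω) : Pair0 id where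
  Ω := Ω
  Ω' := Ω
  Ωr := Ωr
  Ωr' := Ωr
  bih := ⟨differentiableOn_id, bijOn_id _⟩
  ne := fun _ _ => by simp
  pb := fun _ _ _ hT hD he b => bd_congr hT hD (fun z a b => by simpa using he z a b) b
  rf := rf
  rf' := rf
  lin := lin
  lin' := lin
  mt0 := fun _ _ _ _ _ => ⟨fun _ => 1, differentiableOn_const _, fun _ _ => one_ne_zero,
    fun _ _ => by simp⟩

end Vale.Agent.N144.C
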