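import Vale.Agent.N144.C.DisFin
import Vale.Agent.N144.C.Pair
import Vale.Agent.N144.C.AlgF
import Vale.Agent.N144.KT.Free
import Vale.Agent.N144.P.Plane
import Vale.Agent.P144Y.Pos

/-!
Locally uniform convergence and conformal covariance of the limits of the nearest-neighbour model
in domains.
-/

namespace Vale.Agent.N144.C

open Filter Topology Finset Vale.Agent.P144 Vale.Agent.P144Z
open Vale.Agent.P144.AL (idt)
open Vale.Agent.P144Y (Dom Ext fm GW FamP Rep Nice Lip4)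
open Vale.Agent.P144T (Fam0 Good0)
open Vale.Agent.P144Q.B (shr)
open scoped symmDiff

variable {J : ℝ} {D D' : Set ℂ} {φ : ℂ → ℂ} {p : Pts} {E : Fam}

theorem MLim.lim {c : ℝ} (h : MLim E p c) : Lim E p c :=
  h ℝ _ _ (fun _ => p.x) (fun _ => p.y) ⟨idt, fun _ => tendsto_const_nhds,
    fun _ => tendsto_const_nhds⟩

/-- **From moving points to locally uniform convergence.** -/
theorem locLim_of {C : Pts → ℝ} (h : ∀ p, Good D p → MLim E p (C p)) : LocLim D E C := by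
  intro n m j
  rw [tendstoLocallyUniformlyOn_iff_forall_tendsto]
  intro z hz
  set s := {z : (Fin n → ℂ) × (Fin m → ℂ) | Good D ⟨n, m, z.1, z.2, j⟩}
  have k : ∀ {ι : Type} {l : Filter ι} {a : ι → ℝ} {w : ι → (Fin n → ℂ) × (Fin m → ℂ)},
      Tendsto a l (𝓝[>] 0) → Tendsto w l (𝓝[s] z) → Tendsto
        (fun k => corr (a k) (E (a k)) ⟨n, m, (w k).1, (w k).2, j⟩) l (𝓝 (C ⟨n, m, z.1, z.2, j⟩)) :=
    fun ha hw => h _ hz _ _ _ _ _ ⟨ha, fun i => ((continuous_apply i).comp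
      continuous_fst).continuousAt.tendsto.comp (hw.mono_right nhdsWithin_le_nhds),
      fun i => ((continuous_apply i).comp continuous_snd).continuousAt.tendsto.comp
        (hw.mono_right nhdsWithin_le_nhds)⟩
  have h1 : Tendsto (fun w : (Fin n → ℂ) × (Fin m → ℂ) => C ⟨n, m, w.1, w.2, j⟩) (𝓝[s] z)
      (𝓝 (C ⟨n, m, z.1, z.2, j⟩)) := by
    have h2 := k (l := (𝓝[s] z).curry (𝓝[>] (0 : ℝ))) (tendsto_snd.mono_left curry_le_prod)
      (tendsto_fst.mono_left curry_le_prod)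
    rw [Metric.tendsto_nhds] at h2 ⊢
    intro ε hε
    filter_upwards [eventually_curry_iff.1 (h2 (ε / 2) (half_pos hε)), self_mem_nhdsWithin]
      with w h3 h4
    exact (le_of_tendsto (Tendsto.dist (h _ h4).lim tendsto_const_nhds)
      (h3.mono fun _ h => h.le)).trans_lt (half_lt_self hε)
  exact ((h1.comp tendsto_snd).prodMk_nhds (k tendsto_fst tendsto_snd)).mono_right
    (nhds_le_uniformity _)

theorem xinj (hp : Good0 D p) : Function.Injective p.x := fun _ _ h =>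
  Sum.inl_injective (hp.2.2 (by simpa using h))

/-! ### The free model in small domains -/

theorem free_val (hJ : 0 < J) {Ω : Dom} (h : Sm Ω.D) (hp : Good0 Ω.D p) (hn : Even p.n)
    {s : Fin p.n → ℂ → ℂ} {e e₀ : EF p.m} (hF : IsF Ω p s e e₀) {g : ℝ}
    (hg : GLim (disc Ω.D) p.x g) : MLim (crit J Ω.D none) p (g * vF p s e e₀) :=
  fun ι l a x y hm => (KT.sFree J hJ Ω _ p (P144T.lat3 h.lip) hp ι l a x y hm).2 hn s e e₀ hF g
    (hg ι l a x hm.a0 hm.hx)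

theorem free_odd (hJ : 0 < J) (h : Sm D) (hp : Good0 D p) (hn : ¬ Even p.n) :
    MLim (crit J D none) p 0 := fun ι l a x y hm => tendsto_const_nhds.congr'
  (((KT.sFree J hJ h.dom _ p (P144T.lat3 h.lip) hp ι l a x y hm).1 hn).mono fun _ e => e.symm)

theorem mlimF (hJ : 0 < J) (h : Sm D) (hp : Good0 D p) : ∃ c, MLim (crit J D none) p c := by
  by_cases hn : Even p.n
  · obtain ⟨s, e, e₀, hF⟩ := KT.sExF h.dom _ p h.lin (P144T.lat3 h.lip) hp
    obtain ⟨g, -, hg⟩ := sGm D _ h (P144T.lat3 h.lip) _ p.x hn (xinj hp) hp.1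
    exact ⟨_, free_val hJ (Ω := h.dom) h hp hn hF hg⟩
  · exact ⟨0, free_odd hJ h hp hn⟩

theorem isE_nil {κ : Type} [Fintype κ] (Ω : Dom) (ζ : κ → ℂ) : IsE Ω ζ Fin.elim0 eN :=
  ⟨fun k => k.elim0, fun k => k.elim0, fun k => k.elim0, fun k => k.elim0, fun k => k.elim0⟩

theorem vF_pos (hJ : 0 < J) {Ω : Dom} (h : Sm Ω.D) (hp : Good0 Ω.D p) (hn : Even p.n)
    {s : Fin p.n → ℂ → ℂ} {e e₀ : EF p.m} (hF : IsF Ω p s e e₀) : 0 < vF (q0 p) s eN eN := by
  rcases Nat.eq_zero_or_pos p.n with h0 | h0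
  · obtain ⟨n, m, x, y, j⟩ := p
    obtain rfl : n = 0 := h0
    simp [vF, csL, AL.lbs, AL.flat, AL.Pf]
  obtain ⟨g, g0, hg⟩ := sGm _ _ h (P144T.lat3 h.lip) _ p.x hn (xinj hp) hp.1
  have hq : Good0 Ω.D (q0 p) := ⟨hp.1, fun k => k.elim0, by
    rintro (i | i) (j | j) e
    exacts [congrArg Sum.inl (xinj hp e), j.elim0, i.elim0, i.elim0]⟩
  exact pos_of_mul_pos_right (P144X.posT (p := q0 p) hJ h.lip.1 h.lip.2.1 h.con.isPreconnected
    ⟨h0, hq⟩ rfl hn (free_val (p := q0 p) hJ h hq hn ⟨hF.s, isE_nil _ _, isE_nil _ _⟩ hg).lim) g0.le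

theorem covF (hJ : 0 < J) (h : Sm D) (h' : Sm D') (B : Bih D D' φ) (hp : Good0 D p)
    {c c' : ℝ} (hc : Lim (crit J D none) p c) (hc' : Lim (crit J D' none) (im φ p) c') :
    c = fac φ p * c' := by
  have hp' : Good0 D' (im φ p) := (h.pair h' B).good hp
  by_cases hn : Even p.n
  swap
  · rw [tendsto_nhds_unique hc (free_odd hJ h hp hn).lim,
      tendsto_nhds_unique hc' (free_odd hJ h' hp' hn).lim, mul_zero]
  obtain ⟨s, e, e₀, hF⟩ := KT.sExF h.dom _ p h.lin (P144T.lat3 h.lip) hp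
  obtain ⟨s', e', e₀', hF'⟩ := KT.sExF h'.dom _ _ h'.lin (P144T.lat3 h'.lip) hp'
  obtain ⟨g, -, hg⟩ := sGm D _ h (P144T.lat3 h.lip) _ p.x hn (xinj hp) hp.1
  obtain ⟨g', -, hg'⟩ := sGm D' _ h' (P144T.lat3 h'.lip) p.n (im φ p).x hn (xinj hp') hp'.1
  rw [tendsto_nhds_unique hc (free_val hJ (Ω := h.dom) h hp hn hF hg).lim,
    tendsto_nhds_unique hc' (free_val hJ (Ω := h'.dom) h' hp' hn hF' hg').lim,
    sGc D D' φ _ _ h h' B (P144T.lat3 h.lip) (P144T.lat3 h'.lip) _ p.x hn (xinj hp) hp.1 g g' hg hg',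
    salgF φ (h.pair h' B) p hp hn s s' e e₀ e' e₀' hF hF' (vF_pos hJ (Ω := h.dom) h hp hn hF)
      (vF_pos hJ (Ω := h'.dom) h' hp' hn hF')]
  unfold fac sf ef
  ring

/-! ### The plus model in small domains -/

theorem WLim.lim {P : ℝ → Finset Site} {n : ℕ} {x : Fin n → ℂ} {S : Finset ℂ} {g : ℝ}
    (h : WLim P x S g) : Tendsto (GW P (univ.image x) S) (𝓝[>] 0) (𝓝 g) :=
  h ℝ _ _ (fun _ => x) idt fun _ => tendsto_const_nhds

theorem plus_val (h1 : SExP) (h2 : SPlus) (hJ : 0 < J) {Ω : Dom} (h : Sm Ω.D) (hl : Lin Ω)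
    {P : ℝ → Finset Site} (hP : FamP Ω.D P) {T : Finset ℂ} (hT : ∀ z ∈ T, z ∈ Ext Ω.D)
    (hR : Rep P T) (hp : Good0 Ω.D p) : ∃ (g g₀ : Finset ℂ → ℝ) (e e₀ : Finset ℂ → EF p.m),
      (∀ S ⊆ T, IsE Ω (P144Y.C.zs p S) p.y (e S)) ∧
      (∀ S ⊆ T, IsE Ω (P144Y.C.zs (P144Y.J.p0 p) S) p.y (e₀ S)) ∧
      (∀ S ⊆ T, WLim P p.x S (g S)) ∧ (∀ S ⊆ T, WLim P Fin.elim0 S (g₀ S)) ∧
      MLim (fun a => P144S.pl J (P a)) p (cP p T g g₀ e e₀) := by
  have : Nonempty (EF p.m) := ⟨⟨fun _ => 0, fun _ _ _ => 0, fun _ _ => 0⟩⟩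
  have k1 := fun S (hS : S ⊆ T) => h1 Ω P p S hl hP hp fun z hz => hT z (hS hz)
  have k2 := fun S (hS : S ⊆ T) => h1 Ω P _ S hl hP (P144Y.J.good_p0 hp) fun z hz => hT z (hS hz)
  have k3 := fun S (hS : S ⊆ T) => sWm _ P h hP _ p.x S (xinj hp) hp.1 fun z hz => hT z (hS hz)
  have k4 := fun S (hS : S ⊆ T) => sWm _ P h hP _ Fin.elim0 S (fun i => i.elim0)
    (fun i => i.elim0) fun z hz => hT z (hS hz)
  choose! e he using k1
  choose! e₀ he₀ using k2
  choose! g _ hg using k3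
  choose! g₀ g0 hg₀ using k4
  exact ⟨g, g₀, e, e₀, he, he₀, hg, hg₀, fun ι l a x y hm => h2 J hJ Ω P T p hP hT hR hp ι l a x y
    hm g g₀ e e₀ he he₀ (fun S hS => hg S hS ι l a x hm.a0 hm.hx) fun S hS =>
      ⟨g0 S hS, by simpa using (hg₀ S hS).lim⟩⟩

theorem mlimP (h1 : SExP) (h2 : SPlus) (hJ : 0 < J) (h : Sm D) (h4 : Lip4 D) (hp : Good0 D p) :
    ∃ c, MLim (crit J D (some fun _ _ => true)) p c := by
  have hF := P144Y.L.slat D h4
  obtain ⟨T, hT, hR⟩ := P144Y.L.srep D _ h.std hF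
  obtain ⟨g, g₀, e, e₀, -, -, -, -, k⟩ := plus_val h1 h2 hJ (Ω := h.dom) h h.lin hF hT hR hp
  exact ⟨_, k⟩

theorem tog_lim {P : ℝ → Finset Site} {N n : ℕ} {ξ : Fin N → ℂ} (hi : Function.Injective ξ)
    {o : Fin N} (ho : ∀ᶠ a in 𝓝[>] (0 : ℝ), ∀ R,
      P144S.MM (P a) (fl a (ξ o) ::ₘ R) = P144S.MM (P a) R) {x : Fin n → ℂ} {g : Finset ℂ → ℝ}
    (hg : ∀ S ⊆ univ.image ξ, WLim P x S (g S)) (S : Finset (Fin N)) :
    g ((S ∆ {o}).image ξ) = g (S.image ξ) := by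
  have k : ∀ S : Finset (Fin N), o ∉ S → g ((insert o S).image ξ) = g (S.image ξ) := fun S hS => by
    refine tendsto_nhds_unique ((hg _ (image_subset_image (subset_univ _))).lim.congr' ?_)
      (hg _ (image_subset_image (subset_univ _))).lim
    filter_upwards [ho] with a ha
    unfold GW
    rw [image_insert, P144Y.N.fm_insert fun c => hS (hi.mem_finset_image.1 c), Multiset.add_cons,
      ha]
  by_cases hS : o ∈ S
  · have e : S ∆ {o} = S.erase o := by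
      ext x
      simp only [mem_symmDiff, mem_singleton, mem_erase]
      exact ⟨fun h => h.elim (fun h => ⟨h.2, h.1⟩) fun h => absurd (h.1 ▸ hS) h.2,
        fun h => Or.inl ⟨h.2, h.1⟩⟩
    rw [e, ← k _ (notMem_erase o S), insert_erase hS]
  · have e : S ∆ {o} = insert o S := by
      ext x
      simp only [mem_symmDiff, mem_singleton, mem_insert]
      exact ⟨fun h => h.elim (fun h => Or.inr h.1) fun h => Or.inl h.1, fun h => h.elim
        (fun h => Or.inr ⟨h, h ▸ hS⟩) fun h => Or.inl ⟨h, fun e => hS (e ▸ h)⟩⟩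
    rw [e, k S hS]

theorem covP (h1 : SExP) (h2 : SPlus) (hJ : 0 < J) (h : Sm D) (h' : Sm D') (h4 : Lip4 D)
    (h4' : Lip4 D') (B : Bih D D' φ) (hp : Good0 D p) {c c' : ℝ}
    (hc : Lim (crit J D (some fun _ _ => true)) p c)
    (hc' : Lim (crit J D' (some fun _ _ => true)) (im φ p) c') : c = fac φ p * c' := by
  obtain ⟨C, rfl, rfl, hm⟩ := spair2 D D' φ h h' B
  have hF := P144Y.L.slat _ h4
  have hF' := P144Y.L.slat _ h4'
  have hp' := C.toPair0.good hp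
  obtain ⟨g, g₀, e, e₀, a1, a2, a3, a4, a5⟩ := plus_val h1 h2 hJ h C.lin hF
    (imD C.ext) (C.rep _ hF) hp
  obtain ⟨g', g₀', e', e₀', b1, b2, b3, b4, b5⟩ := plus_val h1 h2 hJ h' C.lin' hF'
    (imD C.ext') (C.rep' _ hF') hp'
  have sb : ∀ (ξ : Fin C.N → ℂ) (S : Finset (Fin C.N)), S.image ξ ⊆ univ.image ξ :=
    fun _ S => image_subset_image (subset_univ S)
  have k := sWc _ _ φ _ _ h h' B hF hF' _ _ _ C.inj C.inj' C.ext C.ext' hm
  rw [tendsto_nhds_unique hc a5.lim, tendsto_nhds_unique hc' b5.lim]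
  exact salgP φ C p hp g g₀ g' g₀' e e₀ e' e₀' (sf φ p.x) a1 a2 b1 b2
    (fun S hS => k _ p.x S hS (xinj hp) hp.1 _ _ (a3 _ (sb _ S)) (b3 _ (sb _ S)))
    (fun S hS => by
      have := k 0 Fin.elim0 S (by rwa [zero_add]) (fun i => i.elim0) (fun i => i.elim0) _ _
        (a4 _ (sb _ S)) (by
          rw [show (fun i : Fin 0 => φ (Fin.elim0 i)) = Fin.elim0 from funext fun i => i.elim0]
          exact b4 _ (sb _ S))
      simpa [sf] using this)
    (fun S => ⟨tog_lim C.inj (C.out _ hF) a3 S, tog_lim C.inj (C.out _ hF) a4 S⟩)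
    fun S => ⟨tog_lim C.inj' (C.out' _ hF') b3 S, tog_lim C.inj' (C.out' _ hF') b4 S⟩

/-! ### The minus model and the scaling -/

theorem mlim_minus {c : ℝ} (h : MLim (crit J D (some fun _ _ => true)) p c) :
    MLim (crit J D (some fun _ _ => false)) p ((-1) ^ p.n * c) := fun ι l a x y hm =>
  ((h ι l a x y hm).const_mul _).congr fun k =>
    (P144S.F.corr_rev J _ (a k) (disc D (a k)) (mv p (x k) (y k))).symm

theorem mlim_div {R c : ℝ} (hR : 0 < R) {b : Option (ℝ → Config)} (hb : StdBC b)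
    (h : MLim (crit J ((fun z => z / (R : ℂ)) '' D) b) (shr p R) c) :
    MLim (crit J D b) p ((R ^ (-(1 / 8) : ℝ)) ^ p.n * R⁻¹ ^ p.m * c) := fun ι l a x y hm => by
  refine ((h ι l (fun k => a k / R) (fun k i => x k i / R) (fun k i => y k i / R)
    ⟨(P144Q.B.div_lim hR).comp hm.a0, fun i => (hm.hx i).div_const _,
      fun i => (hm.hy i).div_const _⟩).const_mul _).congr' ?_
  filter_upwards [hm.a0.eventually self_mem_nhdsWithin] with k ha
  have e : crit J ((fun z => z / (R : ℂ)) '' D) b (a k / R) = crit J D b (a k) := by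
    unfold crit inDom
    rw [P144Q.B.disc_div hR]
    rcases hb with rfl | rfl | rfl <;> rfl
  rw [e]
  exact (P144Q.B.corr_shr (E := crit J D b (a k)) (P144Q.B.gibbs_cmul J 0 _ _ _ (disc D (a k)))
    (mv p (x k) (y k)) ha hR).symm

/-- The two classes of domains. -/
def Cls (D : Set ℂ) (b : Option (ℝ → Config)) : Prop :=
  IsConnected D ∧ (Lip4 D ∧ StdBC b ∨ P144Q.L.Lip3 D ∧ b = none)

variable {b : Option (ℝ → Config)}

theorem Cls.lip3 (h : Cls D b) : P144Q.L.Lip3 D :=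
  h.2.elim (fun h => P144S.L.lip3_of_lip4 h.1) fun h => h.1

theorem Cls.std (h : Cls D b) : StdBC b := h.2.elim (fun h => h.2) fun h => Or.inl h.2

theorem Cls.div (h : Cls D b) {R : ℝ} (hR : 0 < R) : Cls ((fun z => z / (R : ℂ)) '' D) b :=
  ⟨h.1.image _ (by fun_prop), h.2.imp (fun k => ⟨P144S.L.lip4_div hR k.1, k.2⟩)
    fun k => ⟨P144Q.U.lip3_div hR k.1, k.2⟩⟩

theorem Cls.lip4 (h : Cls D b) (hb : b ≠ none) : Lip4 D :=
  h.2.elim (fun k => k.1) fun k => absurd k.2 hb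

theorem mlim_small (H : b ≠ none → SExP ∧ SPlus) (hJ : 0 < J) (h : Cls D b)
    (hs : D ⊆ Metric.ball 0 (1 / 4)) (hp : Good0 D p) : ∃ c, MLim (crit J D b) p c := by
  have k : Sm D := ⟨h.lip3, h.1, hs⟩
  rcases h.std with rfl | rfl | rfl
  · exact mlimF hJ k hp
  · exact mlimP (H (by simp)).1 (H (by simp)).2 hJ k (h.lip4 (by simp)) hp
  · obtain ⟨c, hc⟩ := mlimP (H (by simp)).1 (H (by simp)).2 hJ k (h.lip4 (by simp)) hp
    exact ⟨_, mlim_minus hc⟩

theorem cov_small (H : b ≠ none → SExP ∧ SPlus) (hJ : 0 < J) (h : Cls D b)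
    (h' : Cls D' b) (hs : D ⊆ Metric.ball 0 (1 / 4)) (hs' : D' ⊆ Metric.ball 0 (1 / 4))
    (B : Bih D D' φ) (hp : Good0 D p) {c c' : ℝ} (hc : Lim (crit J D b) p c)
    (hc' : Lim (crit J D' b) (im φ p) c') : c = fac φ p * c' := by
  have k : Sm D := ⟨h.lip3, h.1, hs⟩
  have k' : Sm D' := ⟨h'.lip3, h'.1, hs'⟩
  rcases h.std with rfl | rfl | rfl
  · exact covF hJ k k' B hp hc hc'
  · obtain ⟨h1, h2⟩ := H (by simp)
    exact covP h1 h2 hJ k k' (h.lip4 (by simp)) (h'.lip4 (by simp)) B hp hc hc'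
  · obtain ⟨h1, h2⟩ := H (by simp)
    obtain ⟨d, hd⟩ := mlimP h1 h2 hJ k (h.lip4 (by simp)) hp
    obtain ⟨d', hd'⟩ := mlimP h1 h2 hJ k' (h'.lip4 (by simp)) ((k.pair k' B).good hp)
    rw [tendsto_nhds_unique hc (mlim_minus hd).lim, tendsto_nhds_unique hc' (mlim_minus hd').lim,
      covP h1 h2 hJ k k' (h.lip4 (by simp)) (h'.lip4 (by simp)) B hp hd.lim hd'.lim]
    ring

theorem Cls.mlim (H : b ≠ none → SExP ∧ SPlus) (hJ : 0 < J) (h : Cls D b) (hp : Good D p) :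
    ∃ c, MLim (crit J D b) p c := by
  obtain ⟨R, R0, hs⟩ := P144Q.U.exists_small h.lip3.2.1
  obtain ⟨c, hc⟩ := mlim_small H hJ (h.div R0) hs (P144Q.B.good_shr R0 hp).2
  exact ⟨_, mlim_div R0 h.std hc⟩

theorem Cls.locLim (H : b ≠ none → SExP ∧ SPlus) (hJ : 0 < J) (h : Cls D b) {C : Pts → ℝ}
    (hC : ∀ p, Good D p → Lim (crit J D b) p (C p)) : LocLim D (crit J D b) C :=
  locLim_of fun p hp => by
    obtain ⟨c, hc⟩ := h.mlim H hJ hp
    rwa [tendsto_nhds_unique (hC p hp) hc.lim]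

theorem good_im (B : Bih D D' φ) (hp : Good D p) : Good D' (im φ p) := by
  have k : ∀ u, Sum.elim p.x p.y u ∈ D := Sum.rec hp.2.1 hp.2.2.1
  refine ⟨hp.1, fun i => B.b.mapsTo (hp.2.1 i), fun i => B.b.mapsTo (hp.2.2.1 i),
    fun u v h => hp.2.2.2 (B.b.injOn (k u) (k v) ?_)⟩
  cases u <;> cases v <;> exact h

theorem Cls.cov (H : b ≠ none → SExP ∧ SPlus) (hJ : 0 < J) (h : Cls D b) (h' : Cls D' b)
    (B : Bih D D' φ) (hp : Good D p) {c c' : ℝ} (hc : Lim (crit J D b) p c)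
    (hc' : Lim (crit J D' b) (im φ p) c') : c = fac φ p * c' := by
  obtain ⟨R, R0, hs⟩ := P144Q.U.exists_small (h.lip3.2.1.union h'.lip3.2.1)
  rw [Set.image_union, Set.union_subset_iff] at hs
  have R1 : (R : ℂ) ≠ 0 := Complex.ofReal_ne_zero.2 R0.ne'
  have B' : Bih ((fun z => z / (R : ℂ)) '' D) ((fun z => z / (R : ℂ)) '' D')
      fun z => φ (R * z) / R := by
    have m1 : Set.BijOn (fun z => (R : ℂ) * z) ((fun z => z / (R : ℂ)) '' D) D := by
      refine ⟨?_, fun _ _ _ _ e => mul_left_cancel₀ R1 e, fun z hz =>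
        ⟨_, ⟨z, hz, rfl⟩, mul_div_cancel₀ z R1⟩⟩
      rintro _ ⟨z, hz, rfl⟩
      show (R : ℂ) * (z / R) ∈ D
      rwa [mul_div_cancel₀ z R1]
    exact ⟨(B.d.comp (by fun_prop) m1.mapsTo).div_const _,
      ((Set.InjOn.bijOn_image fun _ _ _ _ e => (div_left_inj' R1).1 e).comp B.b).comp m1⟩
  have e1 : im (fun z => φ (R * z) / R) (shr p R) = shr (im φ p) R := by
    simp only [im, mv, shr, mul_div_cancel₀ _ R1]
  have e2 : ∀ z, deriv (fun z => φ (R * z) / R) (z / R) = deriv φ z := fun z => by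
    rw [deriv_div_const, deriv_comp_mul_left, mul_div_cancel₀ _ R1, smul_eq_mul,
      mul_div_cancel_left₀ _ R1]
  have e3 : fac (fun z => φ (R * z) / R) (shr p R) = fac φ p := by
    simp only [fac, shr, e2]
    rfl
  obtain ⟨d, hd⟩ := mlim_small H hJ (h.div R0) hs.1 (P144Q.B.good_shr R0 hp).2
  obtain ⟨d', hd'⟩ := mlim_small H hJ (h'.div R0) hs.2
    (P144Q.B.good_shr R0 (good_im B hp)).2
  rw [tendsto_nhds_unique hc (mlim_div R0 h.std hd).lim,
    tendsto_nhds_unique hc' (mlim_div R0 h.std hd').lim,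
    cov_small H hJ (h.div R0) (h'.div R0) hs.1 hs.2 B' (P144Q.B.good_shr R0 hp).2 hd.lim
      (e1 ▸ hd'.lim), e3]
  ring

theorem cls_of (h : Nice D b) : Cls D b := ⟨h.1, h.cases⟩

theorem diaU : P.SDiaU := fun _ hJ _ hp => (cls_of P.nice_Dia).mlim (fun h => absurd rfl h) hJ hp

theorem diaC : P.SDiaC := fun _ hJ _ B _ hp _ _ hc hc' =>
  (cls_of P.nice_Dia).cov (fun h => absurd rfl h) hJ (cls_of P.nice_Dia) B hp hc hc'

/-- **Locally uniform convergence in the plane.** -/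
theorem locLim_plane (hJ : 0 < J) (hE : PlaneFam J 0 (fun _ => 0) (Kc / J) E) {C : Pts → ℝ}
    (hC : ∀ p, Good Set.univ p → Lim E p (C p)) : LocLim Set.univ E C :=
  P.plane_U hJ hE diaU hC

/-- **Covariance in the plane.** -/
theorem cov_plane (hJ : 0 < J) (hE : PlaneFam J 0 (fun _ => 0) (Kc / J) E) (hp : Good Set.univ p)
    {w : ℂ} (hw : w ≠ 0) (t : ℂ) {c c' : ℝ} (hc : Lim E p c)
    (hc' : Lim E (im (fun z => w * z + t) p) c') : c = fac (fun z => w * z + t) p * c' := by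
  rw [P.fac_sim]
  exact P.plane_cov hJ hE diaU diaC hp hw t hc hc'

end Vale.Agent.N144.C
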