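import Vale.Agent.P144Y.V.Dom
import Vale.Agent.P144Q.U.Lip3
import Mathlib.Analysis.Calculus.Deriv.Star

/-!
The boundary condition does not depend on the charts; it is transported by conformal maps and by
the reflection.
-/

namespace Vale.Agent.N144.C

open Filter Topology Complex Metric Set
open Vale.Agent.P144.H170 (HD F2 PP)
open Vale.Agent.P144.H365 (cH)
open Vale.Agent.P144.H436 (rc rc_rc)
open Vale.Agent.P144G (Nr HD_comp unif_of ev_ring HD_log HD_lin pt_sub')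
open Vale.Agent.P144M
open scoped ComplexConjugate

/-- A conformal bijection with its inverse. -/
structure Bi (D D' : Set ℂ) (f g : ℂ → ℂ) : Prop where
  op : IsOpen D
  op' : IsOpen D'
  fd : DifferentiableOn ℂ f D
  gd : DifferentiableOn ℂ g D'
  fm : MapsTo f D D'
  gm : MapsTo g D' D
  li : ∀ z ∈ D, g (f z) = z
  ri : ∀ w ∈ D', f (g w) = w

variable {D D' : Set ℂ} {f g : ℂ → ℂ} {ι ι' : Type}

theorem Bi.symm (B : Bi D D' f g) : Bi D' D g f :=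
  ⟨B.op', B.op, B.gd, B.fd, B.gm, B.fm, B.ri, B.li⟩

theorem Bi.der (B : Bi D D' f g) {z : ℂ} (hz : z ∈ D) : HasDerivAt f (deriv f z) z :=
  (B.fd.differentiableAt (B.op.mem_nhds hz)).hasDerivAt

theorem Bi.mul (B : Bi D D' f g) {z : ℂ} (hz : z ∈ D) : deriv g (f z) * deriv f z = 1 :=
  ((B.symm.der (B.fm hz)).comp z (B.der hz)).unique ((hasDerivAt_id z).congr_of_eventuallyEq
    (by filter_upwards [B.op.mem_nhds hz] with y hy using B.li y hy))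

theorem Bi.ne (B : Bi D D' f g) {z : ℂ} (hz : z ∈ D) : deriv f z ≠ 0 :=
  right_ne_zero_of_mul_eq_one (B.mul hz)

theorem Bi.inj (B : Bi D D' f g) : InjOn f D := fun z hz w hw e => by
  rw [← B.li z hz, e, B.li w hw]

/-- Charts with their inverses. -/
structure Ch2 (D : Set ℂ) (ι : Type) extends Chs D ι where
  ψ : ι → ℂ → ℂ
  ψd : ∀ j w, r < ‖w‖ → ‖w‖ < 1 → ψ j w ∈ D ∧ φ j (ψ j w) = w ∧ DifferentiableAt ℂ (ψ j) w

/-- The circles are seen from the components of the complement. -/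
structure At2 (D : Set ℂ) (ι : Type) extends Ch2 D ι where
  K : ι → Set ℂ
  Kp : ∀ j, IsPreconnected (K j)
  Ks : ∀ j, K j ⊆ Dᶜ
  Kn : ∀ j, (K j).Nonempty
  near : ∀ j, ∀ η > (0 : ℝ), ∃ ρ < (1 : ℝ), ∀ z ∈ D, ρ < ‖φ j z‖ → infDist z (K j) < η
  sg : ∀ j (ξ : ℂ), ‖ξ‖ = 1 → ∀ η > (0 : ℝ), ∃ p ∈ K j, p ∈ frontier D ∧ ∃ δ > (0 : ℝ),
    ∀ z ∈ D, ‖z - p‖ < δ → ‖φ j z - ξ‖ < η

/-- The atlas of the class. -/
def ofAtl (c : Atl D ι) : At2 D ι where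
  toChs := c.toChs
  ψ := c.ψ
  ψd := c.ψd
  K := c.K
  Kp := c.Kp
  Ks := c.Ks
  Kn := c.Kn
  near := c.near
  sg := fun j ξ hξ η hη => by
    obtain ⟨δ, hδ, hu⟩ := c.uc j _ (half_pos hη)
    obtain ⟨p, hp, hpf, hw⟩ := c.exists_bd j hξ
    obtain ⟨w, a1, a2, a3, a4⟩ := hw _ (lt_min (half_pos hη) hδ)
    obtain ⟨b1, b2, -⟩ := c.ψd j w a1 a2
    refine ⟨p, hp, hpf, δ, hδ, fun z hz h1 => ?_⟩
    have a5 := hu p hp z hz _ b1 h1 (a4.trans_le (min_le_right _ _))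
    rw [b2] at a5
    linarith [norm_sub_le_norm_sub_add_norm_sub (c.φ j z) w ξ, min_le_left (η / 2) δ]

theorem Ch2.left (c : Ch2 D ι) {j : ι} {z : ℂ} (hz : z ∈ D) (h : c.r < ‖c.φ j z‖) :
    c.ψ j (c.φ j z) = z :=
  c.inj j (c.ψd j _ h (c.lt j z hz)).1 hz (c.ψd j _ h (c.lt j z hz)).2.1

theorem ring_nhds {r : ℝ} {w : ℂ} (h1 : r < ‖w‖) (h2 : ‖w‖ < 1) :
    {y : ℂ | r < ‖y‖ ∧ ‖y‖ < 1} ∈ 𝓝 w :=
  inter_mem ((isOpen_lt continuous_const continuous_norm).mem_nhds h1)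
    ((isOpen_lt continuous_norm continuous_const).mem_nhds h2)

theorem Ch2.der (c : Ch2 D ι) {j : ι} {w : ℂ} (h1 : c.r < ‖w‖) (h2 : ‖w‖ < 1) :
    deriv (c.φ j) (c.ψ j w) * deriv (c.ψ j) w = 1 := by
  obtain ⟨a1, -, a3⟩ := c.ψd j w h1 h2
  refine ((((c.φd j).differentiableAt (c.op.mem_nhds a1)).hasDerivAt.comp w a3.hasDerivAt).unique
    ((hasDerivAt_id w).congr_of_eventuallyEq ?_))
  filter_upwards [ring_nhds h1 h2] with y b
  exact (c.ψd j y b.1 b.2).2.1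

theorem Ch2.an (c : Ch2 D ι) {j : ι} {w : ℂ} (h1 : c.r < ‖w‖) (h2 : ‖w‖ < 1) :
    AnalyticAt ℂ (c.ψ j) w :=
  DifferentiableOn.analyticAt (fun y hy => (c.ψd j y hy.1 hy.2).2.2.differentiableWithinAt)
    (ring_nhds h1 h2)

theorem ne_bot {ξ : ℂ} (hξ : ‖ξ‖ = 1) : (𝓝[ball (0 : ℂ) 1] ξ).NeBot := by
  rw [← mem_closure_iff_nhdsWithin_neBot, closure_ball _ one_ne_zero, mem_closedBall_zero_iff]
  exact hξ.le

section fin

variable [Fintype ι] [Fintype ι']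

/-- **The boundary condition from the `H`-function.** -/
theorem At2.bdc (c : At2 D ι) {K : Set ℂ} {h cv : ℂ → ℝ} {F : ℂ → ℂ} (hK : IsCompact K)
    (hKD : K ⊆ D) (hF : DifferentiableOn ℂ F (D \ K))
    (hd : ∀ z ∈ D \ K, HD h (fun w => cH * F w) z) (hc : LocC D cv) (hv : VanM D h cv)
    (hs : SgnM D h cv) : c.Bd F := by
  intro ε hε
  have key : ∀ j, ∀ᶠ ρ in 𝓝[<] (1 : ℝ), ∀ z ∈ D, ρ < ‖c.φ j z‖ →
      ‖c.X j (fun z => cH * F z) z‖ - (c.X j (fun z => cH * F z) z).re ≤ ε := by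
    intro j
    obtain ⟨p₀, hp₀⟩ := c.Kn j
    have hN : Nr (fun w => h (c.ψ j w) - cv p₀) fun w => cH * F (c.ψ j w) * deriv (c.ψ j) w := by
      constructor
      · obtain ⟨ρ, h1, h2⟩ := c.away hK hKD
        refine ⟨max ρ c.r, max_lt h1 c.r1, fun w a1 a2 => ?_⟩
        have a3 : c.r < ‖w‖ := (le_max_right _ _).trans_lt a1
        obtain ⟨b1, b2, b3⟩ := c.ψd j w a3 a2
        have b4 : c.ψ j w ∈ D \ K := ⟨b1, fun b => by
          have := h2 j _ b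
          rw [b2] at this
          linarith [le_max_left ρ c.r]⟩
        exact ⟨(((hF.differentiableAt ((c.op.sdiff hK.isClosed).mem_nhds b4)).comp w
          b3).const_mul _).mul (c.an a3 a2).deriv.differentiableAt, HasFDerivAt.sub_const _
            (HD_comp (G := fun y => cH * F y) (φ' := deriv (c.ψ j)) (hd _ b4) b3.hasDerivAt)⟩
      · intro e he
        obtain ⟨η, h1, h2⟩ := hv e he
        obtain ⟨ρ, h3, h4⟩ := c.near j η h1
        refine ⟨max ρ c.r, max_lt h3 c.r1, fun w a1 a2 => ?_⟩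
        obtain ⟨b1, b2, -⟩ := c.ψd j w ((le_max_right _ _).trans_lt a1) a2
        obtain ⟨y, hy, b3⟩ := (infDist_lt_iff (c.Kn j)).1
          (h4 _ b1 (by rw [b2]; exact (le_max_left _ _).trans_lt a1))
        rw [hc.const (c.Kp j) (c.Ks j) hp₀ hy]
        exact h2 _ b1 y (c.Ks j hy) (by rwa [← dist_eq_norm])
    have hlim : ∀ ξ : ℂ, ‖ξ‖ = 1 → Tendsto (fun w => ‖-(w * (cH * F (c.ψ j w) * deriv (c.ψ j) w))‖ -
        (-(w * (cH * F (c.ψ j w) * deriv (c.ψ j) w))).re) (𝓝[ball 0 1] ξ) (𝓝 0) := by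
      intro ξ hξ
      obtain ⟨t, ht, hl⟩ := hN.lim hξ fun η hη => by
        obtain ⟨p, hp, hpf, δ, hδ, hu⟩ := c.sg j ξ hξ _ (lt_min hη (sub_pos.2 c.r1))
        obtain ⟨z, hz, h1, h2⟩ := hs p hpf δ hδ
        have a6 := hu z hz h1
        refine ⟨c.φ j z, c.lt j z hz, a6.trans_le (min_le_left _ _), ?_⟩
        have a7 := norm_sub_norm_le ξ (c.φ j z)
        rw [norm_sub_rev, hξ] at a7
        rw [c.left hz (by linarith [min_le_right η (1 - c.r)]),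
          hc.const (c.Kp j) (c.Ks j) hp₀ hp]
        linarith
      have := hl.norm.sub (continuous_re.continuousAt.tendsto.comp hl)
      rwa [norm_real, Real.norm_of_nonneg ht, ofReal_re, sub_self] at this
    obtain ⟨ρ, h1, h2⟩ := unif_of hlim hε
    filter_upwards [Ioo_mem_nhdsLT (max_lt h1 c.r1)] with ρ' hρ' z hz a
    have a1 : c.r < ‖c.φ j z‖ := ((le_max_right _ _).trans_lt hρ'.1).trans a
    have a2 := h2 _ (((le_max_left _ _).trans_lt hρ'.1).trans a) (c.lt j z hz)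
    have a3 := c.der (j := j) a1 (c.lt j z hz)
    rw [c.left hz a1] at a2 a3
    have e : c.X j (fun z => cH * F z) z =
        -(c.φ j z * (cH * F z * deriv (c.ψ j) (c.φ j z))) := by
      unfold Chs.X
      rw [eq_one_div_of_mul_eq_one_right a3]
      ring
    rwa [e]
  obtain ⟨ρ, h2, h3⟩ := ((eventually_all.2 key).and self_mem_nhdsWithin).exists
  exact ⟨ρ, h3, h2⟩

/-- The end `j` of `c'` lies in the end `i` of `c`. -/
def Mch (c' : Ch2 D ι') (c : Ch2 D ι) (j : ι') (i : ι) : Prop :=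
  ∀ ρ < (1 : ℝ), ∃ ρ' < (1 : ℝ), ∀ z ∈ D, ρ' < ‖c'.φ j z‖ → ρ < ‖c.φ i z‖

omit [Fintype ι] in
theorem exists_mt (c' : Ch2 D ι') (c : Ch2 D ι) (j : ι') : ∃ i, Mch c' c j i := by
  obtain ⟨K₀, k1, k2, k3⟩ := c.prop c.r c.r1
  obtain ⟨ρ₀, a1, a2⟩ := c'.away k1 k2
  obtain ⟨ρ₁, a3, a4⟩ := exists_between (max_lt a1 c'.r1)
  have a5 : ρ₀ < ρ₁ := (le_max_left _ _).trans_lt a3
  have a6 : c'.r < ρ₁ := (le_max_right _ _).trans_lt a3
  have r0 := c'.r0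
  have hA : IsPreconnected (c'.ψ j '' {w : ℂ | ‖w - 0‖ ∈ Ioo ρ₁ 1}) :=
    (pre_polar isPreconnected_Ioo (fun t ht => by
      show 0 ≤ t
      linarith [ht.1]) 0).image _ fun w hw => by
      rw [mem_ofPred_eq, sub_zero] at hw
      exact (c'.ψd j w (a6.trans hw.1) hw.2).2.2.continuousAt.continuousWithinAt
  have hm : ∀ z ∈ D, ρ₁ < ‖c'.φ j z‖ → z ∈ c'.ψ j '' {w : ℂ | ‖w - 0‖ ∈ Ioo ρ₁ 1} :=
    fun z hz h => ⟨_, by rw [mem_ofPred_eq, sub_zero]; exact ⟨h, c'.lt j z hz⟩,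
      c'.left hz (a6.trans h)⟩
  have hin : ∀ z ∈ c'.ψ j '' {w : ℂ | ‖w - 0‖ ∈ Ioo ρ₁ 1}, z ∈ D ∧ ∃ i, c.r < ‖c.φ i z‖ := by
    rintro _ ⟨w, hw, rfl⟩
    rw [mem_ofPred_eq, sub_zero] at hw
    obtain ⟨b1, b2, -⟩ := c'.ψd j w (a6.trans hw.1) hw.2
    refine ⟨b1, k3 _ b1 fun b => ?_⟩
    have := a2 j _ b
    rw [b2] at this
    linarith [hw.1]
  have hU : ∀ i, IsOpen (D ∩ c.φ i ⁻¹' {w | c.r < ‖w‖}) := fun i =>
    (c.φd i).continuousOn.isOpen_inter_preimage c.op (isOpen_lt continuous_const continuous_norm)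
  have e : ‖((((ρ₁ + 1) / 2 : ℝ)) : ℂ) - 0‖ ∈ Ioo ρ₁ 1 := by
    rw [sub_zero, norm_real, Real.norm_of_nonneg (by linarith)]
    constructor <;> linarith
  obtain ⟨b1, i, b2⟩ := hin _ ⟨_, e, rfl⟩
  have hs := hA.subset_left_of_subset_union (hU i)
    (isOpen_iUnion fun i' : {i' // i' ≠ i} => hU i') (disjoint_left.2 fun z h1 h2 => by
      obtain ⟨i', h2⟩ := mem_iUnion.1 h2
      exact i'.2 (c.dis _ _ z h1.1 h2.2 h1.2))
    (fun z hz => by
      obtain ⟨d1, i', d2⟩ := hin z hz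
      by_cases h : i' = i
      · exact Or.inl ⟨d1, h ▸ d2⟩
      · exact Or.inr (mem_iUnion.2 ⟨⟨i', h⟩, d1, d2⟩)) ⟨_, mem_image_of_mem (c'.ψ j)
        (a := {w : ℂ | ‖w - 0‖ ∈ Ioo ρ₁ 1}) e, b1, b2⟩
  refine ⟨i, fun ρ hρ => ?_⟩
  obtain ⟨K, m1, m2, m3⟩ := c.prop _ (max_lt hρ c.r1)
  obtain ⟨ρ₂, m4, m5⟩ := c'.away m1 m2
  refine ⟨max ρ₁ ρ₂, max_lt a4 m4, fun z hz h => ?_⟩
  obtain ⟨i', h'⟩ := m3 z hz fun b => absurd (m5 j z b) (not_le.2 ((le_max_right _ _).trans_lt h))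
  rw [← c.dis i' i z hz ((le_max_right _ _).trans_lt h')
    (hs (hm z hz ((le_max_left _ _).trans_lt h))).2]
  exact (le_max_left _ _).trans_lt h'

omit [Fintype ι'] in
theorem Mch.symm {c' : Ch2 D ι'} {c : Ch2 D ι} {j : ι'} {i : ι} (h : Mch c' c j i) : Mch c c' i j := by
  obtain ⟨j', h'⟩ := exists_mt c c' i
  obtain ⟨ρ₁, a1, a2⟩ := h' _ c'.r1
  obtain ⟨ρ₂, a3, a4⟩ := h _ a1
  obtain ⟨t, a5, a6⟩ := exists_between (max_lt a3 c'.r1)
  have a7 : c'.r < t := (le_max_right _ _).trans_lt a5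
  have e : ‖(t : ℂ)‖ = t := by rw [norm_real, Real.norm_of_nonneg (c'.r0.trans a7).le]
  obtain ⟨b1, b2, -⟩ := c'.ψd j t (by rwa [e]) (by rwa [e])
  rwa [c'.dis j j' _ b1 (by rwa [b2, e])
    (a2 _ b1 (a4 _ b1 (by rw [b2, e]; exact (le_max_left _ _).trans_lt a5)))]

omit [Fintype ι] [Fintype ι'] in
/-- The change of charts is Lipschitz near the circle. -/
theorem Mch.lip {c' : Ch2 D ι'} {c : Ch2 D ι} {j : ι'} {i : ι} (h : Mch c c' i j) {ξ : ℂ}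
    (hξ : ‖ξ‖ = 1) : ∃ ε > (0 : ℝ), ∃ M > (0 : ℝ), ∀ w ∈ ball ξ ε ∩ ball 0 1,
      c.r < ‖w‖ ∧ ∀ w' ∈ ball ξ ε ∩ ball 0 1,
        ‖c'.φ j (c.ψ i w') - c'.φ j (c.ψ i w)‖ ≤ M * ‖w' - w‖ := by
  set τ : ℂ → ℂ := fun w => c'.φ j (c.ψ i w) with hτ
  have an : ∀ w : ℂ, c.r < ‖w‖ → ‖w‖ < 1 → AnalyticAt ℂ τ w := fun w a1 a2 =>
    ((c'.φd j).analyticAt (c.op.mem_nhds (c.ψd i w a1 a2).1)).comp (c.an a1 a2)
  have big : ∀ ρ < (1 : ℝ), ∃ r < (1 : ℝ), ∀ w : ℂ, r < ‖w‖ → ‖w‖ < 1 →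
      c.r < ‖w‖ ∧ ρ < ‖τ w‖ ∧ ‖τ w‖ < 1 := fun ρ hρ => by
    obtain ⟨ρ', a1, a2⟩ := h ρ hρ
    refine ⟨max ρ' c.r, max_lt a1 c.r1, fun w b1 b2 => ?_⟩
    have b3 : c.r < ‖w‖ := (le_max_right _ _).trans_lt b1
    obtain ⟨d1, d2, -⟩ := c.ψd i w b3 b2
    exact ⟨b3, a2 _ d1 (by rw [d2]; exact (le_max_left _ _).trans_lt b1), c'.lt j _ d1⟩
  have hN : Nr (fun w => -1 * Real.log ‖τ w‖ + 0 * Real.log ‖τ w‖)
      fun w => ((-1 : ℝ) : ℂ) * ((τ w)⁻¹ * deriv τ w) + ((0 : ℝ) : ℂ) * ((τ w)⁻¹ * deriv τ w) := by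
    constructor
    · obtain ⟨r, a1, a2⟩ := big 0 one_pos
      refine ⟨r, a1, fun w b1 b2 => ?_⟩
      obtain ⟨d1, d2, -⟩ := a2 w b1 b2
      have d3 := an w d1 b2
      have d4 := (d3.differentiableAt.inv (norm_pos_iff.1 d2)).mul d3.deriv.differentiableAt
      have d5 := HD_comp (φ' := deriv τ) (HD_log (norm_pos_iff.1 d2)) d3.differentiableAt.hasDerivAt
      exact ⟨(d4.const_mul _).add (d4.const_mul _), HD_lin d5 d5 (-1) 0⟩
    · intro ε hε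
      obtain ⟨r, a1, a2⟩ := big _ (Real.exp_lt_one_iff.2 (neg_lt_zero.2 hε))
      refine ⟨r, a1, fun w b1 b2 => ?_⟩
      obtain ⟨-, d2, d3⟩ := a2 w b1 b2
      have d4 := (Real.lt_log_iff_exp_lt ((Real.exp_pos _).trans d2)).2 d2
      have d5 := Real.log_nonpos (norm_nonneg _) d3.le
      rw [abs_le]
      constructor <;> linarith
  obtain ⟨r, a1, a2⟩ := big 0 one_pos
  have := ne_bot hξ
  obtain ⟨t, ht, hl⟩ := hN.lim hξ fun η hη => by
    obtain ⟨w, b1, b2⟩ := ((ev_ring a1 hξ).and (nhdsWithin_le_nhds (ball_mem_nhds ξ hη))).exists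
    refine ⟨w, b1.2, by rwa [← dist_eq_norm], ?_⟩
    linarith [Real.log_nonpos (norm_nonneg _) (a2 w b1.1 b1.2).2.2.le]
  have ev := ((hl.norm.eventually_lt_const (lt_add_one _)).and (ev_ring a1 hξ)).and
    (ev_ring (show (1 / 2 : ℝ) < 1 by norm_num) hξ)
  obtain ⟨ε, hε, hb⟩ := Metric.mem_nhdsWithin_iff.1 ev
  refine ⟨ε, hε, 2 * (‖(t : ℂ)‖ + 1), by positivity, fun w hw => ?_⟩
  have k : ∀ y ∈ ball ξ ε ∩ ball 0 1, c.r < ‖y‖ ∧ DifferentiableAt ℂ τ y ∧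
      ‖deriv τ y‖ ≤ 2 * (‖(t : ℂ)‖ + 1) := fun y hy => by
    obtain ⟨⟨b1, b2⟩, b3⟩ := hb hy
    obtain ⟨d1, d2, d3⟩ := a2 y b2.1 b2.2
    refine ⟨d1, (an y d1 b2.2).differentiableAt, ?_⟩
    simp only [ofReal_zero, zero_mul, add_zero, norm_neg, norm_mul, norm_real, norm_one, one_mul,
      norm_inv] at b1
    have d4 : 1 ≤ ‖τ y‖⁻¹ := (one_le_inv₀ d2).2 d3.le
    have d5 := mul_le_mul_of_nonneg_right d4 (norm_nonneg (deriv τ y))
    rw [norm_real]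
    nlinarith [b3.1, norm_nonneg (deriv τ y)]
  exact ⟨(k w hw).1, fun w' hw' => ((convex_ball _ _).inter (convex_ball _ _)).norm_image_sub_le_of_norm_deriv_le
    (fun y hy => (k y hy).2.1) (fun y hy => (k y hy).2.2) hw hw'⟩

/-- All systems of charts see the components. -/
theorem At2.other (c : At2 D ι) (c' : Ch2 D ι') : ∃ c'' : At2 D ι', c''.toCh2 = c' := by
  choose i hi using exists_mt c' c.toCh2
  refine ⟨⟨c', fun j => c.K (i j), fun j => c.Kp _, fun j => c.Ks _, fun j => c.Kn _,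
    fun j η hη => ?_, fun j ξ' hξ' η hη => ?_⟩, rfl⟩
  · obtain ⟨ρ, a1, a2⟩ := c.near (i j) η hη
    obtain ⟨ρ', a3, a4⟩ := hi j ρ a1
    exact ⟨ρ', a3, fun z hz h => a2 z hz (a4 z hz h)⟩
  have hne := ne_bot hξ'
  obtain ⟨ξ, hξ, hcl⟩ := (isCompact_closedBall (0 : ℂ) 1).exists_mapClusterPt
    (u := fun w => c.φ (i j) (c'.ψ j w)) (f := 𝓝[ball (0 : ℂ) 1] ξ') (by
      rw [le_principal_iff, mem_map]
      filter_upwards [ev_ring c'.r1 hξ'] with w hw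
      exact mem_closedBall_zero_iff.2 (c.lt _ _ (c'.ψd j w hw.1 hw.2).1).le)
  have hfr : ∀ s ∈ 𝓝 ξ, ∃ᶠ w in 𝓝[ball (0 : ℂ) 1] ξ', c.φ (i j) (c'.ψ j w) ∈ s :=
    mapClusterPt_iff_frequently.1 hcl
  have n1 : ‖ξ‖ = 1 := by
    refine (mem_closedBall_zero_iff.1 hξ).antisymm (not_lt.1 fun b => ?_)
    obtain ⟨ρ, b1, b2⟩ := exists_between b
    obtain ⟨ρ', a3, a4⟩ := hi j ρ b2
    obtain ⟨w, d1, d2, d3⟩ := ((hfr _ ((isOpen_lt continuous_norm continuous_const).mem_nhds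
      b1)).and_eventually ((ev_ring c'.r1 hξ').and (ev_ring a3 hξ'))).exists
    obtain ⟨e1, e2, -⟩ := c'.ψd j w d2.1 d2.2
    exact lt_asymm (a4 _ e1 (by rw [e2]; exact d3.1)) d1
  obtain ⟨ε, hε, M, hM, hL⟩ := (hi j).symm.lip n1
  have s0 : 0 < min ε (η / (4 * M)) := lt_min hε (by positivity)
  have s1 : M * min ε (η / (4 * M)) ≤ η / 4 := by
    have := min_le_right ε (η / (4 * M))
    rw [le_div_iff₀ (by positivity)] at this
    linarith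
  obtain ⟨w, d1, d2, d3⟩ := ((hfr _ (ball_mem_nhds ξ s0)).and_eventually
    ((ev_ring c'.r1 hξ').and (nhdsWithin_le_nhds (ball_mem_nhds ξ' (half_pos hη))))).exists
  obtain ⟨e1, e2, -⟩ := c'.ψd j w d2.1 d2.2
  obtain ⟨p, hp, hpf, δ, hδ, hu⟩ := c.sg (i j) ξ n1 _ s0
  refine ⟨p, hp, hpf, δ, hδ, fun z hz h => ?_⟩
  have f1 := hu z hz h
  have m1 : c.φ (i j) (c'.ψ j w) ∈ ball ξ ε ∩ ball 0 1 :=
    ⟨ball_subset_ball (min_le_left _ _) d1, mem_ball_zero_iff.2 (c.lt _ _ e1)⟩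
  have m2 : c.φ (i j) z ∈ ball ξ ε ∩ ball 0 1 :=
    ⟨by rw [mem_ball, dist_eq_norm]; exact f1.trans_le (min_le_left _ _),
      mem_ball_zero_iff.2 (c.lt _ _ hz)⟩
  have f2 := (hL _ m1).2 _ m2
  rw [c.left hz (hL _ m2).1, c.left e1 (hL _ m1).1, e2] at f2
  have d3 : dist w ξ' < η / 2 := d3
  have d1 : dist _ ξ < _ := d1
  rw [dist_eq_norm] at d1 d3
  have f3 := norm_sub_le_norm_sub_add_norm_sub (c.φ (i j) z) ξ (c.φ (i j) (c'.ψ j w))
  rw [norm_sub_rev ξ] at f3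
  have f4 := norm_sub_le_norm_sub_add_norm_sub (c'.φ j z) w ξ'
  show ‖c'.φ j z - ξ'‖ < η
  nlinarith

end fin

/-- The charts pulled back by a conformal map. -/
def Ch2.pull (c : Ch2 D' ι) (B : Bi D D' f g) (hb : Bornology.IsBounded D) : Ch2 D ι where
  φ := fun j z => c.φ j (f z)
  r := c.r
  r0 := c.r0
  r1 := c.r1
  op := B.op
  bdd := hb
  φd := fun j => (c.φd j).comp B.fd B.fm
  inj := fun j => (c.inj j).comp B.inj B.fm
  ne := fun j z hz => by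
    have := (((c.φd j).differentiableAt (c.op.mem_nhds (B.fm hz))).hasDerivAt.comp z
      (B.der hz)).deriv
    exact this ▸ mul_ne_zero (c.ne j _ (B.fm hz)) (B.ne hz)
  lt := fun j z hz => c.lt j _ (B.fm hz)
  dis := fun i j z hz => c.dis i j _ (B.fm hz)
  prop := fun ρ hρ => by
    obtain ⟨K, k1, k2, k3⟩ := c.prop ρ hρ
    exact ⟨g '' K, k1.image_of_continuousOn (B.gd.continuousOn.mono k2),
      (B.gm.mono_left k2).image_subset, fun z hz h => k3 _ (B.fm hz) fun b => h ⟨_, b, B.li z hz⟩⟩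
  ψ := fun j w => g (c.ψ j w)
  ψd := fun j w h1 h2 => by
    obtain ⟨a1, a2, a3⟩ := c.ψd j w h1 h2
    exact ⟨B.gm a1, by rw [B.ri _ a1, a2], (B.symm.der a1).differentiableAt.comp w a3⟩

theorem rc_eq (z : ℂ) : rc z = -conj z := by apply Complex.ext <;> simp [rc]

theorem mem_rc {w : ℂ} : w ∈ rc '' D ↔ rc w ∈ D := by rw [P144Q.U.rc_image]; rfl

theorem rc_sub (z w : ℂ) : rc z - rc w = -conj (z - w) := by
  rw [rc_eq, rc_eq, map_sub]; ring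

theorem rc_dist (z w : ℂ) : ‖rc z - w‖ = ‖z - rc w‖ := by
  conv_lhs => rw [← rc_rc w, rc_sub, norm_neg, norm_conj]

theorem der_rc {u : ℂ → ℂ} {u' w : ℂ} (h : HasDerivAt u u' (rc w)) :
    HasDerivAt (fun y => conj (u (rc y))) (-conj u') w := by
  have h1 := h.conj_conj
  rw [rc_eq, map_neg, conj_conj] at h1
  simpa [Function.comp_def, rc_eq] using h1.comp w (hasDerivAt_neg w)

/-- The reflected charts. -/
def At2.refl (c : At2 D ι) : At2 (rc '' D) ι where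
  φ := fun j w => conj (c.φ j (rc w))
  r := c.r
  r0 := c.r0
  r1 := c.r1
  op := by rw [P144Q.U.rc_image]; exact c.op.preimage P144Q.U.rc_cont
  bdd := by
    obtain ⟨R, hR⟩ := c.bdd.subset_closedBall 0
    refine (isBounded_closedBall (x := 0) (r := R)).subset ?_
    rintro _ ⟨z, hz, rfl⟩
    rw [mem_closedBall_zero_iff, P144Q.U.rc_norm]
    exact mem_closedBall_zero_iff.1 (hR hz)
  φd := fun j w hw => (der_rc ((c.φd j).differentiableAt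
    (c.op.mem_nhds (mem_rc.1 hw))).hasDerivAt).differentiableAt.differentiableWithinAt
  inj := fun j w hw w' hw' e => by
    rw [← rc_rc w, c.inj j (mem_rc.1 hw) (mem_rc.1 hw') (star_injective e), rc_rc]
  ne := fun j w hw => by
    rw [(der_rc ((c.φd j).differentiableAt (c.op.mem_nhds (mem_rc.1 hw))).hasDerivAt).deriv]
    simpa using c.ne j _ (mem_rc.1 hw)
  lt := fun j w hw => by rw [norm_conj]; exact c.lt j _ (mem_rc.1 hw)
  dis := fun i j w hw => by rw [norm_conj, norm_conj]; exact c.dis i j _ (mem_rc.1 hw)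
  prop := fun ρ hρ => by
    obtain ⟨K, k1, k2, k3⟩ := c.prop ρ hρ
    refine ⟨rc '' K, k1.image P144Q.U.rc_cont, image_mono k2, fun z hz h => ?_⟩
    simp only [norm_conj]
    exact k3 _ (mem_rc.1 hz) fun b => h (mem_rc.2 b)
  ψ := fun j w => rc (c.ψ j (conj w))
  ψd := fun j w h1 h2 => by
    obtain ⟨a1, a2, a3⟩ := c.ψd j (conj w) (by rwa [norm_conj]) (by rwa [norm_conj])
    refine ⟨⟨_, a1, rfl⟩, by rw [rc_rc, a2, conj_conj], ?_⟩
    have := a3.conj_conj.neg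
    rw [conj_conj] at this
    simp only [rc_eq]
    exact this
  K := fun j => rc '' c.K j
  Kp := fun j => (c.Kp j).image _ P144Q.U.rc_cont.continuousOn
  Ks := fun j w hw b => c.Ks j (mem_rc.1 hw) (mem_rc.1 b)
  Kn := fun j => (c.Kn j).image _
  near := fun j η hη => by
    obtain ⟨ρ, a1, a2⟩ := c.near j η hη
    refine ⟨ρ, a1, fun w hw h => ?_⟩
    rw [norm_conj] at h
    obtain ⟨y, hy, b⟩ := (infDist_lt_iff (c.Kn j)).1 (a2 _ (mem_rc.1 hw) h)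
    refine (infDist_lt_iff ((c.Kn j).image _)).2 ⟨_, ⟨y, hy, rfl⟩, ?_⟩
    rwa [dist_eq_norm, ← rc_dist, ← dist_eq_norm]
  sg := fun j ξ hξ η hη => by
    obtain ⟨p, hp, hpf, δ, hδ, hu⟩ := c.sg j (conj ξ) (by rwa [norm_conj]) η hη
    refine ⟨rc p, ⟨p, hp, rfl⟩, ?_, δ, hδ, fun w hw h => ?_⟩
    · rw [c.op.frontier_eq] at hpf
      refine ⟨image_closure_subset_closure_image P144Q.U.rc_cont ⟨p, hpf.1, rfl⟩, fun b => ?_⟩
      have := mem_rc.1 (interior_subset b)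
      rw [rc_rc] at this
      exact hpf.2 this
    · rw [← norm_conj, map_sub, conj_conj]
      exact hu _ (mem_rc.1 hw) (by rwa [rc_dist])

/-- There are charts. -/
def HasAt (D : Set ℂ) : Prop := ∃ (ι : Type) (_ : Fintype ι), Nonempty (At2 D ι)

/-- **The boundary condition**, in all charts. -/
def BdA (D : Set ℂ) (F : ℂ → ℂ) : Prop := ∀ (ι : Type) [Fintype ι] (c : At2 D ι), c.Bd F

theorem hasAt (h : P144Q.L.Lip3 D) (hc : IsConnected D) : HasAt D := by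
  obtain ⟨ι, i, ⟨c⟩⟩ := P144M.atlas h hc
  exact ⟨ι, i, ⟨ofAtl c⟩⟩

variable {F F' : ℂ → ℂ}

/-- **Transport by a conformal map.** -/
theorem BdA.pull (B : Bi D D' f g) (hD' : HasAt D') {T : Set ℂ} (hT : IsCompact T) (hTD : T ⊆ D)
    (he : ∀ z ∈ D, z ∉ T → F z = F' (f z) * deriv f z) (h : BdA D' F') : BdA D F := by
  intro ι _ c
  obtain ⟨ι', _, ⟨c'⟩⟩ := hD'
  obtain ⟨c'', e⟩ := c'.other (c.toCh2.pull B.symm c'.bdd)
  refine Chs.Bg.congr (g := fun z => cH * (F' (f z) * deriv f z)) (fun ε hε => ?_) hT hTD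
    fun z hz a => by rw [he z hz a]
  obtain ⟨ρ, h1, h2⟩ := h ι c'' ε hε
  refine ⟨ρ, h1, fun j z hz a => ?_⟩
  have e1 : c''.φ j = fun w => c.φ j (g w) := by rw [e]; rfl
  have h3 := h2 j (f z) (B.fm hz) (by simpa only [e1, B.li z hz] using a)
  have e2 : c''.X j (fun z => cH * F' z) (f z) =
      c.X j (fun z => cH * (F' (f z) * deriv f z)) z := by
    unfold Chs.X
    have d := ((c.φd j).differentiableAt (c.op.mem_nhds hz)).hasDerivAt
    rw [← B.li z hz] at d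
    have d' : deriv (fun w => c.φ j (g w)) (f z) = _ := (d.comp (f z) (B.symm.der (B.fm hz))).deriv
    simp only [e1]
    rw [d', B.li z hz, eq_one_div_of_mul_eq_one_left (B.mul hz)]
    have := B.ne hz
    have := c.ne j z hz
    field_simp
  rwa [e2] at h3

/-- **Transport by the reflection.** -/
theorem BdA.refl {T : Set ℂ} (hT : IsCompact T) (hTD : T ⊆ D)
    (he : ∀ z ∈ D, z ∉ T → F z = -I * conj (F' (rc z))) (h : BdA (rc '' D) F') : BdA D F := by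
  intro ι _ c
  refine Chs.Bg.congr (g := fun z => cH * (-I * conj (F' (rc z)))) (fun ε hε => ?_) hT hTD
    fun z hz a => by rw [he z hz a]
  obtain ⟨ρ, h1, h2⟩ := h ι c.refl ε hε
  refine ⟨ρ, h1, fun j z hz a => ?_⟩
  have h3 := h2 j (rc z) ⟨z, hz, rfl⟩ (by
    show ρ < ‖conj (c.φ j (rc (rc z)))‖
    rwa [norm_conj, rc_rc])
  have e2 : c.refl.X j (fun z => cH * F' z) (rc z) =
      conj (c.X j (fun z => cH * (-I * conj (F' (rc z)))) z) := by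
    have d := ((c.φd j).differentiableAt (c.op.mem_nhds hz)).hasDerivAt
    rw [← rc_rc z] at d
    have e3 : conj cH * I = -cH := by apply Complex.ext <;> simp [cH] <;> ring
    unfold Chs.X
    show -(cH * F' (rc z) * (conj (c.φ j (rc (rc z))) /
      deriv (fun w => conj (c.φ j (rc w))) (rc z))) = _
    rw [(der_rc d).deriv, rc_rc]
    simp only [map_neg, map_mul, map_div₀, conj_conj, conj_I, neg_neg, div_neg]
    linear_combination (F' (rc z) * (conj (c.φ j z) / conj (deriv (c.φ j) z))) * e3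
  rwa [e2, norm_conj, conj_re] at h3

/-- The difference of two solutions satisfies the boundary condition. -/
theorem BdA.sub {κ κ' : Type} [Fintype κ] [Fintype κ'] {ζ : κ → ℂ} {ω : κ' → ℂ} {q1 q2 : ℂ → ℂ}
    (b1 : BdA D (F2 ζ ω q1)) (b2 : BdA D (F2 ζ ω q2)) :
    BdA D (F2 ζ ω fun z => q1 z - q2 z) := by
  intro ι _ c ε hε
  obtain ⟨ρ1, a1, a2⟩ := b1 ι c (ε / 4) (by positivity)
  obtain ⟨ρ2, a3, a4⟩ := b2 ι c (ε / 4) (by positivity)
  refine ⟨max ρ1 ρ2, max_lt a1 a3, fun j y hy a => ?_⟩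
  have d1 := a2 j y hy ((le_max_left _ _).trans_lt a)
  have d2 := a4 j y hy ((le_max_right _ _).trans_lt a)
  have e : ∀ u : ℂ → ℂ, c.X j (fun z => cH * (u z ^ 2 / PP ζ ω z)) y =
      -(cH * (c.φ j y / deriv (c.φ j) y) / PP ζ ω y) * u y ^ 2 := fun u => by
    unfold Chs.X; ring
  unfold F2 at d1 d2 ⊢
  rw [e] at d1 d2
  rw [e fun z => q1 z - q2 z]
  linarith [pt_sub' (-(cH * (c.φ j y / deriv (c.φ j) y) / PP ζ ω y)) (q1 y) (q2 y)]

/-- The small connected domains of the class. -/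
structure Sm (D : Set ℂ) : Prop where
  lip : P144Q.L.Lip3 D
  con : IsConnected D
  small : D ⊆ ball 0 (1 / 4)

theorem Sm.hasAt (h : Sm D) : HasAt D := C.hasAt h.lip h.con

theorem Sm.refl (h : Sm D) : Sm (rc '' D) :=
  ⟨P144Q.U.lip3_rc h.lip, h.con.image _ P144Q.U.rc_cont.continuousOn, P144Q.U.small_rc h.small⟩

/-- **The domain with its canonical boundary condition.** -/
def Sm.dom (h : Sm D) : P144Y.Dom where
  D := D
  Bd := BdA D
  op := h.lip.1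
  small := h.small
  conn := fun _ hT => pre_diff_fin h.lip.1 h.con.isPreconnected hT
  smul := fun F F' t T a1 a2 a3 a4 b ι _ c => c.smul F F' t T a1 a2 a3 a4 (b ι c)
  zero := fun _ _ c => c.zero
  uni := fun κ κ' _ _ ζ ω q q1 q2 T a1 a2 a3 a4 a5 a6 a7 a8 a9 a10 b1 b2 => by
    obtain ⟨ι, _, ⟨c⟩⟩ := h.hasAt
    exact c.uni κ κ' ζ ω q q1 q2 T a1 a2 a3 a4 a5 a6 a7 a8 a9 a10 (b1 ι c) (b2 ι c)
  fat := P144Q.L.fat3 h.lip
  van := fun a => P144T.V.van0 h.lip.1 h.small (P144Q.L.fat3 h.lip) a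
  bd := fun a F h1 h2 ι _ c => by
    obtain ⟨cv, c1, c2, c3⟩ := P144T.V.van h.lip.1 h.small (P144Q.L.fat3 h.lip) a
    exact c.bdc a.cpt a.sub h1 h2 c1 c2 c3
  uniX := fun κ κ' _ _ ζ ω q q1 q2 T a2 a3 a4 a5 a6 a7 a8 a9 a10 b1 b2 => by
    obtain ⟨ι, _, ⟨c⟩⟩ := h.hasAt
    exact P144Y.V.uniX c.toChs κ κ' ζ ω q q1 q2 T a2 a3 a4 a5 a6 a7 a8 a9 a10 (b1 ι c) (b2 ι c)
  vanU := fun a => P144Y.V.van0 h.lip.1 h.small (P144Q.L.fat3 h.lip) a
  bdU := fun a F h1 h2 ι _ c => by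
    obtain ⟨cv, c1, c2, c3⟩ := P144Y.V.van h.lip.1 h.small (P144Q.L.fat3 h.lip) a
    exact c.bdc a.cpt a.sub h1 h2 c1 c2 c3

end Vale.Agent.N144.C
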