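import Vale.Agent.P144Y.J.Asm
import Vale.Agent.P144X.T4
import Vale.Agent.P144P.Defs2

/-!
Conformal covariance and locally uniform convergence at the free-fermion point: the interface
between the blocks.
-/

namespace Vale.Agent.N144.C

open Filter Topology Finset Vale.Agent.P144
open Vale.Agent.P144.H170 (F2)
open Vale.Agent.P144.H365 (ResNN c0)
open Vale.Agent.P144.H135 (w0 kap)
open Vale.Agent.P144.H436 (rc)
open Vale.Agent.P144.AL (Pf Lb lbs)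
open Vale.Agent.P144S.F (sj lb)
open Vale.Agent.P144Y (Dom Ext FamP Rep GW fm)
open Vale.Agent.P144T (Fam0 Good0 Gn fre)

/-! ### Moving points -/

/-- The configuration `p` with new positions. -/
abbrev mv (p : Pts) (x : Fin p.n → ℂ) (y : Fin p.m → ℂ) : Pts := ⟨p.n, p.m, x, y, p.j⟩

/-- The mesh tends to zero and the points tend to those of `p`. -/
structure Mv {ι : Type} (l : Filter ι) (a : ι → ℝ) (p : Pts) (x : ι → Fin p.n → ℂ)
    (y : ι → Fin p.m → ℂ) : Prop where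
  a0 : Tendsto a l (𝓝[>] 0)
  hx : ∀ i, Tendsto (fun k => x k i) l (𝓝 (p.x i))
  hy : ∀ i, Tendsto (fun k => y k i) l (𝓝 (p.y i))

/-- The limit along moving points. -/
def MLim (E : Fam) (p : Pts) (c : ℝ) : Prop :=
  ∀ (ι : Type) (l : Filter ι) (a : ι → ℝ) (x : ι → Fin p.n → ℂ) (y : ι → Fin p.m → ℂ),
    Mv l a p x y → Tendsto (fun k => corr (a k) (E (a k)) (mv p (x k) (y k))) l (𝓝 c)

/-- The image of a configuration. -/
abbrev im (φ : ℂ → ℂ) (p : Pts) : Pts := mv p (fun i => φ (p.x i)) fun k => φ (p.y k)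

/-- The factor of the conformal covariance. -/
noncomputable def fac (φ : ℂ → ℂ) (p : Pts) : ℝ :=
  (∏ i, ‖deriv φ (p.x i)‖ ^ (1 / 8 : ℝ)) * ∏ k, ‖deriv φ (p.y k)‖

/-! ### Solutions of the boundary value problems -/

section

variable {κ κ' : Type} [Fintype κ] [Fintype κ']

/-- The solution with a source at the spin `ω`, up to the sign. -/
structure SSol (Ω : Dom) (ζ : κ → ℂ) (ω : ℂ) (q : ℂ → ℂ) : Prop where
  diff : DifferentiableOn ℂ q Ω.D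
  bd : Ω.Bd (F2 ζ (fun _ : Unit => ω) q)
  res : ∀ p, ζ p ∈ Ω.D → ResNN ζ (fun _ : Unit => ω) q (ζ p)
  src : (Real.pi / 2 : ℂ) * (1 - Complex.I) * q ω ^ 2 = ∏ p, (ω - ζ p)

/-- The complex gradient of the logarithm of the disorder correlation. -/
noncomputable def gA (ζ : κ → ℂ) (ω : ℂ) (q : ℂ → ℂ) : ℂ :=
  deriv (fun z => q z ^ 2 / ∏ p, (z - ζ p)) ω / (4 * (q ω ^ 2 / ∏ p, (ω - ζ p)))

/-- The logarithmic derivative of the root of `∏ (z - ζ p)`. -/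
noncomputable def sh (ζ : κ → ℂ) (z : ℂ) : ℂ := (∑ p, (z - ζ p)⁻¹) / 2

/-- The solution with a simple pole of residue `r` at `z'`; `c` is its regular part. -/
structure Pol (Ω : Dom) (ζ : κ → ℂ) (z' r : ℂ) (q : ℂ → ℂ) (c : ℂ) : Prop where
  qd : DifferentiableOn ℂ q (Ω.D \ {z'})
  loc : Tendsto (fun z => q z - r / (z - z')) (𝓝[≠] z') (𝓝 (c + r * sh ζ z'))
  bd : Ω.Bd (F2 ζ w0 q)
  rs : ∀ p, ζ p ∈ Ω.D → ResNN ζ w0 q (ζ p)

/-- Roots, solutions and regular parts at the energies. -/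
structure EF (m : ℕ) where
  R : Fin m → ℂ
  q : Fin m → ℂ → ℂ → ℂ
  Y : Fin m → ℂ → ℂ

/-- The data are those of the branch points `ζ` and the energies at `y`. -/
structure IsE (Ω : Dom) (ζ : κ → ℂ) {m : ℕ} (y : Fin m → ℂ) (e : EF m) : Prop where
  hR : ∀ k, e.R k ^ 2 = ∏ p, (y k - ζ p)
  pol : ∀ l η, Pol Ω ζ (y l) (e.R l * (η * -kap)) (e.q l η) (e.R l * e.Y l η)
  linq : ∀ k l, k ≠ l → ∀ (s t : ℝ) (η η' : ℂ),
    e.q l (s * η + t * η') (y k) = s * e.q l η (y k) + t * e.q l η' (y k)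
  linY : ∀ l (s t : ℝ) (η η' : ℂ), e.Y l (s * η + t * η') = s * e.Y l η + t * e.Y l η'
  asy : ∀ l η, (η * e.Y l η).re = 0

/-- The boundary condition is closed under real linear combinations. -/
def Lin (Ω : Dom) : Prop := ∀ (κ κ' : Type) [Fintype κ] [Fintype κ'] (ζ : κ → ℂ) (ω : κ' → ℂ)
  (q₁ q₂ : ℂ → ℂ) (s t : ℝ), Ω.Bd (F2 ζ ω q₁) → Ω.Bd (F2 ζ ω q₂) →
    Ω.Bd (F2 ζ ω fun z => s * q₁ z + t * q₂ z)

/-- A conformal map of `D` onto `D'`. -/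
structure Bih (D D' : Set ℂ) (φ : ℂ → ℂ) : Prop where
  d : DifferentiableOn ℂ φ D
  b : Set.BijOn φ D D'

/-- The boundary condition of `Ω'` pulls back to the one of `Ω`. -/
def PB (Ω Ω' : Dom) (φ : ℂ → ℂ) : Prop := ∀ (F F' : ℂ → ℂ) (T : Set ℂ), T.Finite → T ⊆ Ω.D →
  (∀ z ∈ Ω.D, z ∉ T → F z = F' (φ z) * deriv φ z) → Ω'.Bd F' → Ω.Bd F

/-- `Ωr` is the mirror image of `Ω`. -/
def RF (Ω Ωr : Dom) : Prop := Ωr.D = rc '' Ω.D ∧ ∀ F : ℂ → ℂ, Ω.Bd F →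
  Ωr.Bd fun z => -Complex.I * (starRingEnd ℂ) (F (rc z))

/-- `m` is a root of the ratio of the branching polynomials. -/
structure Mt (D : Set ℂ) (φ : ℂ → ℂ) (ζ : κ → ℂ) (ζ' : κ' → ℂ) (m : ℂ → ℂ) : Prop where
  d : DifferentiableOn ℂ m D
  ne : ∀ z ∈ D, m z ≠ 0
  sq : ∀ z ∈ D, m z ^ 2 * ∏ p, (φ z - ζ' p) = deriv φ z * ∏ p, (z - ζ p)

end

/-- Two conformally equivalent domains with matching boundary conditions. -/
structure Pair0 (φ : ℂ → ℂ) where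
  Ω : Dom
  Ω' : Dom
  Ωr : Dom
  Ωr' : Dom
  bih : Bih Ω.D Ω'.D φ
  ne : ∀ z ∈ Ω.D, deriv φ z ≠ 0
  pb : PB Ω Ω' φ
  rf : RF Ω Ωr
  rf' : RF Ω' Ωr'
  lin : Lin Ω
  lin' : Lin Ω'
  mt0 : ∀ (κ : Type) [Fintype κ] (x : κ → ℂ), (∀ i, x i ∈ Ω.D) → Even (Fintype.card κ) →
    ∃ m, Mt Ω.D φ x (fun i => φ (x i)) m

/-- The same with matching points in the components of the complements. -/
structure Pair (φ : ℂ → ℂ) extends Pair0 φ where
  N : ℕ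
  ξ : Fin N → ℂ
  ξ' : Fin N → ℂ
  o : Fin N
  o' : Fin N
  inj : Function.Injective ξ
  inj' : Function.Injective ξ'
  ext : ∀ s, ξ s ∈ Ext Ω.D
  ext' : ∀ s, ξ' s ∈ Ext Ω'.D
  rep : ∀ P, FamP Ω.D P → Rep P (univ.image ξ)
  rep' : ∀ P, FamP Ω'.D P → Rep P (univ.image ξ')
  out : ∀ P, FamP Ω.D P → ∀ᶠ a in 𝓝[>] (0 : ℝ), ∀ R,
    P144S.MM (P a) (fl a (ξ o) ::ₘ R) = P144S.MM (P a) R
  out' : ∀ P, FamP Ω'.D P → ∀ᶠ a in 𝓝[>] (0 : ℝ), ∀ R,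
    P144S.MM (P a) (fl a (ξ' o') ::ₘ R) = P144S.MM (P a) R
  rto : ∃ m : ℂ → ℂ, DifferentiableOn ℂ m Ω.D ∧ ∀ z ∈ Ω.D, m z ^ 2 = z - ξ o
  rto' : ∃ m : ℂ → ℂ, DifferentiableOn ℂ m Ω'.D ∧ ∀ z ∈ Ω'.D, m z ^ 2 = z - ξ' o'
  mt : ∀ (κ : Type) [Fintype κ] (x : κ → ℂ) (S : Finset (Fin N)), (∀ i, x i ∈ Ω.D) →
    Even (Fintype.card κ + S.card) →
    ∃ m, Mt Ω.D φ (Sum.elim x fun s : S => ξ s) (Sum.elim (fun i => φ (x i)) fun s : S => ξ' s) m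

/-! ### The explicit formulas -/

/-- The phase of the second corner of an energy. -/
noncomputable def eh (j : Fin 2) : ℂ := if j = 0 then ⟨1 / √2, 1 / √2⟩ else ⟨1 / √2, -(1 / √2)⟩

/-- The kernel between corners of energies; `Y₀` is subtracted on the diagonal. -/
noncomputable def kE {m : ℕ} (e : EF m) (y : Fin m → ℂ) (Y₀ : Fin m → ℂ → ℂ) (k : Fin m) (η : ℂ)
    (l : Fin m) (η' : ℂ) : ℝ :=
  if k = l then (η * (e.Y k η' - Y₀ k η')).re else (η * (e.q l η' (y k) / e.R k)).re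

/-- The constant `√(π / 2) c₀`. -/
noncomputable def sc0 : ℂ := ((√(2 * Real.pi) / 2 : ℝ) : ℂ) * c0

/-- The kernel of the free model; `η k false` and `η k true` are the phases of the two corners. -/
noncomputable def kF {n m : ℕ} (x : Fin n → ℂ) (y : Fin m → ℂ) (s : Fin n → ℂ → ℂ) (e : EF m)
    (Y₀ : Fin m → ℂ → ℂ) (η : Fin m → Bool → ℂ) : Lb n m → Lb n m → ℂ
  | .src i, .src j => -(Complex.I * (sc0 * s j (x i)) * (sc0 * s j (x j)))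
  | .src j, .lo k => ((η k false * (s j (y k) / e.R k)).re : ℝ) * (sc0 * s j (x j))
  | .src j, .hi k => ((η k true * (s j (y k) / e.R k)).re : ℝ) * (sc0 * s j (x j))
  | .lo k, .lo l => (kE e y Y₀ k (η k false) l (η l false) : ℝ)
  | .lo k, .hi l => (kE e y Y₀ k (η k false) l (η l true) : ℝ)
  | .hi k, .lo l => (kE e y Y₀ k (η k true) l (η l false) : ℝ)
  | .hi k, .hi l => (kE e y Y₀ k (η k true) l (η l true) : ℝ)
  | _, _ => 0

/-- The product of `1 / (i (x i - x j))` over the pairs of a list. -/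
noncomputable def csL {n : ℕ} (x : Fin n → ℂ) : List (Fin n) → ℂ
  | [] => 1
  | i :: L => (L.map fun j => 1 / (Complex.I * (x i - x j))).prod * csL x L

/-- The ratio of the free mixed correlation and the disorder correlation. -/
noncomputable def vF (p : Pts) (s : Fin p.n → ℂ → ℂ) (e e₀ : EF p.m) : ℝ :=
  (∏ k, sj (p.j k)) * (csL p.x (List.finRange p.n) * Pf (kF p.x p.y s e e₀.Y
    fun k b => if b then eh (p.j k) else 1) (lbs (univ : Finset (Fin p.m)).toList [])).re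

/-- The data of the free model. -/
structure IsF (Ω : Dom) (p : Pts) (s : Fin p.n → ℂ → ℂ) (e e₀ : EF p.m) : Prop where
  s : ∀ j, SSol Ω (fun i : {i // i ≠ j} => p.x i) (p.x j) (s j)
  e : IsE Ω p.x p.y e
  e₀ : IsE Ω w0 p.y e₀

/-- The Pfaffian of the plus model. -/
noncomputable def vP (p : Pts) (e : EF p.m) (Y₀ : Fin p.m → ℂ → ℂ) : ℝ :=
  (∏ k, sj (p.j k)) * Pf (fun u v : Fin p.m × Bool => kE e p.y Y₀
    u.1 (if u.2 then 1 else eh (p.j u.1)) v.1 (if v.2 then 1 else eh (p.j v.1)))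
    (lb (univ : Finset (Fin p.m)).toList)

/-- The value of the plus model. -/
noncomputable def cP (p : Pts) (T : Finset ℂ) (g g₀ : Finset ℂ → ℝ) (e e₀ : Finset ℂ → EF p.m) :
    ℝ :=
  (∑ S ∈ T.powerset, g S * vP p (e S) fun k η =>
    ∑ S' ∈ T.powerset, ((g₀ S' / ∑ S ∈ T.powerset, g₀ S : ℝ) : ℂ) * (e₀ S').Y k η) /
    ∑ S ∈ T.powerset, g₀ S

/-! ### The blocks -/

/-- Matching domains exist (first part). -/
def SPair0 : Prop := ∀ (D D' : Set ℂ) (φ : ℂ → ℂ), P144Q.L.Lip3 D → IsConnected D →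
  D ⊆ Metric.ball 0 (1 / 4) → P144Q.L.Lip3 D' → IsConnected D' → D' ⊆ Metric.ball 0 (1 / 4) →
  Bih D D' φ → ∃ c : Pair0 φ, c.Ω.D = D ∧ c.Ω'.D = D'

/-- Matching domains exist. -/
def SPair : Prop := ∀ (D D' : Set ℂ) (φ : ℂ → ℂ), P144Q.L.Lip3 D → IsConnected D →
  D ⊆ Metric.ball 0 (1 / 4) → P144Q.L.Lip3 D' → IsConnected D' → D' ⊆ Metric.ball 0 (1 / 4) →
  Bih D D' φ → ∃ c : Pair φ, c.Ω.D = D ∧ c.Ω'.D = D'

/-- The data of the free model exist. -/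
def SExF : Prop := ∀ (Ω : Dom) (Λ : ℝ → Finset Site) (p : Pts), Lin Ω → Fam0 Ω.D Λ →
  Good0 Ω.D p → ∃ s e e₀, IsF Ω p s e e₀

/-- The free model along moving points. -/
def SFree : Prop := ∀ J > (0 : ℝ), ∀ (Ω : Dom) (Λ : ℝ → Finset Site) (p : Pts), Fam0 Ω.D Λ →
  Good0 Ω.D p → ∀ (ι : Type) (l : Filter ι) (a : ι → ℝ) (x : ι → Fin p.n → ℂ)
    (y : ι → Fin p.m → ℂ), Mv l a p x y →
    (¬ Even p.n → ∀ᶠ k in l, corr (a k) (fre J Λ (a k)) (mv p (x k) (y k)) = 0) ∧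
    (Even p.n → ∀ s e e₀, IsF Ω p s e e₀ → ∀ g : ℝ,
      Tendsto (fun k => Gn Λ (univ.image (x k)) (a k)) l (𝓝 g) →
      Tendsto (fun k => corr (a k) (fre J Λ (a k)) (mv p (x k) (y k))) l (𝓝 (g * vF p s e e₀)))

/-- The data of the plus model exist. -/
def SExP : Prop := ∀ (Ω : Dom) (P : ℝ → Finset Site) (p : Pts) (S : Finset ℂ), Lin Ω →
  FamP Ω.D P → Good0 Ω.D p → (∀ z ∈ S, z ∈ Ext Ω.D) → ∃ e, IsE Ω (P144Y.C.zs p S) p.y e

/-- The plus model along moving points. -/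
def SPlus : Prop := ∀ J > (0 : ℝ), ∀ (Ω : Dom) (P : ℝ → Finset Site) (T : Finset ℂ) (p : Pts),
  FamP Ω.D P → (∀ z ∈ T, z ∈ Ext Ω.D) → Rep P T → Good0 Ω.D p →
  ∀ (ι : Type) (l : Filter ι) (a : ι → ℝ) (x : ι → Fin p.n → ℂ) (y : ι → Fin p.m → ℂ),
    Mv l a p x y → ∀ (g g₀ : Finset ℂ → ℝ) (e e₀ : Finset ℂ → EF p.m),
    (∀ S ⊆ T, IsE Ω (P144Y.C.zs p S) p.y (e S)) →
    (∀ S ⊆ T, IsE Ω (P144Y.C.zs (P144Y.J.p0 p) S) p.y (e₀ S)) →
    (∀ S ⊆ T, Tendsto (fun k => GW P (univ.image (x k)) S (a k)) l (𝓝 (g S))) →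
    (∀ S ⊆ T, 0 < g₀ S ∧ Tendsto (GW P ∅ S) (𝓝[>] 0) (𝓝 (g₀ S))) →
    Tendsto (fun k => corr (a k) (P144S.pl J (P (a k))) (mv p (x k) (y k))) l
      (𝓝 (cP p T g g₀ e e₀))

/-- The correlations hardly depend on the size of the diamond, along moving points. -/
def STwoM : Prop := ∀ J > (0 : ℝ), ∀ p : Pts, P144P.Dist p → ∀ ε > (0 : ℝ), ∃ T : ℝ,
  ∀ (ι : Type) (l : Filter ι) (a : ι → ℝ) (x : ι → Fin p.n → ℂ) (y : ι → Fin p.m → ℂ),
    Mv l a p x y → ∀ᶠ k in l, ∀ N N' : ℕ, T ≤ a k * N → N ≤ N' →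
      |P144P.cN J (a k) N' (mv p (x k) (y k)) - P144P.cN J (a k) N (mv p (x k) (y k))| ≤ ε

end Vale.Agent.N144.C
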