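import Vale.Agent.P144Y.R.Xj

/-!
Conformal covariance of the disorder correlations: definitions, and the walk lemma (from the
logarithmic increments of single lattice steps to moving points and to the derivative of the limit).
-/

namespace Vale.Agent.N144.C

open Filter Topology Complex Vale.Agent.P144
open Vale.Agent.P144.H170 (Pt pt nf ev_nf F2 Mk HD tendsto_fst_nf)
open Vale.Agent.P144.H365 (ResNN)
open Vale.Agent.P144.H436 (rc cx)
open Vale.Agent.P144Y (Dom Ext)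
open scoped ComplexConjugate

section defs

variable {κ : Type} [Fintype κ]

/-- The limits of the spinors with one inserted spin at `ω`; some of the disorders `ζ` may lie
outside the domain. -/
structure SolY (Ω : Dom) (ζ : κ → ℂ) (ω : ℂ) (q : ℂ → ℂ) : Prop where
  diff : DifferentiableOn ℂ q Ω.D
  bd : Ω.Bd (F2 ζ (fun _ : Unit => ω) q)
  res : ∀ p, ζ p ∈ Ω.D → ResNN ζ (fun _ : Unit => ω) q (ζ p)
  src : (Real.pi / 2 : ℂ) * (1 - I) * q ω ^ 2 = ∏ p, (ω - ζ p)

/-- The solutions are transported by `φ`. -/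
def Tr (Ω Ω' : Dom) (φ : ℂ → ℂ) (ζ : κ → ℂ) (ω : ℂ) : Prop :=
  ∀ q', SolY Ω' (fun p => φ (ζ p)) (φ ω) q' → ∃ q, SolY Ω ζ ω q ∧
    ∀ z ∈ Ω.D, z ∉ Mk ζ (fun _ : Unit => ω) → F2 ζ (fun _ : Unit => ω) q z =
      F2 (fun p => φ (ζ p)) (fun _ : Unit => φ ω) q' (φ z) * deriv φ z

/-- The coefficient of the logarithmic gradient. -/
noncomputable def coef (ζ : κ → ℂ) (ω : ℂ) (q : ℂ → ℂ) : ℂ :=
  (Real.pi / 8 : ℂ) * (1 - I) * deriv (fun z => q z ^ 2 / ∏ p, (z - ζ p)) ω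

end defs

/-- `φ` maps `Ω` conformally onto `Ω'`; outside the domain it matches the points of `T` (places
of the spins of the components of the complement) with points of the corresponding components. -/
structure Cov (Ω Ω' : Dom) (φ : ℂ → ℂ) (T : Finset ℂ) : Prop where
  diff : DifferentiableOn ℂ φ Ω.D
  bij : Set.BijOn φ Ω.D Ω'.D
  ne : ∀ z ∈ Ω.D, deriv φ z ≠ 0
  ext : ∀ t ∈ T, t ∈ Ext Ω.D
  ext' : ∀ t ∈ T, φ t ∈ Ext Ω'.D
  injT : Set.InjOn φ T
  tr : ∀ (κ : Type) [Fintype κ] (ζ : κ → ℂ) (ω : ℂ), (∀ p, ζ p ∈ Ω.D ∨ ζ p ∈ T) → ω ∈ Ω.D →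
    Function.Injective ζ → (∀ p, ζ p ≠ ω) → Odd (Fintype.card κ) → Tr Ω Ω' φ ζ ω

/-- `Ωr` is the mirror image of `Ω`. -/
structure Rf (Ω Ωr : Dom) : Prop where
  eq : Ωr.D = rc '' Ω.D
  bd : ∀ F, Ωr.Bd F → Ω.Bd fun z => -I * conj (F (rc z))

/-! ### The walk lemma -/

theorem walk1 {g : ℤ → ℝ} {c e : ℝ} : ∀ n : ℕ, (∀ s : ℤ, |s| ≤ n → |g (s + 1) - g s - c| ≤ e) →
    |g n - g 0 - n * c| ≤ e * n ∧ |g (-n) - g 0 + n * c| ≤ e * n := by
  intro n
  induction n with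
  | zero => intro _; simp
  | succ n ih =>
    intro h
    obtain ⟨h1, h2⟩ := ih fun s hs => h s (by push_cast; linarith)
    have h3 := h n (by rw [abs_of_nonneg (by positivity)]; push_cast; linarith)
    have h4 := h (-((n + 1 : ℕ) : ℤ)) (by rw [abs_neg, abs_of_nonneg (by positivity)])
    have e1 : -((n + 1 : ℕ) : ℤ) + 1 = -(n : ℤ) := by push_cast; ring
    rw [e1] at h4
    rw [abs_le] at h1 h2 h3 h4
    push_cast at h4 ⊢
    constructor <;> rw [abs_le] <;> constructor <;> linarith [h1.1, h1.2, h2.1, h2.2]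

theorem walkZ {g : ℤ → ℝ} {c e : ℝ} (m : ℤ)
    (h : ∀ s : ℤ, |s| ≤ |m| → |g (s + 1) - g s - c| ≤ e) : |g m - g 0 - m * c| ≤ e * |(m : ℝ)| := by
  obtain ⟨n, rfl | rfl⟩ := m.eq_nat_or_neg
  · have := (walk1 n fun s hs => h s (by rwa [Nat.abs_cast])).1
    simpa using this
  · have := (walk1 n fun s hs => h s (by rwa [abs_neg, Nat.abs_cast])).2
    simpa using this

variable {ι : Type} {l : Filter ι} {a : ι → ℝ} {f : ι → Site → ℝ} {z A : ℂ}

theorem to_nf {v : ι → Site} (hv : Tendsto (fun k => pt (a k) (v k)) l (𝓝 z)) :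
    Tendsto (fun k => (k, v k)) l (nf l a z) :=
  tendsto_inf.2 ⟨tendsto_id.prodMk tendsto_top, tendsto_comap_iff.2 hv⟩

/-- The unit steps do not matter. -/
def Un (l : Filter ι) (a : ι → ℝ) (f : ι → Site → ℝ) (z : ℂ) : Prop :=
  Tendsto (fun kx : ι × Site => f kx.1 (kx.2 + (1, 0)) - f kx.1 kx.2) (nf l a z) (𝓝 0)

/-- The increments along the two diagonals. -/
structure Gr (l : Filter ι) (a : ι → ℝ) (f : ι → Site → ℝ) (z A : ℂ) : Prop where
  a0 : Tendsto a l (𝓝[>] 0)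
  d1 : Tendsto (fun kx : ι × Site => (a kx.1)⁻¹ * (f kx.1 (kx.2 + (-1, -1)) - f kx.1 kx.2))
    (nf l a z) (𝓝 (cx (-1, -1) * A).re)
  d2 : Tendsto (fun kx : ι × Site => (a kx.1)⁻¹ * (f kx.1 (kx.2 + (1, -1)) - f kx.1 kx.2))
    (nf l a z) (𝓝 (cx (1, -1) * A).re)

theorem pt_diag (a : ℝ) (v : Site) (s t : ℤ) :
    pt a (v + s • ((-1, -1) : Site) + t • ((1, -1) : Site)) - pt a v =
      ⟨a * (t - s), -(a * (s + t))⟩ := by
  apply Complex.ext <;> simp [pt] <;> ring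

theorem norm_diag (a : ℝ) (s t : ℤ) :
    ‖(⟨a * (t - s), -(a * (s + t))⟩ : ℂ)‖ ^ 2 = 2 * a ^ 2 * ((s : ℝ) ^ 2 + (t : ℝ) ^ 2) := by
  rw [Complex.sq_norm, Complex.normSq_apply]
  ring

theorem Gr.walk (h : Gr l a f z A) {ε : ℝ} (hε : 0 < ε) : ∃ δ > (0 : ℝ), ∀ᶠ k in l, ∀ v v' : Site,
    ‖pt (a k) v - z‖ ≤ δ → ‖pt (a k) v' - z‖ ≤ δ → Even (v'.1 - v.1 + (v'.2 - v.2)) →
      |f k v' - f k v - ((pt (a k) v' - pt (a k) v) * A).re| ≤
        ε * ‖pt (a k) v' - pt (a k) v‖ := by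
  obtain ⟨r, hr, h1⟩ := (ev_nf (P := fun k x =>
    |(a k)⁻¹ * (f k (x + (-1, -1)) - f k x) - (cx (-1, -1) * A).re| < ε ∧
    |(a k)⁻¹ * (f k (x + (1, -1)) - f k x) - (cx (1, -1) * A).re| < ε)).1
    ((Metric.tendsto_nhds.1 h.d1 ε hε).and (Metric.tendsto_nhds.1 h.d2 ε hε))
  refine ⟨r / 3, by positivity, ?_⟩
  filter_upwards [h1, h.a0.eventually self_mem_nhdsWithin] with k h1 ha v v' hv hv' he
  have ha : 0 < a k := ha
  obtain ⟨m, hm⟩ := he
  set α : ℤ := -m with hα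
  set β : ℤ := v'.1 - v.1 - m with hβ
  have e : v' = v + α • ((-1, -1) : Site) + β • ((1, -1) : Site) := by
    refine Prod.ext ?_ ?_ <;> simp <;> omega
  have hd : ‖pt (a k) v' - pt (a k) v‖ ≤ 2 * (r / 3) := by
    have := norm_sub_le_norm_sub_add_norm_sub (pt (a k) v') z (pt (a k) v)
    rw [norm_sub_rev z] at this
    linarith
  have hN : ‖pt (a k) v' - pt (a k) v‖ ^ 2 = 2 * a k ^ 2 * ((α : ℝ) ^ 2 + (β : ℝ) ^ 2) := by
    rw [e, pt_diag, norm_diag]
  have hin : ∀ s t : ℤ, |s| ≤ |α| → |t| ≤ |β| →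
      ‖pt (a k) (v + s • ((-1, -1) : Site) + t • ((1, -1) : Site)) - z‖ ≤ r := by
    intro s t hs ht
    have h2 : ‖pt (a k) (v + s • ((-1, -1) : Site) + t • ((1, -1) : Site)) - pt (a k) v‖ ≤
        ‖pt (a k) v' - pt (a k) v‖ := by
      refine (pow_le_pow_iff_left₀ (norm_nonneg _) (norm_nonneg _) two_ne_zero).1 ?_
      rw [hN, pt_diag, norm_diag]
      have s1 : (s : ℝ) ^ 2 ≤ (α : ℝ) ^ 2 := by exact_mod_cast sq_le_sq.2 hs
      have s2 : (t : ℝ) ^ 2 ≤ (β : ℝ) ^ 2 := by exact_mod_cast sq_le_sq.2 ht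
      gcongr
    have := norm_sub_le_norm_sub_add_norm_sub
      (pt (a k) (v + s • ((-1, -1) : Site) + t • ((1, -1) : Site))) (pt (a k) v) z
    linarith
  have sc : ∀ x c : ℝ, |(a k)⁻¹ * x - c| < ε → |x - a k * c| ≤ ε * a k := fun x c hx => by
    have e1 : x - a k * c = a k * ((a k)⁻¹ * x - c) := by field_simp
    rw [e1, abs_mul, abs_of_pos ha, mul_comm]
    exact mul_le_mul_of_nonneg_right hx.le ha.le
  have w1 := walkZ (g := fun s => f k (v + s • ((-1, -1) : Site)))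
    (c := a k * (cx (-1, -1) * A).re) (e := ε * a k) α fun s hs => by
      have h2 := hin s 0 hs (by simp)
      rw [zero_smul, add_zero] at h2
      have h3 := sc _ _ (h1 _ h2).1
      rwa [add_assoc, ← add_one_zsmul] at h3
  have w2 := walkZ (g := fun t => f k (v + α • ((-1, -1) : Site) + t • ((1, -1) : Site)))
    (c := a k * (cx (1, -1) * A).re) (e := ε * a k) β fun t ht => by
      have h3 := sc _ _ (h1 _ (hin α t le_rfl ht)).2
      rwa [add_assoc _ (t • _), ← add_one_zsmul] at h3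
  simp only [zero_smul, add_zero] at w1 w2
  rw [← e] at w2
  have e2 : ((pt (a k) v' - pt (a k) v) * A).re =
      α * (a k * (cx (-1, -1) * A).re) + β * (a k * (cx (1, -1) * A).re) := by
    rw [e, pt_diag]
    simp [cx]
    ring
  have e3 : a k * (|(α : ℝ)| + |(β : ℝ)|) ≤ ‖pt (a k) v' - pt (a k) v‖ := by
    refine (pow_le_pow_iff_left₀ (by positivity) (norm_nonneg _) two_ne_zero).1 ?_
    rw [hN, mul_pow, ← sq_abs (α : ℝ), ← sq_abs (β : ℝ)]
    nlinarith [sq_nonneg (|(α : ℝ)| - |(β : ℝ)|), sq_nonneg (a k)]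
  rw [e2]
  have e4 := mul_le_mul_of_nonneg_left e3 hε.le
  rw [abs_le] at w1 w2 ⊢
  constructor <;> linarith [w1.1, w1.2, w2.1, w2.2]

theorem pt_shift (ha : Tendsto a l (𝓝[>] 0)) {v : ι → Site} {w : ℂ}
    (hv : Tendsto (fun k => pt (a k) (v k)) l (𝓝 w)) {e : ι → Site} {B : ℝ}
    (he : ∀ k, ‖pt 1 (e k)‖ ≤ B) : Tendsto (fun k => pt (a k) (v k + e k)) l (𝓝 w) := by
  have h0 : Tendsto (fun k => pt (a k) (e k)) l (𝓝 0) := by
    have h1 : Tendsto (fun k => |a k| * B) l (𝓝 (|0| * B)) :=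
      (ha.mono_right nhdsWithin_le_nhds).abs.mul_const B
    rw [abs_zero, zero_mul] at h1
    refine squeeze_zero_norm (fun k => ?_) h1
    have : pt (a k) (e k) = (a k : ℂ) * pt 1 (e k) := by apply Complex.ext <;> simp [pt]
    rw [this, norm_mul, norm_real, Real.norm_eq_abs]
    exact mul_le_mul_of_nonneg_left (he k) (abs_nonneg _)
  have := hv.add h0
  rw [add_zero] at this
  refine this.congr fun k => ?_
  apply Complex.ext <;> simp [pt] <;> ring

/-- Two sequences of sites with limits close to `z`. -/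
theorem Gr.two (h : Gr l a f z A) {ε : ℝ} (hε : 0 < ε) : ∃ δ > (0 : ℝ), ∀ (w w' : ℂ)
    (v v' : ι → Site), ‖w - z‖ < δ → ‖w' - z‖ < δ → Tendsto (fun k => pt (a k) (v k)) l (𝓝 w) →
    Tendsto (fun k => pt (a k) (v' k)) l (𝓝 w') → Un l a f w' → ∀ η > (0 : ℝ), ∀ᶠ k in l,
      |f k (v' k) - f k (v k) - ((w' - w) * A).re| ≤ ε * ‖w' - w‖ + η := by
  classical
  obtain ⟨δ, hδ, h1⟩ := h.walk hε
  refine ⟨δ, hδ, fun w w' v v' hw hw' hv hv' h0 η hη => ?_⟩
  set e : ι → Site := fun k => if Even ((v' k).1 - (v k).1 + ((v' k).2 - (v k).2)) then 0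
    else (1, 0) with he
  have hu : Tendsto (fun k => pt (a k) (v' k + e k)) l (𝓝 w') :=
    pt_shift h.a0 hv' (B := 1) fun k => by
      simp only [he]
      split_ifs
      · have : pt 1 (0 : Site) = 0 := by apply Complex.ext <;> simp [pt]
        rw [this, norm_zero]; exact zero_le_one
      · have : pt 1 ((1, 0) : Site) = 1 := by apply Complex.ext <;> simp [pt]
        rw [this, norm_one]
  have t1 := (h0.comp (to_nf hv')).abs
  have t2 := ((continuous_re.tendsto _).comp ((hu.sub hv).mul_const A)).sub_const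
    ((w' - w) * A).re
  have t3 := (hu.sub hv).norm.const_mul ε
  rw [abs_zero] at t1
  rw [sub_self] at t2
  have t2' := t2.abs
  rw [abs_zero] at t2'
  filter_upwards [h1, t1.eventually_lt_const (show 0 < η / 3 by positivity),
    t2'.eventually_lt_const (show 0 < η / 3 by positivity),
    t3.eventually_lt_const (show ε * ‖w' - w‖ < ε * ‖w' - w‖ + η / 3 by linarith),
    (hv.sub_const z).norm.eventually_lt_const hw, (hu.sub_const z).norm.eventually_lt_const hw']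
    with k k1 k2 k3 k4 k5 k6
  have k7 := k1 (v k) (v' k + e k) k5.le k6.le (by
    simp only [he]
    split_ifs with hp
    · simpa using hp
    · rw [Int.not_even_iff_odd] at hp
      obtain ⟨m, hm⟩ := hp
      exact ⟨m + 1, by simp only [Prod.fst_add, Prod.snd_add]; omega⟩)
  have k8 : |f k (v' k + e k) - f k (v' k)| ≤ η / 3 := by
    simp only [he]
    split_ifs
    · rw [add_zero, sub_self, abs_zero]; positivity
    · exact k2.le
  simp only [Function.comp] at k3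
  rw [abs_le] at k7 k8 ⊢
  rw [abs_lt] at k3
  constructor <;> linarith [k7.1, k7.2, k8.1, k8.2, k3.1, k3.2]

/-- **Moving points.** -/
theorem Gr.stab (h : Gr l a f z A) (h0 : Un l a f z) {v v' : ι → Site}
    (hv : Tendsto (fun k => pt (a k) (v k)) l (𝓝 z))
    (hv' : Tendsto (fun k => pt (a k) (v' k)) l (𝓝 z)) :
    Tendsto (fun k => f k (v' k) - f k (v k)) l (𝓝 0) := by
  obtain ⟨δ, hδ, h1⟩ := h.two one_pos
  rw [Metric.tendsto_nhds]
  intro η hη
  filter_upwards [h1 z z v v' (by simpa using hδ) (by simpa using hδ) hv hv' h0 (η / 2)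
    (by positivity)] with k hk
  rw [Real.dist_eq, sub_zero]
  simp only [sub_self, zero_mul, zero_re, sub_zero, norm_zero, mul_zero, zero_add] at hk
  linarith

/-- **The derivative of the limit.** -/
theorem Gr.hd [NeBot l] (h : Gr l a f z A) (h0 : ∀ᶠ w in 𝓝 z, Un l a f w) {u : ℂ → ι → Site}
    (hu : ∀ w, Tendsto (fun k => pt (a k) (u w k)) l (𝓝 w)) {G : ℂ → ℝ}
    (hG : ∀ᶠ w in 𝓝 z, Tendsto (fun k => f k (u w k) - f k (u z k)) l (𝓝 (G w - G z))) :
    HD G (fun _ => A) z := by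
  unfold HD
  rw [hasFDerivAt_iff_isLittleO, Asymptotics.isLittleO_iff]
  intro ε hε
  obtain ⟨δ, hδ, h1⟩ := h.two hε
  filter_upwards [h0, hG, Metric.ball_mem_nhds z hδ] with w k0 k1 k2
  rw [Metric.mem_ball, dist_eq_norm] at k2
  have e : (A.re • reCLM + -A.im • imCLM : ℂ →L[ℝ] ℝ) (w - z) = ((w - z) * A).re := by
    simp only [add_apply, smul_apply, reCLM_apply,
      imCLM_apply, smul_eq_mul, mul_re]
    ring
  rw [e, Real.norm_eq_abs]
  refine le_of_forall_pos_le_add fun η hη => ?_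
  exact le_of_tendsto ((k1.sub_const _).abs)
    (h1 z w (u z) (u w) (by simpa using hδ) k2 (hu z) (hu w) k0 η hη)

end Vale.Agent.N144.C
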