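import Vale.Agent.N144.C.DisW
import Vale.Agent.N144.C.Defs2

/-!
The disorder correlations: limits along moving points and conformal covariance.
-/

namespace Vale.Agent.N144.C

open Filter Topology Finset Vale.Agent.P144
open Vale.Agent.P144.AL (idt)
open Vale.Agent.P144Y (Dom Ext fm GW FamB FamP Std OutL NormW)
open Vale.Agent.P144Y.K (smm)
open Vale.Agent.P144T (Fam0)

variable {D D' : Set ℂ} {φ : ℂ → ℂ}

theorem Sm.rfD (h : Sm D) : Rf h.dom h.refl.dom :=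
  ⟨rfl, fun _ b => BdA.refl isCompact_empty (Set.empty_subset _) (fun _ _ _ => rfl) b⟩

theorem Sm.stdD (h : Sm D) : Std D := ⟨h.dom.op, h.small, h.dom.fat, h.con.nonempty⟩

theorem Sm.outL (h : Sm D) : OutL D := P144Y.L.sout D h.lip h.con.nonempty

theorem Sm.wd (h : Sm D) {P : ℝ → Finset Site} (hP : FamB D P) : Wd h.dom h.refl.dom P :=
  ⟨h.rfD, h.stdD, h.outL, hP⟩

theorem der_congr (ho : IsOpen D) {ψ : ℂ → ℂ} (e : ∀ z ∈ D, ψ z = φ z) {z : ℂ} (hz : z ∈ D) :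
    deriv ψ z = deriv φ z := EventuallyEq.deriv_eq (eventually_of_mem (ho.mem_nhds hz) e)

theorem Mp.congr' (ho : IsOpen D) {ψ : ℂ → ℂ} (e : ∀ z ∈ D, ψ z = φ z) {ζ ζ' : ℂ}
    (h : Mp D φ ζ ζ') : Mp D ψ ζ ζ' := by
  obtain ⟨u, h0, h1, h2⟩ := h
  refine ⟨u, h0, fun z hz => by rw [e z hz, h1 z hz], fun m hm => (h2 m hm).congr fun z hz => ?_⟩
  by_cases c : z = m
  · rw [c, dslope_same, dslope_same, der_congr ho e hm]
  · rw [ds_ne _ c, ds_ne _ c, e z hz, e m hm]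

/-- The map is extended to the outer points. -/
theorem cov_of (h : Sm D) (h' : Sm D') (B : Bih D D' φ) {N : ℕ} {ξ ξ' : Fin N → ℂ}
    (hi : Function.Injective ξ) (hi' : Function.Injective ξ') (he : ∀ s, ξ s ∈ Ext D)
    (he' : ∀ s, ξ' s ∈ Ext D') (hm : ∀ s, Mp D φ (ξ s) (ξ' s)) : ∃ ψ : ℂ → ℂ,
      (∀ z ∈ D, ψ z = φ z) ∧ (∀ s, ψ (ξ s) = ξ' s) ∧ Cov h.dom h'.dom ψ (univ.image ξ) := by
  have e1 : ∀ z ∈ D, Function.extend ξ ξ' φ z = φ z := fun z hz =>
    Function.extend_apply' _ _ _ fun ⟨s, e⟩ => ext_not (he s) (e ▸ hz)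
  have e2 : ∀ s, Function.extend ξ ξ' φ (ξ s) = ξ' s := fun s => hi.extend_apply _ _ s
  generalize Function.extend ξ ξ' φ = ψ at e1 e2
  have hd : DifferentiableOn ℂ ψ D := B.d.congr e1
  have hb : Set.BijOn ψ D D' := B.b.congr fun z hz => (e1 z hz).symm
  obtain ⟨g, C⟩ := exists_bi h.dom.op h'.dom.op hd hb
  have hT : ∀ t ∈ univ.image ξ, ∃ s, ξ s = t := fun t ht => by simpa using ht
  refine ⟨ψ, e1, e2, hd, hb, fun z hz => C.ne hz, fun t ht => ?_, fun t ht => ?_,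
    fun t ht t' ht' e => ?_, fun κ _ ζ ω hζ hω _ _ ho q' hq => ?_⟩
  · obtain ⟨s, rfl⟩ := hT t ht
    exact he s
  · obtain ⟨s, rfl⟩ := hT t ht
    rw [e2]
    exact he' s
  · obtain ⟨s, rfl⟩ := hT t ht
    obtain ⟨s', rfl⟩ := hT t' ht'
    rw [e2, e2] at e
    rw [hi' e]
  obtain ⟨s, hs⟩ := exists_tp C h.con (ζ := ζ) (ζ' := fun p => ψ (ζ p)) (ω := fun _ : Unit => ω)
    (fun p => by
      rcases hζ p with k | k
      · exact Mp.inn C h.con.isPreconnected k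
      · obtain ⟨s, e⟩ := hT _ k
        rw [← e, e2]
        exact (hm s).congr' h.dom.op e1) (fun _ => hω) (by simpa using ho.add_one)
  exact ⟨fun z => q' (ψ z) * s z, ⟨(hq.diff.comp hd C.fm).mul hs.sd, hs.bd C h'.hasAt hq.bd,
    fun p hp => hs.res C hp (hq.res p (C.fm hp)), hs.src hω hq.src⟩, fun z hz _ => hs.F2 q' hz⟩

theorem imD {n : ℕ} {x : Fin n → ℂ} (hx : ∀ i, x i ∈ D) : ∀ z ∈ univ.image x, z ∈ D :=
  fun z hz => by
    obtain ⟨i, -, rfl⟩ := mem_image.1 hz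
    exact hx i

theorem sGm : SGm := fun D Λ h hL n x hn hi hx => by
  have e := ex_im h.rfD hL hn hi hx
  refine ⟨_, e.1, fun ι l a x' ha hx' => ?_⟩
  simpa only [GX_Gn] using movX h.rfD hL hi hx (S := ∅) (by simp) e.2 ha hx'

theorem wlim (h : Sm D) {P : ℝ → Finset Site} (hP : FamP D P) {n : ℕ} {x : Fin n → ℂ}
    {S : Finset ℂ} (hi : Function.Injective x) (hx : ∀ i, x i ∈ D) (hS : ∀ z ∈ S, z ∈ Ext D) :
    ∃ Q, FamB D Q ∧ WLim P x S (gl (VV Q) (univ.image x) S) := by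
  obtain ⟨P₁, P₂, h1, h2, h3⟩ := P144Y.V.sand D P h.stdD h.outL hP
  refine ⟨P₁, h1, fun ι l a x' ha hx' => ?_⟩
  obtain ⟨g, -, hg⟩ := (h.wd h1).norm (imD hx) hS
  have k : ∀ Q, FamB D Q → Tendsto (fun k => GW Q (univ.image (x' k)) S (a k)) l (𝓝 g) :=
    fun Q hQ => by
      simpa only [(h.wd hQ).GX] using movX h.rfD hQ.2.2 hi hx hS
        (by rw [(h.wd hQ).GX]; exact hg Q hQ.1) ha hx'
  rw [tendsto_nhds_unique ((h.wd h1).lim (imD hx) hS) (hg _ h1.1)]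
  refine tendsto_of_tendsto_of_tendsto_of_le_of_le' (k _ h2) (k _ h1) ?_ ?_
  all_goals
    filter_upwards [ha.eventually h3, ha.eventually self_mem_nhdsWithin] with k h4 h5
    refine mul_le_mul_of_nonneg_left (smm.anti _ _ _ ?_) (Real.rpow_nonneg (le_of_lt h5) _)
  exacts [h4.2, h4.1]

theorem sWm : SWm := fun D P h hP n x S hi hx hS => by
  obtain ⟨Q, hQ, k⟩ := wlim h hP hi hx hS
  exact ⟨_, ((h.wd hQ).ex (imD hx) hS).1, k⟩

theorem wt_sf (ho : IsOpen D) {ψ : ℂ → ℂ} (e : ∀ z ∈ D, ψ z = φ z) {n : ℕ} {x : Fin n → ℂ}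
    (hi : Function.Injective x) (hx : ∀ i, x i ∈ D) : wt ψ (univ.image x) = sf φ x := by
  rw [wt, prod_image fun i _ j _ e => hi e]
  exact prod_congr rfl fun i _ => by rw [der_congr ho e (hx i)]

theorem sGc : SGc := fun D D' φ Λ Λ' h h' B hL hL' n x hn hi hx g g' hg hg' => by
  obtain ⟨ψ, e1, -, C⟩ := cov_of h h' B (N := 0) (ξ := Fin.elim0) (ξ' := Fin.elim0)
    (fun i => i.elim0) (fun i => i.elim0) (fun i => i.elim0) (fun i => i.elim0) fun i => i.elim0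
  have hi' : Function.Injective fun i => φ (x i) := fun i j e => hi (B.b.injOn (hx i) (hx j) e)
  have E := ex_im h.rfD hL hn hi hx
  have E' := ex_im h'.rfD hL' hn hi' fun i => B.b.mapsTo (hx i)
  have k := kap0 h.rfD h'.rfD C hL hL' (imD hx)
    (by rwa [card_image_of_injective _ hi, card_univ, Fintype.card_fin])
  have t := hg ℝ _ _ (fun _ => x) idt fun _ => tendsto_const_nhds
  have t' := hg' ℝ _ _ (fun _ i => φ (x i)) idt fun _ => tendsto_const_nhds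
  simp only [← GX_Gn] at t t'
  have w := C.wt_pos (imD hx)
  rw [Kq, image_image, image_empty, show ψ ∘ x = fun i => φ (x i) from funext fun i => e1 _ (hx i),
    div_eq_one_iff_eq (mul_pos w E'.1).ne', wt_sf h.dom.op e1 hi hx] at k
  rw [tendsto_nhds_unique t E.2, tendsto_nhds_unique t' E'.2, k]

theorem sWc : SWc := fun D D' φ P P' h h' B hP hP' N ξ ξ' i1 i2 e e' hm n x S hn hi hx g g' hg
    hg' => by
  obtain ⟨ψ, e1, e2, C⟩ := cov_of h h' B i1 i2 e e' hm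
  have hi' : Function.Injective fun i => φ (x i) := fun i j e => hi (B.b.injOn (hx i) (hx j) e)
  have hx' := fun i => B.b.mapsTo (hx i)
  have hS : ∀ z ∈ S.image ξ, z ∈ Ext D := fun z hz => by
    obtain ⟨s, -, rfl⟩ := mem_image.1 hz
    exact e s
  have hS' : ∀ z ∈ S.image ξ', z ∈ Ext D' := fun z hz => by
    obtain ⟨s, -, rfl⟩ := mem_image.1 hz
    exact e' s
  obtain ⟨Q, hQ, E⟩ := wlim h hP hi hx hS
  obtain ⟨Q', hQ', E'⟩ := wlim h' hP' hi' hx' hS'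
  have k := kap (h.wd hQ) (h'.wd hQ') C (image_subset_image (subset_univ S)) (imD hx) (by
    rwa [card_image_of_injective _ hi, card_univ, Fintype.card_fin, card_image_of_injective _ i1])
  have w := C.wt_pos (imD hx)
  rw [Kq, image_image, image_image, show ψ ∘ x = fun i => φ (x i) from
      funext fun i => e1 _ (hx i), show ψ ∘ ξ = ξ' from funext e2,
    div_eq_one_iff_eq (mul_pos w ((h'.wd hQ').ex (imD hx') hS').1).ne',
    wt_sf h.dom.op e1 hi hx] at k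
  rw [tendsto_nhds_unique (hg ℝ _ _ (fun _ => x) idt fun _ => tendsto_const_nhds)
      (E ℝ _ _ (fun _ => x) idt fun _ => tendsto_const_nhds),
    tendsto_nhds_unique (hg' ℝ _ _ (fun _ i => φ (x i)) idt fun _ => tendsto_const_nhds)
      (E' ℝ _ _ (fun _ i => φ (x i)) idt fun _ => tendsto_const_nhds), k]

end Vale.Agent.N144.C
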