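import Vale.Agent.N144.C.DisDefs
import Vale.Agent.N144.C.At2
import Vale.Agent.P144Y.R.Rat

/-!
The logarithmic gradients of the disorder correlations in terms of the boundary value problem;
moving points.
-/

namespace Vale.Agent.N144.C

open Filter Topology Complex Vale.Agent.P144
open Vale.Agent.P144.H170 (Pt pt nf ev_nf F2 Mk HD tendsto_fst_nf tendsto_pt_nf)
open Vale.Agent.P144.H365 (ResNN gv c0 c0_sq wE pt_of_Tc F2_sgn gq_sgn)
open Vale.Agent.P144.H436 (rc cx rc_rc Tc fam rs rf QQ_pos log_lim Tc_fl)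
open Vale.Agent.P144Y (Dom Ext Pm Appr Fam0)
open Vale.Agent.P144Y.R (Cf NSol)
open Vale.Agent.P144T.B (FD rat rat_pos rat_rf appr_rs)
open scoped ComplexConjugate

section sol

variable {κ : Type} [Fintype κ] {Ω Ωr : Dom} {ζ : κ → ℂ} {ω : ℂ} {q : ℂ → ℂ}

theorem RS_sq' (S : κ → Prop) (S' : Empty → Prop) (w : ℂ) :
    H170.RS S S' ζ wE w ^ 2 = ∏ p, (w - ζ p) := by
  rw [sq, H170.RS_sq]
  simp

theorem nsol {S : κ → Prop} {S' : Empty → Prop} (hP : ω ∈ H170.VS S S' ζ wE) (hω : ω ∈ Ω.D)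
    (h : NSol Ω S S' ζ ω q) : SolY Ω ζ ω q ∧
      -(√(Real.pi / 2) / 2 * ((1 + I) * (c0 * deriv (gv S S' ζ ω q) 0)).re) =
        (cx (-1, -1) * coef ζ ω q).re := by
  have hne := H170.RS_ne hP
  have e2 : ((√(2 * Real.pi) / 2 : ℝ) : ℂ) ^ 2 = Real.pi / 2 := by
    rw [← ofReal_pow, div_pow, Real.sq_sqrt (by positivity)]
    push_cast
    ring
  have hn := h.nor
  refine ⟨⟨h.diff, h.bdc, h.res, ?_⟩, ?_⟩
  · have h1 := congrArg (· ^ 2) hn
    simp only [gv, add_zero, mul_pow, div_pow, c0_sq, e2, one_pow] at h1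
    rw [← RS_sq' S S' ω]
    field_simp at h1 ⊢
    linear_combination h1
  · have d1 : DifferentiableAt ℂ (fun z => q z / H170.RS S S' ζ wE z) ω :=
      (h.diff.differentiableAt (Ω.op.mem_nhds hω)).div (H170.RS_diff hP) hne
    have e3 : deriv (gv S S' ζ ω q) 0 = deriv (fun z => q z / H170.RS S S' ζ wE z) ω := by
      have := deriv_comp_const_add (fun z => q z / H170.RS S S' ζ wE z) ω 0
      rw [add_zero] at this
      exact this
    have e4 : (fun z => q z ^ 2 / ∏ p, (z - ζ p)) =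
        fun z => (q z / H170.RS S S' ζ wE z) ^ 2 := by
      funext z
      rw [div_pow, RS_sq']
    have e5 : √(Real.pi / 2) / 2 * (√(2 * Real.pi) / 2) = Real.pi / 4 := by
      rw [div_mul_div_comm, ← Real.sqrt_mul (by positivity),
        show Real.pi / 2 * (2 * Real.pi) = Real.pi ^ 2 by ring, Real.sqrt_sq Real.pi_pos.le]
      norm_num
    have e6 : ((√(Real.pi / 2) / 2 : ℝ) : ℂ) * ((√(2 * Real.pi) / 2 : ℝ) : ℂ) = Real.pi / 4 := by
      rw [← ofReal_mul, e5]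
      push_cast
      ring
    have e7 : cx (-1, -1) = -(1 + I) := by apply Complex.ext <;> simp [cx]
    unfold coef
    rw [e3, e4, (d1.hasDerivAt.fun_pow 2).deriv, e7, ← re_ofReal_mul, ← neg_re, ← c0_sq]
    congr 1
    simp only [gv, add_zero] at hn
    generalize deriv (fun z => q z / H170.RS S S' ζ wE z) ω = g' at *
    generalize q ω / H170.RS S S' ζ wE ω = g at *
    generalize ((√(Real.pi / 2) / 2 : ℝ) : ℂ) = s at *
    generalize ((√(2 * Real.pi) / 2 : ℝ) : ℂ) = t at *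
    push_cast
    linear_combination ((1 + I) * c0 * g' * s) * hn - ((1 + I) * c0 ^ 2 * g * g') * e6

theorem SolY.neg (h : SolY Ω ζ ω q) : SolY Ω ζ ω fun z => ((-1 : ℝ) : ℂ) * q z where
  diff := h.diff.const_mul _
  bd := by
    rw [show F2 ζ (fun _ : Unit => ω) (fun z => ((-1 : ℝ) : ℂ) * q z) = _ from
      funext fun z => F2_sgn (-1) (by norm_num) z]
    exact h.bd
  res := fun p hp => by
    obtain ⟨c, hc, hl⟩ := h.res p hp
    exact ⟨c, hc, hl.congr fun z => by rw [gq_sgn (-1) (by norm_num)]⟩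
  src := by
    rw [← h.src]
    push_cast
    ring

theorem SolY.sq {q' : ℂ → ℂ} (h : SolY Ω ζ ω q) (h' : SolY Ω ζ ω q') (hω : ω ∈ Ω.D)
    (hi : Function.Injective ζ) (hn : ∀ p, ζ p ≠ ω) : ∀ z ∈ Ω.D, q z ^ 2 = q' z ^ 2 := by
  have key : ∀ u u' : ℂ → ℂ, SolY Ω ζ ω u → SolY Ω ζ ω u' → u ω = u' ω →
      ∀ z ∈ Ω.D, u z = u' z := fun u u' k k' e =>
    P144Y.R.cont_unique (ω := fun _ : Unit => ω) (fun _ => hω) (by
      rintro (x | x) (y | y) hxy
      exacts [congrArg Sum.inl (hi hxy), absurd hxy (hn x), absurd hxy.symm (hn y), rfl])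
      k.diff k'.diff k.bd k'.bd k.res k'.res fun _ => e
  have h0 : (Real.pi / 2 : ℂ) * (1 - I) ≠ 0 := by
    refine mul_ne_zero (div_ne_zero (ofReal_ne_zero.2 Real.pi_ne_zero) two_ne_zero) fun e => ?_
    simpa using congrArg re e
  rcases sq_eq_sq_iff_eq_or_eq_neg.1 (mul_left_cancel₀ h0 (h.src.trans h'.src.symm)) with e | e
  · exact fun z hz => by rw [key q q' h h' e z hz]
  · intro z hz
    rw [key q _ h h'.neg (by rw [e]; simp) z hz]
    push_cast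
    ring

theorem SolY.coef_eq {q' : ℂ → ℂ} (h : SolY Ω ζ ω q) (h' : SolY Ω ζ ω q') (hω : ω ∈ Ω.D)
    (hi : Function.Injective ζ) (hn : ∀ p, ζ p ≠ ω) : coef ζ ω q = coef ζ ω q' := by
  unfold coef
  congr 1
  refine EventuallyEq.deriv_eq ?_
  filter_upwards [Ω.op.mem_nhds hω] with z hz
  rw [h.sq h' hω hi hn z hz]

theorem prod_rc (ζ : κ → ℂ) (z : ℂ) :
    conj (∏ p, (rc z - rc (ζ p))) = (-1) ^ Fintype.card κ * ∏ p, (z - ζ p) := by
  rw [map_prod, ← Finset.card_univ, ← Finset.prod_neg]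
  exact Finset.prod_congr rfl fun p _ => by rw [rc_sub, map_neg, conj_conj]

/-- The mirror image of a solution. -/
theorem SolY.refl (R : Rf Ω Ωr) (hω : ω ∈ Ω.D) (hn : ∀ p, ζ p ≠ ω)
    (h : SolY Ωr (fun p => rc (ζ p)) (rc ω) q) : ∃ q', SolY Ω ζ ω q' ∧
      coef ζ ω q' = -conj (coef (fun p => rc (ζ p)) (rc ω) q) := by
  obtain ⟨μ, hμ⟩ := IsAlgClosed.exists_pow_nat_eq (I * (-1) ^ Fintype.card κ) two_pos
  have s2 : ((-1 : ℂ) ^ Fintype.card κ) ^ 2 = 1 := by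
    rw [← pow_mul, mul_comm, pow_mul]
    norm_num
  have s0 : ((-1 : ℂ) ^ Fintype.card κ) ≠ 0 := pow_ne_zero _ (by norm_num)
  have hr : ∀ z ∈ Ω.D, rc z ∈ Ωr.D := fun z hz => R.eq ▸ ⟨z, hz, rfl⟩
  have e1 : ∀ z, (μ * conj (q (rc z))) ^ 2 / ∏ p, (z - ζ p) =
      I * conj (q (rc z) ^ 2 / ∏ p, (rc z - rc (ζ p))) := fun z => by
    rw [map_div₀, prod_rc, mul_pow, hμ, map_pow, div_mul_eq_div_div_swap, ← mul_div_assoc,
      eq_div_iff s0]
    linear_combination (I * conj (q (rc z)) ^ 2 / ∏ p, (z - ζ p)) * s2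
  have e2 : F2 ζ (fun _ : Unit => ω) (fun z => μ * conj (q (rc z))) =
      fun z => -I * conj (F2 (fun p => rc (ζ p)) (fun _ : Unit => rc ω) q (rc z)) := by
    funext z
    unfold F2 H170.PP
    rw [← div_div, ← div_div, e1, map_div₀ _ (_ / _)]
    simp only [Finset.univ_unique, Finset.prod_singleton]
    rw [rc_sub, map_neg, conj_conj, div_neg]
    ring
  refine ⟨fun z => μ * conj (q (rc z)), ⟨fun z hz => ?_, ?_, fun p hp => ?_, ?_⟩, ?_⟩
  · exact ((der_rc (h.diff.differentiableAt (Ωr.op.mem_nhds (hr z hz))).hasDerivAt).const_mul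
      μ).differentiableAt.differentiableWithinAt
  · rw [e2]
    exact R.bd _ h.bd
  · obtain ⟨c, hc, hl⟩ := h.res p (hr _ hp)
    refine ⟨c, hc, ?_⟩
    have t1 : Tendsto rc (𝓝[≠] (ζ p)) (𝓝[≠] (rc (ζ p))) :=
      tendsto_nhdsWithin_iff.2 ⟨(P144Q.U.rc_cont.tendsto _).mono_left nhdsWithin_le_nhds,
        eventually_mem_nhdsWithin.mono fun z hz e => hz (by
          rw [Set.mem_singleton_iff, ← rc_rc z, e, rc_rc])⟩
    have t2 := (continuous_conj.tendsto _).comp (hl.comp t1)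
    rw [conj_ofReal] at t2
    refine t2.congr fun z => ?_
    have e3 := congrFun e2 z
    unfold F2 at e3
    have e4 : conj (⟨-1 / 2, 1 / 2⟩ : ℂ) = (⟨-1 / 2, 1 / 2⟩ : ℂ) * I := by
      apply Complex.ext <;> simp <;> ring
    simp only [Function.comp, H170.gq]
    rw [e3, map_mul, map_mul, rc_sub, map_neg, conj_conj, e4]
    ring
  · have e3 := congrArg conj h.src
    rw [prod_rc] at e3
    simp only [map_mul, map_pow, map_div₀, map_sub, conj_ofReal, conj_I, map_one, conj_ofNat] at e3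
    rw [mul_pow, hμ]
    linear_combination ((-1) ^ Fintype.card κ) * e3 + (∏ p, (ω - ζ p)) * s2 -
      (Real.pi / 2 * (-1) ^ Fintype.card κ * conj (q (rc ω)) ^ 2) * I_sq
  · have d1 : DifferentiableAt ℂ (fun z => q z ^ 2 / ∏ p, (z - rc (ζ p))) (rc ω) :=
      ((h.diff.differentiableAt (Ωr.op.mem_nhds (hr ω hω))).pow 2).div
        (DifferentiableAt.fun_finsetProd fun p _ => differentiableAt_id.sub_const _)
        (Finset.prod_ne_zero_iff.2 fun p _ e => hn p (by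
          rw [← rc_rc ω, sub_eq_zero.1 e, rc_rc]))
    unfold coef
    rw [funext e1, ((der_rc d1.hasDerivAt).const_mul I).deriv]
    simp only [map_mul, map_div₀, map_sub, conj_ofReal, conj_I, map_one, conj_ofNat]
    linear_combination (Real.pi / 8 * conj (deriv (fun z => q z ^ 2 / ∏ p, (z - rc (ζ p))) (rc ω))) *
      I_sq

end sol

section lat

variable {Ω Ωr : Dom} {n : ℕ} {ρ : Fin n → ℂ} {ω : ℂ} {q : ℂ → ℂ} {α : Type} {l : Filter α}
  {a : α → ℝ} {N : α → Finset Site} {r : α → Fin n → Site} {v : α → Site}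

theorem Tc_of_pt {f : α → Site} {z : ℂ} (h : Tendsto (fun k => pt (a k) (f k)) l (𝓝 z)) :
    Tc l a f z := ⟨(continuous_re.tendsto _).comp h, (continuous_im.tendsto _).comp h⟩

theorem FD_mono {D : Set ℂ} {l' : Filter α} (h : FD D l a N r v ρ ω) (e : l' ≤ l) :
    FD D l' a N r v ρ ω :=
  ⟨h.a0.mono_left e, h.aN.mono e, fun p => ⟨(h.r p).1.mono_left e, (h.r p).2.mono_left e⟩,
    h.v.1.mono_left e, h.v.2.mono_left e⟩

theorem FD_rf {D : Set ℂ} (h : FD D l a N r v ρ ω) : FD (rc '' D) l a (fun x => (N x).image rs)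
    (fun x p => rf (r x p)) (fun x => rf (v x)) (fun p => rc (ρ p)) (rc ω) :=
  ⟨h.a0, appr_rs h.aN, fun p => (h.r p).refl h.a0, h.v.refl h.a0⟩

theorem Cf_rc {D : Set ℂ} (h : Cf D ρ ω) : Cf (rc '' D) (fun p => rc (ρ p)) (rc ω) :=
  ⟨fun p => P144Y.R.pm_rc (h.rD p), fun p q e => h.inj (by rw [← rc_rc (ρ p), e, rc_rc]),
    ⟨_, h.zD, rfl⟩, fun p e => h.ne p (by rw [← rc_rc (ρ p), e, rc_rc])⟩

theorem sol_ex [NeBot l] (hC : Cf Ω.D ρ ω) (h : FD Ω.D l a N r v ρ ω) : ∃ q, SolY Ω ρ ω q := by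
  obtain ⟨S, S', hP⟩ := H170.exists_pattern (ζ := ρ) (ω := wE) (z := ω)
    (fun p => (hC.ne p).symm) (fun q => q.elim)
  obtain ⟨q, h1, -⟩ := P144Y.R.fd_inst hC (FD_mono h (Ultrafilter.of_le l)) hP
  exact ⟨q, (nsol hP hC.zD h1).1⟩

theorem grad1 (hC : Cf Ω.D ρ ω) (hq : SolY Ω ρ ω q) (h : FD Ω.D l a N r v ρ ω) :
    Tendsto (fun x => (a x)⁻¹ * Real.log (rat (N x) (r x) (v x) (-1, -1))) l
      (𝓝 (cx (-1, -1) * coef ρ ω q).re) := by
  obtain ⟨S, S', hP⟩ := H170.exists_pattern (ζ := ρ) (ω := wE) (z := ω)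
    (fun p => (hC.ne p).symm) (fun q => q.elim)
  rw [tendsto_iff_ultrafilter]
  intro U hU
  obtain ⟨q', h1, h2, h3, -⟩ := P144Y.R.fd_inst hC (FD_mono h hU) hP
  obtain ⟨k1, k2⟩ := nsol hP hC.zD h1
  rw [k2, k1.coef_eq hq hC.zD hC.inj hC.ne] at h2
  exact log_lim ((h.a0.mono_left hU).eventually self_mem_nhdsWithin) (fun x => rat_pos _ _ _ _)
    h2 h3

theorem grad2 (R : Rf Ω Ωr) (hC : Cf Ω.D ρ ω) (hq : SolY Ω ρ ω q) (h : FD Ω.D l a N r v ρ ω) :
    Tendsto (fun x => (a x)⁻¹ * Real.log (rat (N x) (r x) (v x) (1, -1))) l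
      (𝓝 (cx (1, -1) * coef ρ ω q).re) := by
  rcases l.eq_or_neBot with rfl | hl
  · exact tendsto_bot
  have hC' := Cf_rc hC
  have h' := FD_rf h
  rw [← R.eq] at hC' h'
  obtain ⟨q₁, h1⟩ := sol_ex hC' h'
  obtain ⟨q₂, h2, h3⟩ := h1.refl R hC.zD hC.ne
  have h4 := grad1 hC' h1 h'
  have e : (cx (1, -1) * coef ρ ω q).re =
      (cx (-1, -1) * coef (fun p => rc (ρ p)) (rc ω) q₁).re := by
    rw [hq.coef_eq h2 hC.zD hC.inj hC.ne, h3]
    simp [cx]
    ring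
  rw [e]
  refine h4.congr fun x => ?_
  rw [← rat_rf (N x) (r x) (v x) (1, -1)]
  rfl

theorem t5' (R : Rf Ω Ωr) (n : ℕ) : P144Y.R.T5 Ω.D n (1, -1) := by
  have h1 := P144Y.R.t5 Ωr n
  rw [R.eq] at h1
  exact h1.refl

theorem grad0 (R : Rf Ω Ωr) (hC : Cf Ω.D ρ ω) (h : FD Ω.D l a N r v ρ ω) :
    Tendsto (fun x => Real.log (rat (N x) (r x) (v x) (1, 0))) l (𝓝 0) := by
  rw [tendsto_iff_ultrafilter, ← Real.log_one]
  intro U hU
  exact (P144Y.R.t0 n (t5' R n) ρ ω hC α U a N r v (FD_mono h hU)).log one_ne_zero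

/-- The logarithm of the partition function with one moving disorder. -/
noncomputable def lq (N : α → Finset Site) (r : α → Fin n → Site) (k : α) (v : Site) : ℝ :=
  Real.log (AL.QQ (N k) (v ::ₘ fam (r k)) 0)

theorem lq_sub (k : α) (v d : Site) :
    lq N r k (v + d) - lq N r k v = Real.log (rat (N k) (r k) v d) :=
  (Real.log_div (QQ_pos _ _).ne' (QQ_pos _ _).ne').symm

theorem FD_nf {D : Set ℂ} (h : FD D l a N r v ρ ω) (z : ℂ) : FD D (nf l a z) (fun kx => a kx.1)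
    (fun kx => N kx.1) (fun kx => r kx.1) (fun kx => kx.2) ρ z :=
  ⟨h.a0.comp (tendsto_fst_nf z), h.aN.comp (tendsto_fst_nf z),
    fun p => ⟨(h.r p).1.comp (tendsto_fst_nf z), (h.r p).2.comp (tendsto_fst_nf z)⟩,
    Tc_of_pt (tendsto_pt_nf z)⟩

theorem un (R : Rf Ω Ωr) {z : ℂ} (hC : Cf Ω.D ρ z) (h : FD Ω.D l a N r v ρ ω) :
    Un l a (lq N r) z := by
  unfold Un
  simp only [lq_sub]
  exact grad0 R hC (FD_nf h z)

/-- **The gradient.** -/
theorem gr (R : Rf Ω Ωr) {z : ℂ} (hC : Cf Ω.D ρ z) (hq : SolY Ω ρ z q)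
    (h : FD Ω.D l a N r v ρ ω) : Gr l a (lq N r) z (coef ρ z q) := by
  refine ⟨h.a0, ?_, ?_⟩ <;> simp only [lq_sub]
  exacts [grad1 hC hq (FD_nf h z), grad2 R hC hq (FD_nf h z)]

/-- **One moving point.** -/
theorem mov1 (R : Rf Ω Ωr) (hC : Cf Ω.D ρ ω) (h : FD Ω.D l a N r v ρ ω) {v' : α → Site}
    (hv : Tc l a v' ω) : Tendsto (fun k => AL.QQ (N k) (v' k ::ₘ fam (r k)) 0 /
      AL.QQ (N k) (v k ::ₘ fam (r k)) 0) l (𝓝 1) := by
  rcases l.eq_or_neBot with rfl | hl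
  · exact tendsto_bot
  obtain ⟨q, hq⟩ := sol_ex hC h
  have h1 := (Real.continuous_exp.tendsto _).comp
    ((gr R hC hq h).stab (un R hC h) (pt_of_Tc h.v) (pt_of_Tc hv))
  rw [Real.exp_zero] at h1
  refine h1.congr fun k => ?_
  simp only [Function.comp, lq]
  rw [Real.exp_sub, Real.exp_log (QQ_pos _ _), Real.exp_log (QQ_pos _ _)]

end lat

end Vale.Agent.N144.C
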