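import Vale.Agent.N144.C.DisRat
import Vale.Agent.P144T.All

/-!
The limits of the disorder correlations along moving points; the constant of the conformal
covariance for an even number of points of the domain.
-/

namespace Vale.Agent.N144.C

open Filter Topology Complex Vale.Agent.P144
open Vale.Agent.P144.H170 (Pt pt bx mem_bx pt_fl_norm)
open Vale.Agent.P144.H365 (pt_of_Tc far_ev)
open Vale.Agent.P144.H436 (rc rc_rc rs rf rs_rs Tc fam Tc_fl MM MM_pos tr)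
open Vale.Agent.P144.AL (flt idt cnr mem_cnr fcs srcs)
open Vale.Agent.P144Y (Dom Ext Pm Appr Fam0 fm)
open Vale.Agent.P144Y.R (Mx)
open scoped ComplexConjugate

/-- The rescaled disorder correlation. -/
noncomputable def GX (Λ : ℝ → Finset Site) (X S : Finset ℂ) (a : ℝ) : ℝ :=
  a ^ (-(X.card : ℝ) / 8) * Mx Λ a X S

/-- Its limit. -/
noncomputable def gl (Λ : ℝ → Finset Site) (X S : Finset ℂ) : ℝ := limUnder (𝓝[>] 0) (GX Λ X S)

/-- The limit exists and is positive. -/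
def Ex (Λ : ℝ → Finset Site) (X S : Finset ℂ) : Prop :=
  0 < gl Λ X S ∧ Tendsto (GX Λ X S) (𝓝[>] 0) (𝓝 (gl Λ X S))

variable {Ω Ωr Ω' Ωr' : Dom} {Λ Λ' : ℝ → Finset Site} {X S : Finset ℂ}

theorem ex_of (h : ∃ g > 0, Tendsto (GX Λ X S) (𝓝[>] 0) (𝓝 g)) : Ex Λ X S := by
  obtain ⟨g, g0, hg⟩ := h
  unfold Ex gl
  rw [hg.limUnder_eq]
  exact ⟨g0, hg⟩

theorem GX_Gn (Λ : ℝ → Finset Site) (X : Finset ℂ) : GX Λ X ∅ = P144Q.Gn Λ X := by
  funext a
  simp [GX, Mx, fm, P144Q.Gn, P144Q.Mn]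

theorem ex0 (R : Rf Ω Ωr) (hL : Fam0 Ω.D Λ) (hX : ∀ z ∈ X, z ∈ Ω.D) (he : Even X.card) :
    Ex Λ X ∅ := by
  refine ex_of ?_
  rw [GX_Gn]
  exact P144T.E.norm _ _ Ω.op Ω.small hL
    (P144T.B.ratio P144T.A.xj Ω.toDom Ωr.toDom R.eq _ hL) X hX he

section mov

variable {α κ : Type} {l : Filter α} {a : α → ℝ}

theorem Tc_mv (ha : Tendsto a l (𝓝[>] 0)) {x : α → ℂ} {z : ℂ} (hx : Tendsto x l (𝓝 z)) :
    Tc l a (fun k => fl (a k) (x k)) z := by
  refine Tc_of_pt ?_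
  have h1 : Tendsto (fun k => 2 * a k) l (𝓝 (2 * 0)) :=
    (ha.mono_right nhdsWithin_le_nhds).const_mul 2
  rw [mul_zero] at h1
  have h2 := (squeeze_zero_norm' ((ha.eventually self_mem_nhdsWithin).mono fun k hk =>
    pt_fl_norm hk (x k)) h1).add hx
  simpa using h2

open Classical in
theorem fm_im [Fintype κ] {y : κ → ℂ} (hi : Function.Injective y) (a : ℝ) :
    fm a (Finset.univ.image y) = Finset.univ.val.map fun i => fl a (y i) := by
  unfold fm
  rw [Finset.image_val_of_injOn hi.injOn, Multiset.map_map]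
  rfl

open Classical in
/-- **The limit along moving sites.** -/
theorem mov [Fintype κ] (R : Rf Ω Ωr) (hL : Fam0 Ω.D Λ) {y : κ → ℂ} (hi : Function.Injective y)
    (hy : ∀ i, y i ∈ Ω.D) (hS : ∀ z ∈ S, z ∈ Ext Ω.D) {g : ℝ}
    (hg : Tendsto (GX Λ (Finset.univ.image y) S) (𝓝[>] 0) (𝓝 g)) (ha : Tendsto a l (𝓝[>] 0))
    {u : κ → α → Site} (hu : ∀ i, Tc l a (u i) (y i)) :
    Tendsto (fun k => a k ^ (-(Fintype.card κ : ℝ) / 8) *
      MM (Λ (a k)) ((Finset.univ.val.map fun i => u i k) + fm (a k) S)) l (𝓝 g) := by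
  have h1 := movN R ha (hL.comp ha) (Y := (Finset.univ : Finset κ).disjSum S)
    (ρ := Sum.elim y id) (u := fun p k => fl (a k) (Sum.elim y id p))
    (u' := Sum.elim u fun z k => fl (a k) z) (by
      rintro (i | z) hz (j | w) hw e
      · exact congrArg Sum.inl (hi e)
      · exact absurd (hy i) (by
          rw [show y i = w from e]; exact ext_not (hS w (by simpa using hw)))
      · exact absurd (hy j) (by
          rw [← show z = y j from e]; exact ext_not (hS z (by simpa using hz)))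
      · exact congrArg Sum.inr e) (by
      rintro (i | z) hz
      exacts [Or.inl (hy i), Or.inr (hS z (by simpa using hz))]) (fun p _ => Tc_fl ha _) (by
      rintro (i | z) _
      exacts [hu i, Tc_fl ha _]) (by
      rintro (i | z) _ h
      exacts [absurd (hy i) h, rfl])
  have h2 := (hg.comp ha).mul h1
  rw [mul_one] at h2
  refine h2.congr fun k => ?_
  simp only [Function.comp, GX, Mx, Finset.val_disjSum, Multiset.disjSum, Multiset.map_add,
    Multiset.map_map, Sum.elim_inl, Sum.elim_inr, id]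
  rw [fm_im hi, Finset.card_image_of_injective _ hi, Finset.card_univ, mul_assoc]
  exact congrArg _ (mul_div_cancel₀ _ (MM_pos _ _).ne')

theorem inj_ev [Fintype κ] {y : κ → ℂ} (hi : Function.Injective y) {x : α → κ → ℂ}
    (hx : ∀ i, Tendsto (fun k => x k i) l (𝓝 (y i))) : ∀ᶠ k in l, Function.Injective (x k) := by
  have : ∀ᶠ k in l, ∀ i j, i ≠ j → x k i - x k j ≠ 0 := by
    refine eventually_all.2 fun i => eventually_all.2 fun j => ?_
    by_cases h : i = j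
    · exact Eventually.of_forall fun _ h' => absurd h h'
    · exact (((hx i).sub (hx j)).eventually_ne (sub_ne_zero.2 (hi.ne h))).mono fun _ h _ => h
  exact this.mono fun k h i j e => by_contra fun c => h i j c (sub_eq_zero.2 e)

open Classical in
/-- **The limit along moving points.** -/
theorem movX [Fintype κ] (R : Rf Ω Ωr) (hL : Fam0 Ω.D Λ) {y : κ → ℂ} (hi : Function.Injective y)
    (hy : ∀ i, y i ∈ Ω.D) (hS : ∀ z ∈ S, z ∈ Ext Ω.D) {g : ℝ}
    (hg : Tendsto (GX Λ (Finset.univ.image y) S) (𝓝[>] 0) (𝓝 g)) (ha : Tendsto a l (𝓝[>] 0))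
    {x : α → κ → ℂ} (hx : ∀ i, Tendsto (fun k => x k i) l (𝓝 (y i))) :
    Tendsto (fun k => GX Λ (Finset.univ.image (x k)) S (a k)) l (𝓝 g) := by
  refine (mov R hL hi hy hS hg ha fun i => Tc_mv ha (hx i)).congr' ?_
  filter_upwards [inj_ev hi hx] with k hk
  unfold GX Mx
  rw [fm_im hk, Finset.card_image_of_injective _ hk, Finset.card_univ]

open Classical in
/-- The limit is continuous. -/
theorem cont [Fintype κ] (R : Rf Ω Ωr) (hL : Fam0 Ω.D Λ) {y : κ → ℂ} (hi : Function.Injective y)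
    (hy : ∀ i, y i ∈ Ω.D) (hS : ∀ z ∈ S, z ∈ Ext Ω.D) (hg : Ex Λ (Finset.univ.image y) S)
    {x : α → κ → ℂ} (hx : ∀ i, Tendsto (fun k => x k i) l (𝓝 (y i)))
    (hE : ∀ᶠ k in l, Ex Λ (Finset.univ.image (x k)) S) :
    Tendsto (fun k => gl Λ (Finset.univ.image (x k)) S) l (𝓝 (gl Λ (Finset.univ.image y) S)) := by
  have h1 := movX R hL hi hy hS hg.2 (l := l.curry (𝓝[>] (0 : ℝ))) (a := Prod.snd)
    (tendsto_snd.mono_left curry_le_prod) (x := fun k => x k.1)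
    fun i => (hx i).comp (tendsto_fst.mono_left curry_le_prod)
  rw [Metric.tendsto_nhds] at h1 ⊢
  intro ε hε
  filter_upwards [eventually_curry_iff.1 (h1 (ε / 2) (half_pos hε)), hE] with k h2 h3
  exact (le_of_tendsto (h3.2.dist tendsto_const_nhds) (h2.mono fun _ h => h.le)).trans_lt
    (half_lt_self hε)

end mov

/-! ### Locality -/

theorem fcs_fam {n : ℕ} (u : Fin n → Site) : fcs (srcs u) = fam u := by
  unfold fcs srcs
  rw [List.map_map]
  rfl

theorem loc0 {n : ℕ} (hn : Even n) {ε : ℝ} (hε : 0 < ε) (hε1 : ε ≤ 1) : ∃ T > (1 : ℝ),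
    ∀ (D : Set ℂ) (Λ : ℝ → Finset Site) (z : ℂ) (s : ℝ) (x : Fin n → ℂ), Fam0 D Λ → 0 < s →
      Metric.closedBall z (T * s) ⊆ D → Function.Injective x → (∀ i, ‖x i - z‖ ≤ s) →
      ∀ᶠ a in 𝓝[>] (0 : ℝ), ∀ Λ', (1 - ε) * MM (Λ a) (fam fun i => fl a (x i)) ≤
        MM Λ' (fam fun i => fl a (x i)) := by
  obtain ⟨T, hT⟩ := P144T.E.lat hn hε hε1
  have T0 : (0 : ℝ) ≤ T := Nat.cast_nonneg T
  refine ⟨4 * (T + 1), by linarith, fun D Λ z s x hΛ hs hb hx hd => ?_⟩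
  have hc : ∀ᶠ a in 𝓝[>] (0 : ℝ), ∀ i i', i ≠ i' → fl a (x i) ∉ cnr (fl a (x i')) := by
    refine eventually_all.2 fun i => eventually_all.2 fun i' => ?_
    by_cases h : i = i'
    · exact Eventually.of_forall fun a h' => absurd h h'
    have k := fun e => far_ev idt (flt (x i)) (flt (x i')) (hx.ne h) e
    filter_upwards [k (0, 0), k (1, 0), k (0, 1), k (1, 1)] with a k1 k2 k3 k4 _ h'
    rcases mem_cnr.1 h' with e | e | e | e
    · exact k1 (by rw [e]; simp)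
    · exact k2 (by rw [e]; ext <;> simp)
    · exact k3 (by rw [e]; ext <;> simp)
    · exact k4 (by rw [e]; ext <;> simp)
  filter_upwards [hc, hΛ.cpt (isCompact_closedBall z _) hb,
    Ioo_mem_nhdsGT (by positivity : 0 < s / 3)] with a h1 h2 h5 Λ'
  have ha : 0 < a := h5.1
  have h6 : (3 : ℝ) < ⌈s / a⌉₊ := by
    refine lt_of_lt_of_le ?_ (Nat.le_ceil _)
    rw [lt_div_iff₀ ha]; linarith [h5.2]
  have h7 : 3 < ⌈s / a⌉₊ := by exact_mod_cast h6
  rw [← fcs_fam]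
  refine hT _ (fl a z) (⌈s / a⌉₊ + 1) (by lia) (fun i => P144T.E.fl_near ha (hd i)) h1 _
    (fun x e1 e2 => h2 x ?_) _
  rw [Metric.mem_closedBall, dist_eq_norm]
  have b1 := P144Q.pt_sub_le ha e1 e2
  have b2 := pt_fl_norm ha z
  have b3 := norm_sub_le_norm_sub_add_norm_sub (pt a x) (pt a (fl a z)) z
  have b4 : (⌈s / a⌉₊ : ℝ) * a < s + a := by
    have := Nat.ceil_lt_add_one (div_pos hs ha).le
    rw [← lt_div_iff₀ ha, add_div, div_self ha.ne']
    exact this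
  have b5 := mul_le_mul_of_nonneg_left b4.le T0
  have b6 := mul_le_mul_of_nonneg_left h5.2.le T0
  push_cast at b1
  nlinarith [h5.2]

/-- The map `F` of the faces comes from a symmetry of the lattice. -/
def Iso (F : Site → Site) : Prop := ∀ Λ' : Finset Site, ∃ Λ, ∀ R, MM Λ R = MM Λ' (R.map F)

theorem Iso.comp {F G : Site → Site} (hF : Iso F) (hG : Iso G) : Iso fun x => F (G x) := by
  intro Λ
  obtain ⟨Λ₁, h1⟩ := hF Λ
  obtain ⟨Λ₂, h2⟩ := hG Λ₁
  exact ⟨Λ₂, fun R => by rw [h2, h1, Multiset.map_map]; rfl⟩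

theorem iso_id : Iso id := fun Λ => ⟨Λ, fun R => by rw [Multiset.map_id]⟩

theorem iso_add (t : Site) : Iso fun x => x + t := fun Λ => by
  refine ⟨Λ.map (tr (-t)).toEmbedding, fun R => ?_⟩
  have e : (tr (-t)).toEmbedding.trans (tr t).toEmbedding = Function.Embedding.refl _ := by
    ext x <;> simp [tr]
  rw [← H436.MM_tr t, Finset.map_map, e, Finset.map_refl]
  rfl

theorem iso_rf : Iso rf := fun Λ => by
  refine ⟨Λ.image rs, fun R => ?_⟩
  have e : (Λ.image rs).image rs = Λ := by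
    rw [Finset.image_image, show rs ∘ rs = id from funext rs_rs, Finset.image_id]
  unfold MM
  rw [← P144T.B.QQ_rf, ← P144T.B.QQ_rf _ 0, e, Multiset.map_zero]

/-- The symmetry `F` and its continuum version. -/
def Sym (F : Site → Site) (σ : ℂ → ℂ) : Prop := Iso F ∧ ∀ (b : ℝ → ℝ) (f : ℝ → Site) (w : ℂ),
  Tendsto b (𝓝[>] 0) (𝓝[>] 0) → Tc (𝓝[>] 0) b f w → Tc (𝓝[>] 0) b (fun a => F (f a)) (σ w)

theorem sym_id : Sym id id := ⟨iso_id, fun _ _ _ _ h => h⟩

theorem sym_rf : Sym rf rc := ⟨iso_rf, fun _ _ _ hb h => h.refl hb⟩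

open Classical in
/-- The limit for an indexed family of points. -/
noncomputable def gi (Λ : ℝ → Finset Site) {n : ℕ} (y : Fin n → ℂ) : ℝ :=
  gl Λ (Finset.univ.image y) ∅

open Classical in
theorem ex_im (R : Rf Ω Ωr) (hL : Fam0 Ω.D Λ) {n : ℕ} (hn : Even n) {y : Fin n → ℂ}
    (hi : Function.Injective y) (hy : ∀ i, y i ∈ Ω.D) : Ex Λ (Finset.univ.image y) ∅ :=
  ex0 R hL (fun z hz => by
    obtain ⟨i, -, rfl⟩ := Finset.mem_image.1 hz
    exact hy i) (by rwa [Finset.card_image_of_injective _ hi, Finset.card_univ, Fintype.card_fin])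

/-- **Small clusters in two domains.** -/
theorem loc {n : ℕ} (hn : Even n) {ε : ℝ} (hε : 0 < ε) (hε1 : ε ≤ 1) : ∃ T > (1 : ℝ),
    ∀ (Ω Ωr Ω' Ωr' : Dom) (Λ Λ' : ℝ → Finset Site) (F : Site → Site) (σ : ℂ → ℂ) (z z' : ℂ)
      (s s' : ℝ) (y x x' : Fin n → ℂ), Rf Ω Ωr → Rf Ω' Ωr' → Fam0 Ω.D Λ → Fam0 Ω'.D Λ' → Sym F σ →
      0 < s → 0 < s' → Metric.closedBall z (T * s) ⊆ Ω.D → (∀ i, ‖y i‖ ≤ 1) →
      (∀ i, x i = z + s * y i) → (∀ i, x' i = z' + σ (s' * y i)) → Function.Injective x →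
      Function.Injective x' → (∀ i, x' i ∈ Ω'.D) →
      (1 - ε) * (s ^ ((n : ℝ) / 8) * gi Λ x) ≤ s' ^ ((n : ℝ) / 8) * gi Λ' x' := by
  obtain ⟨T, T1, hT⟩ := loc0 hn hε hε1
  refine ⟨T, T1, fun Ω Ωr Ω' Ωr' Λ Λ' F σ z z' s s' y x x' R R' hL hL' hF s0 s0' hb y1 ex ex' xi
    xi' xD' => ?_⟩
  have hd : ∀ i, ‖x i - z‖ ≤ s := fun i => by
    rw [ex, add_sub_cancel_left, norm_mul, norm_real, Real.norm_of_nonneg s0.le]
    exact mul_le_of_le_one_right s0.le (y1 i)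
  have xD : ∀ i, x i ∈ Ω.D := fun i => hb (by
    rw [Metric.mem_closedBall, dist_eq_norm]
    nlinarith [hd i])
  have hb0 : Tendsto (fun a : ℝ => s' / s * a) (𝓝[>] 0) (𝓝[>] 0) := by
    refine tendsto_nhdsWithin_iff.2 ⟨?_, eventually_mem_nhdsWithin.mono fun a ha =>
      mul_pos (div_pos s0' s0) ha⟩
    simpa using (idt.mono_right nhdsWithin_le_nhds).const_mul (s' / s)
  have t1 := mov R hL xi xD (S := ∅) (by simp) (ex_im R hL hn xi xD).2 idt fun i => Tc_fl idt _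
  have t2 := mov R' hL' xi' xD' (S := ∅) (by simp) (ex_im R' hL' hn xi' xD').2 hb0
    (u := fun i a => F (fl a (x i) + -fl a z) + fl (s' / s * a) z') fun i => by
      have k1 : Tc (𝓝[>] 0) (fun a : ℝ => s' / s * a) (fun a => fl a (x i) + -fl a z)
          (s' * y i) := by
        refine Tc_of_pt ?_
        have e : (s' : ℂ) * y i = ((s' / s : ℝ) : ℂ) * (x i - z) := by
          have : (s : ℂ) ≠ 0 := ofReal_ne_zero.2 s0.ne'
          rw [ex]
          push_cast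
          field_simp
          ring
        rw [e]
        refine (((flt (x i)).sub (flt z)).const_mul _).congr fun a => ?_
        apply Complex.ext <;> simp only [pt, re_ofReal_mul, im_ofReal_mul, sub_re, sub_im,
          Prod.fst_add, Prod.snd_add, Prod.fst_neg, Prod.snd_neg] <;> push_cast <;> ring
      refine Tc_of_pt ?_
      rw [ex', add_comm z']
      refine ((pt_of_Tc (hF.2 _ _ _ hb0 k1)).add (pt_of_Tc (Tc_fl hb0 z'))).congr fun a => ?_
      apply Complex.ext <;> simp only [pt, add_re, add_im, Prod.fst_add, Prod.snd_add] <;>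
        push_cast <;> ring
  refine le_of_tendsto_of_tendsto ((t1.const_mul _).const_mul _) (t2.const_mul _) ?_
  filter_upwards [hT _ Λ z s x hL s0 hb xi hd, self_mem_nhdsWithin] with a h1 ha
  have ha : 0 < a := ha
  obtain ⟨Λ₁, h2⟩ := ((iso_add (fl (s' / s * a) z')).comp (hF.1.comp (iso_add (-fl a z))))
    (Λ' (s' / s * a))
  have h3 := h1 Λ₁
  rw [h2] at h3
  have e : s' ^ ((n : ℝ) / 8) * (s' / s * a) ^ (-(n : ℝ) / 8) =
      s ^ ((n : ℝ) / 8) * a ^ (-(n : ℝ) / 8) := by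
    have := (Real.rpow_pos_of_pos s0' ((n : ℝ) / 8)).ne'
    rw [Real.mul_rpow (by positivity) ha.le, neg_div, Real.rpow_neg (by positivity),
      Real.div_rpow s0'.le s0.le]
    field_simp
  simp only [fm, Finset.empty_val, Multiset.map_zero, add_zero, Fintype.card_fin]
  rw [← mul_assoc (s' ^ _), e, ← mul_assoc (s ^ _), mul_left_comm]
  refine mul_le_mul_of_nonneg_left ?_ (by positivity)
  unfold fam at h3
  rwa [Multiset.map_map] at h3

/-! ### The constant -/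

variable {φ : ℂ → ℂ} {T : Finset ℂ}

open Classical in
/-- The quotient of the limits. -/
noncomputable def Kq (Λ Λ' : ℝ → Finset Site) (φ : ℂ → ℂ) (X S : Finset ℂ) : ℝ :=
  gl Λ X S / (wt φ X * gl Λ' (X.image φ) (S.image φ))

theorem Cov.card [DecidableEq ℂ] (h : Cov Ω Ω' φ T) (hX : ∀ z ∈ X, z ∈ Ω.D ∨ z ∈ T) :
    (X.image φ).card = X.card :=
  Finset.card_image_of_injOn fun z hz w hw e => h.inj (hX z hz) (hX w hw) e

open Classical in
theorem quo_lim (h : Cov Ω Ω' φ T) (hX : ∀ z ∈ X, z ∈ Ω.D) (e : Ex Λ X S)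
    (e' : Ex Λ' (X.image φ) (S.image φ)) :
    0 < Kq Λ Λ' φ X S ∧ Tendsto (quo Λ Λ' φ X S) (𝓝[>] 0) (𝓝 (Kq Λ Λ' φ X S)) := by
  have p := mul_pos (h.wt_pos hX) e'.1
  refine ⟨div_pos e.1 p, (e.2.div (e'.2.const_mul _) p.ne').congr' ?_⟩
  filter_upwards [self_mem_nhdsWithin] with a ha
  have := (Real.rpow_pos_of_pos ha (-(X.card : ℝ) / 8)).ne'
  simp only [Pi.div_apply, GX, quo]
  rw [h.card fun z hz => Or.inl (hX z hz), mul_left_comm, mul_div_mul_left _ _ this]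

open Classical in
/-- The quotient depends on the number of the points only. -/
theorem Kq_eq (R : Rf Ω Ωr) (R' : Rf Ω' Ωr') (h : Cov Ω Ω' φ T) (hL : Fam0 Ω.D Λ)
    (hL' : Fam0 Ω'.D Λ') (hS : S ⊆ T) {X' : Finset ℂ} (hX : ∀ z ∈ X, z ∈ Ω.D)
    (hX' : ∀ z ∈ X', z ∈ Ω.D) (hc : X.card = X'.card) (he : Even (X'.card + S.card))
    (e₁ : Ex Λ X S) (e₂ : Ex Λ' (X.image φ) (S.image φ)) (e₃ : Ex Λ X' S)
    (e₄ : Ex Λ' (X'.image φ) (S.image φ)) : Kq Λ Λ' φ X S = Kq Λ Λ' φ X' S := by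
  obtain ⟨-, a2⟩ := quo_lim h hX e₁ e₂
  obtain ⟨b1, b2⟩ := quo_lim h hX' e₃ e₄
  exact (div_eq_one_iff_eq b1.ne').1 (tendsto_nhds_unique (a2.div b2 b1.ne')
    (ratio_cov R R' h hL hL' hS hX hX' hc he))

theorem gl_zero (Λ : ℝ → Finset Site) : gl Λ ∅ ∅ = 1 := by
  have : GX Λ ∅ ∅ = fun _ => 1 := funext fun a => by simp [GX, Mx, fm, H436.MM_zero]
  unfold gl
  rw [this]
  exact tendsto_const_nhds.limUnder_eq

theorem eq_one {K : ℝ} (h : ∀ ε > (0 : ℝ), ε ≤ 1 → K * (1 - ε) ^ 2 ≤ 1 ∧ (1 - ε) ^ 2 ≤ K) :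
    K = 1 := by
  have t : Tendsto (fun ε : ℝ => (1 - ε) ^ 2) (𝓝[>] 0) (𝓝 ((1 - 0) ^ 2)) :=
    (((continuous_const.sub continuous_id).pow 2).tendsto 0).mono_left nhdsWithin_le_nhds
  have e : ∀ᶠ ε in 𝓝[>] (0 : ℝ), K * (1 - ε) ^ 2 ≤ 1 ∧ (1 - ε) ^ 2 ≤ K :=
    eventually_of_mem (Ioc_mem_nhdsGT one_pos) fun ε hε => h ε hε.1 hε.2
  have h1 := le_of_tendsto (t.const_mul K) (e.mono fun _ h => h.1)
  have h2 := le_of_tendsto t (e.mono fun _ h => h.2)
  norm_num at h1 h2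
  exact le_antisymm h1 h2

theorem rc_mul (s : ℝ) (w : ℂ) : rc (s * w) = s * rc w := by
  apply Complex.ext <;> simp [rc]

theorem small_ball {D : Set ℂ} (ho : IsOpen D) {z : ℂ} (hz : z ∈ D) (T : ℝ) :
    ∀ᶠ s in 𝓝[>] (0 : ℝ), Metric.closedBall z (T * s) ⊆ D := by
  obtain ⟨ρ, hρ, hb⟩ := Metric.nhds_basis_closedBall.mem_iff.1 (ho.mem_nhds hz)
  have t : Tendsto (fun s : ℝ => T * s) (𝓝[>] 0) (𝓝 (T * 0)) :=
    (idt.mono_right nhdsWithin_le_nhds).const_mul T
  rw [mul_zero] at t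
  exact (t.eventually_le_const hρ).mono fun s hs =>
    (Metric.closedBall_subset_closedBall hs).trans hb

open Classical in
/-- **Covariance for an even number of points.** -/
theorem kap0 (R : Rf Ω Ωr) (R' : Rf Ω' Ωr') (h : Cov Ω Ω' φ T) (hL : Fam0 Ω.D Λ)
    (hL' : Fam0 Ω'.D Λ') (hX : ∀ z ∈ X, z ∈ Ω.D) (he : Even X.card) : Kq Λ Λ' φ X ∅ = 1 := by
  rcases X.eq_empty_or_nonempty with rfl | ⟨z, hz⟩
  · simp [Kq, wt, gl_zero]
  have n0 : (0 : ℝ) < X.card := by exact_mod_cast Finset.card_pos.2 ⟨z, hz⟩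
  replace hz := hX z hz
  have hz' := h.bij.mapsTo hz
  have l0 := h.ne z hz
  have l1 := norm_pos_iff.2 l0
  obtain ⟨u, hu⟩ := IsAlgClosed.exists_pow_nat_eq (-(‖deriv φ z‖ : ℂ) / deriv φ z) two_pos
  have u1 : ‖u‖ = 1 := by
    have := congrArg norm hu
    rw [norm_pow, norm_div, norm_neg, norm_real, norm_norm, div_self l1.ne'] at this
    exact (pow_eq_one_iff_of_nonneg (norm_nonneg u) two_ne_zero).1 this
  have u2 : deriv φ z * u = ‖deriv φ z‖ * rc u := by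
    have e := mul_conj' u
    rw [u1, eq_div_iff l0] at *
    rw [rc_eq]
    push_cast at e
    linear_combination (conj u) * hu - (deriv φ z * u) * e
  set y : Fin X.card → ℂ := fun i => (((i : ℕ) / (2 * X.card) : ℝ) : ℂ) * u with hy
  have y1 : ∀ i, ‖y i‖ ≤ 1 / 2 := fun i => by
    have : ((i : ℕ) : ℝ) ≤ X.card := by exact_mod_cast i.2.le
    rw [hy, norm_mul, u1, mul_one, norm_real, Real.norm_of_nonneg (by positivity),
      div_le_iff₀ (by positivity)]
    linarith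
  have y2 : ∀ i, ‖rc (y i)‖ ≤ 1 / 2 := fun i => by rw [rc_eq, norm_neg, norm_conj]; exact y1 i
  have yi : Function.Injective y := fun i j e => by
    have e1 := ofReal_injective (mul_right_cancel₀ (norm_pos_iff.1 (u1 ▸ one_pos)) e)
    exact Fin.ext (by exact_mod_cast (div_left_inj' (by positivity)).1 e1)
  have yi' : Function.Injective fun i => rc (y i) := fun i j e => yi (by
    rw [← rc_rc (y i), show rc (y i) = rc (y j) from e, rc_rc])
  have aff : ∀ (w : ℂ) (s : ℝ) (v : Fin X.card → ℂ), 0 < s → Function.Injective v →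
      Function.Injective fun i => w + s * v i := fun w s v hs hv i j e =>
    hv (mul_left_cancel₀ (ofReal_ne_zero.2 hs.ne') (add_left_cancel e))
  have tx : ∀ i, Tendsto (fun s : ℝ => z + s * y i) (𝓝[>] 0) (𝓝 z) := fun i => by
    have : Tendsto (fun s : ℝ => z + s * y i) (𝓝 0) (𝓝 (z + (0 : ℝ) * y i)) :=
      Continuous.tendsto (by fun_prop) 0
    simpa using this.mono_left nhdsWithin_le_nhds
  set Y : ℝ → Fin X.card → ℂ := fun s i => (φ (z + s * y i) - φ z) / (s * ‖deriv φ z‖ : ℝ) with hY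
  have tY : ∀ i, Tendsto (fun s => Y s i) (𝓝[>] 0) (𝓝 (rc (y i))) := fun i => by
    have d1 : HasDerivAt (fun s : ℝ => z + s * y i) (y i) 0 := by
      simpa using (((hasDerivAt_id (0 : ℝ)).ofReal_comp).mul_const (y i)).const_add z
    have d2 := (h.diff.differentiableAt (Ω.op.mem_nhds hz)).hasDerivAt
    have d3 := (HasDerivAt.scomp_of_eq (0 : ℝ) d2 d1 (by simp)).tendsto_slope_zero_right
    have e : rc (y i) = (y i • deriv φ z) / ‖deriv φ z‖ := by
      rw [eq_div_iff (ofReal_ne_zero.2 l1.ne'), hy, rc_mul, smul_eq_mul]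
      linear_combination (-(((i : ℕ) / (2 * X.card) : ℝ) : ℂ)) * u2
    rw [e]
    refine (d3.div_const _).congr fun s => ?_
    simp only [hY, Function.comp, zero_add, ofReal_zero, zero_mul, add_zero, real_smul]
    push_cast
    rw [← div_div]
    ring
  have tw : Tendsto (fun s : ℝ => ∏ i, ‖deriv φ (z + s * y i)‖ ^ (1 / 8 : ℝ)) (𝓝[>] 0)
      (𝓝 (‖deriv φ z‖ ^ ((X.card : ℝ) / 8))) := by
    have c := ((h.diff.deriv Ω.op).differentiableAt (Ω.op.mem_nhds hz)).continuousAt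
    have := tendsto_finsetProd Finset.univ fun i _ =>
      ((c.tendsto.comp (tx i)).norm).rpow_const (p := 1 / 8) (Or.inr (by norm_num))
    rwa [Finset.prod_const, Finset.card_univ, Fintype.card_fin, ← Real.rpow_natCast,
      ← Real.rpow_mul l1.le, show (1 / 8 : ℝ) * X.card = X.card / 8 by ring] at this
  refine eq_one fun ε hε hε1 => ?_
  obtain ⟨T, T1, hT⟩ := loc he hε hε1
  obtain ⟨s₀, b0, s0⟩ := ((small_ball Ω'.op hz' T).and self_mem_nhdsWithin).exists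
  replace s0 : 0 < s₀ := s0
  have inD : ∀ v : ℂ, ‖v‖ ≤ 1 → φ z + s₀ * v ∈ Ω'.D := fun v hv => b0 (by
    rw [Metric.mem_closedBall, dist_eq_norm, add_sub_cancel_left, norm_mul, norm_real,
      Real.norm_of_nonneg s0.le]
    nlinarith)
  have y3 := fun i => (y2 i).trans (by norm_num : (1 / 2 : ℝ) ≤ 1)
  have E0 := ex_im R' hL' he (aff (φ z) s₀ _ s0 yi') fun i => inD _ (y3 i)
  have ev1 : ∀ᶠ s in 𝓝[>] (0 : ℝ), ∀ i, ‖Y s i‖ ≤ 1 := eventually_all.2 fun i =>
    (tY i).norm.eventually_le_const ((y2 i).trans_lt (by norm_num))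
  have ev2 := inj_ev yi' tY
  have tg := (cont R' hL' (aff (φ z) s₀ _ s0 yi') (fun i => inD _ (y3 i)) (S := ∅) (by simp) E0
    (x := fun s i => φ z + s₀ * Y s i) (fun i => ((tY i).const_mul _).const_add _) (by
      filter_upwards [ev1, ev2] with s k1 k2
      exact ex_im R' hL' he (aff _ _ _ s0 k2) fun i => inD _ (k1 i))).const_mul
    (s₀ ^ ((X.card : ℝ) / 8))
  have γ0 := mul_pos (Real.rpow_pos_of_pos s0 ((X.card : ℝ) / 8)) E0.1
  have w0 := Real.rpow_pos_of_pos l1 ((X.card : ℝ) / 8)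
  have K0 := (quo_lim h hX (ex0 R hL hX he) (by
    rw [Finset.image_empty]
    refine ex0 R' hL' (fun w hw => ?_) (by rwa [h.card fun z hz => Or.inl (hX z hz)])
    obtain ⟨v, hv, rfl⟩ := Finset.mem_image.1 hw
    exact h.bij.mapsTo (hX v hv))).1
  have key : ∀ᶠ s : ℝ in 𝓝[>] 0,
      Kq Λ Λ' φ X ∅ * (1 - ε) ^ 2 * ((∏ i, ‖deriv φ (z + s * y i)‖ ^ (1 / 8 : ℝ)) *
        (s₀ ^ ((X.card : ℝ) / 8) * gi Λ' fun i => φ z + s₀ * Y s i)) ≤
      ‖deriv φ z‖ ^ ((X.card : ℝ) / 8) *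
        (s₀ ^ ((X.card : ℝ) / 8) * gi Λ' fun i => φ z + s₀ * rc (y i)) ∧
      (1 - ε) ^ 2 * (‖deriv φ z‖ ^ ((X.card : ℝ) / 8) *
        (s₀ ^ ((X.card : ℝ) / 8) * gi Λ' fun i => φ z + s₀ * rc (y i))) ≤
      Kq Λ Λ' φ X ∅ * ((∏ i, ‖deriv φ (z + s * y i)‖ ^ (1 / 8 : ℝ)) *
        (s₀ ^ ((X.card : ℝ) / 8) * gi Λ' fun i => φ z + s₀ * Y s i)) := by
    filter_upwards [ev1, ev2, small_ball Ω.op hz T, small_ball Ω'.op hz' (T * ‖deriv φ z‖),
      eventually_all.2 fun i => (tx i).eventually (Ω.op.mem_nhds hz), self_mem_nhdsWithin]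
      with s k1 k2 k3 k4 k5 k6
    replace k6 : 0 < s := k6
    have k7 := mul_pos k6 l1
    have xi := aff z s _ k6 yi
    have xi' : Function.Injective fun i => φ (z + s * y i) := fun i j e =>
      xi (h.bij.injOn (k5 i) (k5 j) e)
    have eY : ∀ i, φ (z + s * y i) = φ z + (s * ‖deriv φ z‖ : ℝ) * Y s i := fun i => by
      rw [hY, mul_div_cancel₀ _ (ofReal_ne_zero.2 k7.ne'), add_sub_cancel]
    have a1 := hT Ω Ωr Ω' Ωr' Λ Λ' _ _ z (φ z) s s₀ y _ (fun i => φ z + s₀ * rc (y i)) R R' hL hL'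
      sym_rf k6 s0 k3 (fun i => (y1 i).trans (by norm_num)) (fun _ => rfl)
      (fun i => by rw [rc_mul s₀]) xi (aff _ _ _ s0 yi') fun i => inD _ (y3 i)
    have a2 := hT Ω' Ωr' Ω Ωr Λ' Λ _ _ (φ z) z s₀ s _ _ (fun i => z + s * y i) R' R hL' hL sym_rf
      s0 k6 b0 y3 (fun _ => rfl) (fun i => by rw [rc_mul s, rc_rc]) (aff _ _ _ s0 yi') xi k5
    have a3 := hT Ω' Ωr' Ω' Ωr' Λ' Λ' _ _ (φ z) (φ z) _ s₀ (Y s) _ (fun i => φ z + s₀ * Y s i)
      R' R' hL' hL' sym_id k7 s0 (by rwa [mul_comm s, ← mul_assoc]) k1 eY (fun _ => rfl) xi'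
      (aff _ _ _ s0 k2) fun i => inD _ (k1 i)
    have a4 := hT Ω' Ωr' Ω' Ωr' Λ' Λ' _ _ (φ z) (φ z) s₀ _ (Y s) _ (fun i => φ (z + s * y i))
      R' R' hL' hL' sym_id s0 k7 b0 k1 (fun _ => rfl) eY (aff _ _ _ s0 k2) xi'
      fun i => h.bij.mapsTo (k5 i)
    have E1 := ex_im R hL he xi k5
    have E2 := ex_im R' hL' he xi' fun i => h.bij.mapsTo (k5 i)
    have XD : ∀ w ∈ Finset.univ.image fun i => z + s * y i, w ∈ Ω.D := fun w hw => by
      obtain ⟨i, -, rfl⟩ := Finset.mem_image.1 hw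
      exact k5 i
    have a5 := Kq_eq R R' h hL hL' (Finset.empty_subset _) XD hX
      (by rw [Finset.card_image_of_injective _ xi, Finset.card_univ, Fintype.card_fin])
      (by simpa using he) E1 (by rwa [Finset.image_image, Finset.image_empty]) (ex0 R hL hX he) (by
        rw [Finset.image_empty]
        refine ex0 R' hL' (fun w hw => ?_) (by rwa [h.card fun z hz => Or.inl (hX z hz)])
        obtain ⟨v, hv, rfl⟩ := Finset.mem_image.1 hw
        exact h.bij.mapsTo (hX v hv))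
    have w1 := h.wt_pos XD
    rw [Kq, Finset.image_image, Finset.image_empty] at a5
    replace a5 := (div_eq_iff (mul_pos w1 E2.1).ne').1 a5
    rw [wt, Finset.prod_image fun i _ j _ e => xi e] at a5 w1
    rw [Real.mul_rpow k6.le l1.le] at a3 a4
    change gi Λ _ = _ * (_ * gi Λ' fun i => φ (z + s * y i)) at a5
    rw [a5] at a1 a2
    have e1 : 0 ≤ 1 - ε := by linarith
    have b1 := mul_le_mul_of_nonneg_left a4 (mul_nonneg (mul_pos K0 w1).le e1)
    have b2 := mul_le_mul_of_nonneg_left a1 w0.le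
    have b3 := mul_le_mul_of_nonneg_left a2 (mul_nonneg w0.le e1)
    have b4 := mul_le_mul_of_nonneg_left a3 (mul_pos K0 w1).le
    constructor <;> linarith
  have c1 := le_of_tendsto ((tw.mul tg).const_mul _) (key.mono fun _ h => h.1)
  have c2 := ge_of_tendsto ((tw.mul tg).const_mul _) (key.mono fun _ h => h.2)
  exact ⟨(mul_le_iff_le_one_left (mul_pos w0 γ0)).1 c1, le_of_mul_le_mul_right c2 (mul_pos w0 γ0)⟩

end Vale.Agent.N144.C
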