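import Vale.Agent.N144.C.DisGr

/-!
Several moving points; conformal covariance of the ratios of the disorder correlations.
-/

namespace Vale.Agent.N144.C

open Filter Topology Complex Vale.Agent.P144
open Vale.Agent.P144.H170 (Pt pt F2 Mk HD)
open Vale.Agent.P144.H365 (pt_of_Tc)
open Vale.Agent.P144.H436 (rc Tc fam QQ_pos Tc_fl MM MM_pos)
open Vale.Agent.P144.AL (flt idt)
open Vale.Agent.P144Y (Dom Ext Pm Appr Fam0 fm)
open Vale.Agent.P144Y.R (Cf Mx)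
open Vale.Agent.P144T.B (FD qr)

section mov

variable {Ω Ωr : Dom} {α κ : Type} {l : Filter α} {a : α → ℝ} {N : α → Finset Site}

theorem enumF (Y : Finset κ) : ∃ (n : ℕ) (e : Fin n → κ), Function.Injective e ∧ (∀ i, e i ∈ Y) ∧
    n = Y.card ∧ ∀ f : κ → Site, fam (fun i => f (e i)) = Y.val.map f := by
  let e : Fin Y.card → κ := fun p => (Y.equivFin.symm p : κ)
  have hi : Function.Injective e := fun p q h => Y.equivFin.symm.injective (Subtype.ext h)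
  refine ⟨_, e, hi, fun i => (Y.equivFin.symm i).2, rfl, fun f => ?_⟩
  have h1 : (Finset.univ : Finset (Fin Y.card)).map ⟨e, hi⟩ = Y := by
    ext x
    simp only [Finset.mem_map, Finset.mem_univ, true_and, Function.Embedding.coeFn_mk]
    exact ⟨fun ⟨p, hp⟩ => hp ▸ (Y.equivFin.symm p).2, fun h => ⟨Y.equivFin ⟨x, h⟩, by simp [e]⟩⟩
  have h2 : Finset.univ.val.map e = Y.val := congrArg Finset.val h1
  unfold fam
  rw [← h2, Multiset.map_map]
  rfl

/-- **Moving points.** -/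
theorem movN (R : Rf Ω Ωr) (ha : Tendsto a l (𝓝[>] 0)) (hN : Appr Ω.D l a N) {Y : Finset κ}
    {ρ : κ → ℂ} (hi : Set.InjOn ρ Y) (hY : ∀ p ∈ Y, ρ p ∈ Pm Ω.D) {u u' : κ → α → Site}
    (hu : ∀ p ∈ Y, Tc l a (u p) (ρ p)) (hu' : ∀ p ∈ Y, Tc l a (u' p) (ρ p))
    (he : ∀ p ∈ Y, ρ p ∉ Ω.D → u' p = u p) : Tendsto (fun k =>
      MM (N k) (Y.val.map fun p => u' p k) / MM (N k) (Y.val.map fun p => u p k)) l (𝓝 1) := by
  classical
  have key : ∀ T : Finset κ, T ⊆ Y → Tendsto (fun k =>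
      MM (N k) (Y.val.map fun p => T.piecewise u' u p k) / MM (N k) (Y.val.map fun p => u p k)) l
      (𝓝 1) := by
    intro T
    induction T using Finset.induction_on with
    | empty =>
      intro _
      simp only [Finset.piecewise_empty, div_self (MM_pos _ _).ne']
      exact tendsto_const_nhds
    | insert p T hp ih =>
      intro hT
      have hpY := hT (Finset.mem_insert_self p T)
      have h1 := ih fun x hx => hT (Finset.mem_insert_of_mem hx)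
      by_cases hD : ρ p ∈ Ω.D
      swap
      · rwa [Finset.piecewise_insert, he p hpY hD, ← Finset.piecewise_eq_of_notMem T u' u hp,
          Function.update_eq_self]
      obtain ⟨n, e, e1, e2, -, e3⟩ := enumF (Y.erase p)
      have hw : ∀ x ∈ Y, Tc l a (T.piecewise u' u x) (ρ x) := fun x hx => by
        by_cases h : x ∈ T
        · rw [Finset.piecewise_eq_of_mem _ _ _ h]; exact hu' x hx
        · rw [Finset.piecewise_eq_of_notMem _ _ _ h]; exact hu x hx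
      have e4 := fun i => Finset.mem_of_mem_erase (e2 i)
      have h2 := mov1 R (ρ := fun i => ρ (e i)) (ω := ρ p) ⟨fun i => hY _ (e4 i),
        fun i j h => e1 (hi (e4 i) (e4 j) h), hD,
        fun i h => Finset.ne_of_mem_erase (e2 i) (hi (e4 i) hpY h)⟩
        (r := fun k i => T.piecewise u' u (e i) k) ⟨ha, hN, fun i => hw _ (e4 i), hu p hpY⟩
        (hu' p hpY)
      have h3 := h2.mul h1
      rw [one_mul] at h3
      refine h3.congr fun k => ?_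
      have e5 : Y.val = p ::ₘ (Y.erase p).val := by
        rw [Finset.erase_val, Multiset.cons_erase hpY]
      have e6 : (Y.val.map fun x => T.piecewise u' u x k) =
          u p k ::ₘ fam fun i => T.piecewise u' u (e i) k := by
        rw [e3 fun x => T.piecewise u' u x k, e5, Multiset.map_cons,
          Finset.piecewise_eq_of_notMem _ _ _ hp]
      have e7 : (Y.val.map fun x => (insert p T).piecewise u' u x k) =
          u' p k ::ₘ fam fun i => T.piecewise u' u (e i) k := by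
        rw [e3 fun x => T.piecewise u' u x k, e5, Multiset.map_cons, Finset.piecewise_insert_self]
        congr 1
        exact Multiset.map_congr rfl fun x hx => by
          rw [Finset.piecewise_insert_of_ne _ _ _ (Finset.ne_of_mem_erase hx)]
      rw [e6, e7]
      unfold MM
      have p1 := (QQ_pos (N k) 0).ne'
      have p2 := (QQ_pos (N k) (u p k ::ₘ fam fun i => T.piecewise u' u (e i) k)).ne'
      have p3 := (QQ_pos (N k) (Y.val.map fun p => u p k)).ne'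
      field_simp
  refine (key Y subset_rfl).congr fun k => ?_
  congr 2
  exact Multiset.map_congr rfl fun x hx => by rw [Finset.piecewise_eq_of_mem _ _ _ hx]

end mov

section cov

variable {Ω Ωr Ω' Ωr' : Dom} {φ : ℂ → ℂ} {T : Finset ℂ}

theorem ext_not {D : Set ℂ} {z : ℂ} (h : z ∈ Ext D) : z ∉ D := fun e => h.2 (subset_closure e)

theorem Cov.inj (h : Cov Ω Ω' φ T) {z w : ℂ} (hz : z ∈ Ω.D ∨ z ∈ T) (hw : w ∈ Ω.D ∨ w ∈ T)
    (e : φ z = φ w) : z = w := by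
  rcases hz with hz | hz <;> rcases hw with hw | hw
  · exact h.bij.injOn hz hw e
  · exact absurd (e ▸ h.bij.mapsTo hz) (ext_not (h.ext' w hw))
  · exact absurd (e ▸ h.bij.mapsTo hw) (ext_not (h.ext' z hz))
  · exact h.injT hz hw e

theorem Cov.pm (h : Cov Ω Ω' φ T) {z : ℂ} (hz : z ∈ Ω.D ∨ z ∈ T) :
    z ∈ Pm Ω.D ∧ φ z ∈ Pm Ω'.D :=
  ⟨hz.imp id (h.ext z), hz.imp (fun e => h.bij.mapsTo e) (h.ext' z)⟩

/-- The transformation of the coefficient. -/
theorem coef_cov {κ : Type} [Fintype κ] {ζ : κ → ℂ} {ω : ℂ} {q q' : ℂ → ℂ}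
    (hd : DifferentiableOn ℂ φ Ω.D) (h0 : deriv φ ω ≠ 0) (hω : ω ∈ Ω.D) (hω' : φ ω ∈ Ω'.D)
    (hn : ∀ p, ζ p ≠ ω) (hn' : ∀ p, φ (ζ p) ≠ φ ω) (h : SolY Ω ζ ω q)
    (h' : SolY Ω' (fun p => φ (ζ p)) (φ ω) q')
    (he : ∀ z ∈ Ω.D, z ∉ Mk ζ (fun _ : Unit => ω) → F2 ζ (fun _ : Unit => ω) q z =
      F2 (fun p => φ (ζ p)) (fun _ : Unit => φ ω) q' (φ z) * deriv φ z) :
    coef ζ ω q = coef (fun p => φ (ζ p)) (φ ω) q' * deriv φ ω +
      1 / 8 * ((deriv φ ω)⁻¹ * deriv (deriv φ) ω) := by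
  have hU := Ω.op.mem_nhds hω
  have g1 := (differentiableOn_dslope hU).2 hd
  set g := dslope φ ω with hg
  have g0 : g ω = deriv φ ω := dslope_same φ ω
  have g2 : ∀ z, φ z - φ ω = (z - ω) * g z := fun z => (sub_smul_dslope φ ω z).symm
  have g3 : ∀ z ∈ Ω.D, deriv φ z = g z + (z - ω) * deriv g z := fun z hz => by
    have e : φ = fun z => φ ω + (z - ω) * g z := funext fun z => by rw [← g2]; ring
    have d := ((((hasDerivAt_id z).sub_const ω).mul
      (g1.differentiableAt (Ω.op.mem_nhds hz)).hasDerivAt).const_add (φ ω)).deriv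
    rw [e]
    simpa using d
  have dg := (g1.differentiableAt hU).hasDerivAt
  have dg' := ((g1.deriv Ω.op).differentiableAt hU).hasDerivAt
  have dφ := (hd.differentiableAt hU).hasDerivAt
  have dφ' := ((hd.deriv Ω.op).differentiableAt hU).hasDerivAt
  have g4 : deriv (deriv φ) ω = 2 * deriv g ω := by
    have d := dg.add (((hasDerivAt_id ω).sub_const ω).mul dg')
    rw [(d.congr_of_eventuallyEq (eventually_of_mem hU g3)).deriv]
    simp
    ring
  have P0 : ∏ p, (ω - ζ p) ≠ 0 := Finset.prod_ne_zero_iff.2 fun p _ => sub_ne_zero.2 (hn p).symm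
  have P1 : ∏ p, (φ ω - φ (ζ p)) ≠ 0 :=
    Finset.prod_ne_zero_iff.2 fun p _ => sub_ne_zero.2 (hn' p).symm
  have c0 : (Real.pi / 2 : ℂ) * (1 - I) ≠ 0 := left_ne_zero_of_mul (h.src ▸ P0)
  set F' := fun w => q' w ^ 2 / ∏ p, (w - φ (ζ p)) with hF'
  have v1 : (Real.pi / 2 : ℂ) * (1 - I) * F' (φ ω) = 1 := by
    rw [hF', ← mul_div_assoc, h'.src, div_self P1]
  have dF : HasDerivAt F' (deriv F' (φ ω)) (φ ω) :=
    (((h'.diff.differentiableAt (Ω'.op.mem_nhds hω')).pow 2).div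
      (DifferentiableAt.fun_finsetProd fun p _ => differentiableAt_id.sub_const _) P1).hasDerivAt
  have e1 : (fun z => q z ^ 2 / ∏ p, (z - ζ p)) =ᶠ[𝓝 ω] fun z => F' (φ z) * deriv φ z / g z := by
    filter_upwards [hU, eventually_all.2 fun p => eventually_ne_nhds (hn p).symm,
      dg.continuousAt.eventually_ne (g0 ▸ h0)] with z z1 z2 z3
    by_cases z4 : z = ω
    · subst z4
      rw [g0, mul_div_assoc, div_self h0, mul_one]
      refine mul_left_cancel₀ c0 ?_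
      rw [v1, ← mul_div_assoc, h.src, div_self P0]
    · have e := he z z1 (H170.notMem_Mk.2 ⟨z2, fun _ => z4⟩)
      have z5 := sub_ne_zero.2 z4
      unfold F2 H170.PP at e
      simp only [Finset.univ_unique, Finset.prod_singleton] at e
      rw [← div_div, ← div_div, g2, div_eq_iff z5] at e
      rw [e]
      change F' (φ z) / _ * _ * _ = _
      field_simp
  have d : HasDerivAt (fun z => F' (φ z) * deriv φ z / g z) _ ω :=
    ((dF.comp ω dφ).mul dφ').div dg (g0 ▸ h0)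
  unfold coef
  rw [e1.deriv_eq, d.deriv, g4, g0]
  simp only [Function.comp, Pi.mul_apply]
  rw [← hF']
  field_simp
  linear_combination (2 * deriv g ω) * v1

/-- The conformal factor. -/
noncomputable def wt (φ : ℂ → ℂ) (X : Finset ℂ) : ℝ := ∏ x ∈ X, ‖deriv φ x‖ ^ (1 / 8 : ℝ)

variable {Λ Λ' : ℝ → Finset Site}

theorem qr_log {n : ℕ} (ρ : Fin n → ℂ) (z w : ℂ) (a : ℝ) : Real.log (qr Λ ρ z w a) =
    lq Λ (fun a p => fl a (ρ p)) a (fl a w) - lq Λ (fun a p => fl a (ρ p)) a (fl a z) :=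
  Real.log_div (QQ_pos _ _).ne' (QQ_pos _ _).ne'

/-- The limit of the logarithm of the ratio and its derivative. -/
theorem lim_hd (R : Rf Ω Ωr) (hL : Fam0 Ω.D Λ) {n : ℕ} {ρ : Fin n → ℂ} (hr : ∀ p, ρ p ∈ Pm Ω.D)
    (hi : Function.Injective ρ) {z : ℂ} (hz : z ∈ Ω.D \ Set.range ρ) : ∃ G : ℂ → ℝ, G z = 0 ∧
      ∀ w ∈ Ω.D \ Set.range ρ, Tendsto (qr Λ ρ z w) (𝓝[>] 0) (𝓝 (Real.exp (G w))) ∧
        (∃ q, SolY Ω ρ w q) ∧ ∀ q, SolY Ω ρ w q → HD G (fun _ => coef ρ w q) w := by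
  have h1 : ∀ w, ∃ g : ℝ, w ∈ Ω.D \ Set.range ρ →
      Tendsto (qr Λ ρ z w) (𝓝[>] 0) (𝓝 (Real.exp g)) := fun w => by
    by_cases hw : w ∈ Ω.D \ Set.range ρ
    · obtain ⟨g, g0, hg⟩ := P144Y.R.all_rel hL (P144Y.R.t5 Ω n) (t5' R n)
        (P144Y.R.t0 n (t5' R n)) hr hi hz hw
      exact ⟨Real.log g, fun _ => by rwa [Real.exp_log g0]⟩
    · exact ⟨0, fun h => absurd h hw⟩
  choose G hG using h1
  have h2 : ∀ w ∈ Ω.D \ Set.range ρ, Tendsto (fun a => lq Λ (fun a p => fl a (ρ p)) a (fl a w) -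
      lq Λ (fun a p => fl a (ρ p)) a (fl a z)) (𝓝[>] 0) (𝓝 (G w)) := fun w hw => by
    have := (hG w hw).log (Real.exp_pos _).ne'
    rw [Real.log_exp] at this
    exact this.congr (qr_log ρ z w)
  have hc : ∀ w ∈ Ω.D \ Set.range ρ, Cf Ω.D ρ w := fun w hw =>
    ⟨hr, hi, hw.1, fun p e => hw.2 ⟨p, e⟩⟩
  have hf : ∀ w, FD Ω.D (𝓝[>] 0) (fun a => a) Λ (fun a p => fl a (ρ p)) (fun a => fl a w) ρ w :=
    fun w => ⟨idt, hL, fun p => Tc_fl idt _, Tc_fl idt _⟩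
  refine ⟨G, ?_, fun w hw => ⟨hG w hw, sol_ex (hc w hw) (hf w), fun q hq => ?_⟩⟩
  · have := h2 z hz
    simp only [sub_self] at this
    exact tendsto_nhds_unique this tendsto_const_nhds
  · have hU := (Ω.op.sdiff (Set.finite_range ρ).isClosed).mem_nhds hw
    refine (gr R (hc w hw) hq (hf w)).hd (eventually_of_mem hU fun y hy => un R (hc y hy) (hf w))
      (u := fun w a => fl a w) flt (eventually_of_mem hU fun y hy => ?_)
    exact ((h2 y hy).sub (h2 w hw)).congr fun a => by ring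

/-- Moving one point. -/
theorem rel_cov (R : Rf Ω Ωr) (R' : Rf Ω' Ωr') (h : Cov Ω Ω' φ T) (hL : Fam0 Ω.D Λ)
    (hL' : Fam0 Ω'.D Λ') {n : ℕ} (hn : Odd n) {ρ : Fin n → ℂ} (hr : ∀ p, ρ p ∈ Ω.D ∨ ρ p ∈ T)
    (hi : Function.Injective ρ) {z w : ℂ} (hz : z ∈ Ω.D \ Set.range ρ)
    (hw : w ∈ Ω.D \ Set.range ρ) :
    Tendsto (fun a => qr Λ ρ z w a / qr Λ' (fun p => φ (ρ p)) (φ z) (φ w) a) (𝓝[>] 0)
      (𝓝 (‖deriv φ w‖ ^ (1 / 8 : ℝ) / ‖deriv φ z‖ ^ (1 / 8 : ℝ))) := by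
  have hm : ∀ y ∈ Ω.D \ Set.range ρ, φ y ∈ Ω'.D \ Set.range fun p => φ (ρ p) := fun y hy =>
    ⟨h.bij.mapsTo hy.1, fun ⟨p, e⟩ => hy.2 ⟨p, h.inj (hr p) (Or.inl hy.1) e⟩⟩
  obtain ⟨G, G0, hG⟩ := lim_hd R hL (fun p => (h.pm (hr p)).1) hi hz
  obtain ⟨G', G0', hG'⟩ := lim_hd R' hL' (ρ := fun p => φ (ρ p)) (fun p => (h.pm (hr p)).2)
    (fun p p' e => hi (h.inj (hr p) (hr p') e)) (hm z hz)
  have hd : ∀ y ∈ Ω.D \ Set.range ρ, HasFDerivAt
      (fun y => G y - G' (φ y) - 1 / 8 * Real.log ‖deriv φ y‖) (0 : ℂ →L[ℝ] ℝ) y := fun y hy => by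
    obtain ⟨-, ⟨q', hq'⟩, h2⟩ := hG' _ (hm y hy)
    have ne : ∀ p, ρ p ≠ y := fun p e => hy.2 ⟨p, e⟩
    obtain ⟨q, hq, he⟩ := h.tr (Fin n) ρ y hr hy.1 hi ne (by rwa [Fintype.card_fin]) q' hq'
    have hU := Ω.op.mem_nhds hy.1
    have d1 := (hG y hy).2.2 q hq
    have d2 := P144G.HD_comp (φ' := deriv φ) (h2 q' hq') (h.diff.differentiableAt hU).hasDerivAt
    have d3 := P144G.HD_comp (φ := deriv φ) (φ' := deriv (deriv φ)) (P144G.HD_log (h.ne y hy.1))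
      ((h.diff.deriv Ω.op).differentiableAt hU).hasDerivAt
    have d4 := P144G.HD_lin (P144G.HD_lin d1 d2 1 (-1)) d3 1 (-(1 / 8))
    have e := coef_cov h.diff (h.ne y hy.1) hy.1 (hm y hy).1 ne
      (fun p e => (hm y hy).2 ⟨p, e⟩) hq hq' he
    unfold HD at d4
    have e2 : ((1 : ℝ) : ℂ) * (((1 : ℝ) : ℂ) * coef ρ y q + ((-1 : ℝ) : ℂ) *
        (coef (fun p => φ (ρ p)) (φ y) q' * deriv φ y)) +
        ((-(1 / 8) : ℝ) : ℂ) * ((deriv φ y)⁻¹ * deriv (deriv φ) y) = 0 := by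
      rw [e]
      push_cast
      ring
    simp only [e2, zero_re, zero_im, neg_zero, zero_smul, add_zero] at d4
    refine d4.congr_of_eventuallyEq (Eventually.of_forall fun x => ?_)
    ring
  have hc := (Ω.op.sdiff (Set.finite_range ρ).isClosed).is_const_of_fderiv_eq_zero (𝕜 := ℝ)
    (Ω.conn _ (Set.finite_range ρ))
    (fun y hy => (hd y hy).differentiableAt.differentiableWithinAt)
    (fun y hy => (hd y hy).fderiv) hw hz
  have t := (hG w hw).1.div (hG' _ (hm w hw)).1 (Real.exp_pos _).ne'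
  rw [Real.rpow_def_of_pos (norm_pos_iff.2 (h.ne w hw.1)),
    Real.rpow_def_of_pos (norm_pos_iff.2 (h.ne z hz.1)), ← Real.exp_sub]
  rw [← Real.exp_sub] at t
  rw [G0, G0'] at hc
  rwa [show G w - G' (φ w) = Real.log ‖deriv φ w‖ * (1 / 8) - Real.log ‖deriv φ z‖ * (1 / 8) by
    linarith] at t

open Finset in
/-- Exchanging the points one by one. -/
theorem swap [DecidableEq ℂ] {D : Set ℂ} {E : Finset ℂ → Finset ℂ → Prop} {X' : Finset ℂ}
    (hX' : ∀ z ∈ X', z ∈ D) (h0 : E X' X') (h1 : ∀ X Y, E X Y → E Y X' → E X X')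
    (h2 : ∀ (Y : Finset ℂ) (z w : ℂ), (∀ x ∈ Y, x ∈ D) → z ∈ D → w ∈ D → z ∉ Y → w ∉ Y →
      Y.card + 1 = X'.card → E (insert z Y) (insert w Y)) :
    ∀ X : Finset ℂ, (∀ z ∈ X, z ∈ D) → X.card = X'.card → E X X' := by
  suffices key : ∀ (k : ℕ) (X : Finset ℂ), (∀ z ∈ X, z ∈ D) → X.card = X'.card →
      (X' \ X).card = k → E X X' from fun X a b => key _ X a b rfl
  intro k
  induction k with
  | zero =>
    intro X _ hc hk
    rwa [← eq_of_subset_of_card_le (sdiff_eq_empty_iff_subset.1 (card_eq_zero.1 hk)) hc.le]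
  | succ k ih =>
    intro X hX hc hk
    obtain ⟨w, hw⟩ : (X' \ X).Nonempty := card_pos.1 (by omega)
    obtain ⟨z, hz⟩ : (X \ X').Nonempty := card_pos.1 (by rw [card_sdiff_comm hc]; omega)
    rw [Finset.mem_sdiff] at hw hz
    have hwY : w ∉ X.erase z := fun h => hw.2 (erase_subset _ _ h)
    have hYD : ∀ x ∈ X.erase z, x ∈ D := fun x hx => hX x (erase_subset _ _ hx)
    have hYc : (X.erase z).card + 1 = X'.card := by rw [card_erase_add_one hz.1, hc]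
    have h3 := h2 _ z w hYD (hX z hz.1) (hX' w hw.1) (notMem_erase z X) hwY hYc
    rw [insert_erase hz.1] at h3
    refine h1 _ _ h3 (ih _ (fun x hx => ?_) (by rw [card_insert_of_notMem hwY, hYc]) ?_)
    · rcases mem_insert.1 hx with rfl | h
      exacts [hX' _ hw.1, hYD x h]
    · have h1 : X' \ insert w (X.erase z) = (X' \ X).erase w := by
        ext x
        simp only [Finset.mem_sdiff, mem_insert, mem_erase, not_or]
        exact ⟨fun ⟨h1, h2, h3⟩ => ⟨h2, h1, fun h4 => h3 ⟨fun e => hz.2 (e ▸ h1), h4⟩⟩,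
          fun ⟨h1, h2, h3⟩ => ⟨h2, h1, fun h4 => h3 h4.2⟩⟩
      rw [h1, card_erase_of_mem (Finset.mem_sdiff.2 hw), hk]
      rfl

theorem Mx_pos (Λ : ℝ → Finset Site) (a : ℝ) (X S : Finset ℂ) : 0 < Mx Λ a X S := MM_pos _ _

theorem Cov.wt_pos (h : Cov Ω Ω' φ T) {X : Finset ℂ} (hX : ∀ z ∈ X, z ∈ Ω.D) : 0 < wt φ X :=
  Finset.prod_pos fun x hx => Real.rpow_pos_of_pos (norm_pos_iff.2 (h.ne x (hX x hx))) _

open Classical in
/-- The quotient of the correlations in the two domains. -/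
noncomputable def quo (Λ Λ' : ℝ → Finset Site) (φ : ℂ → ℂ) (X S : Finset ℂ) (a : ℝ) : ℝ :=
  Mx Λ a X S / (wt φ X * Mx Λ' a (X.image φ) (S.image φ))

theorem Cov.fm_image [DecidableEq ℂ] (h : Cov Ω Ω' φ T) {X : Finset ℂ}
    (hX : ∀ z ∈ X, z ∈ Ω.D ∨ z ∈ T) (a : ℝ) :
    fm a (X.image φ) = X.val.map fun x => fl a (φ x) := by
  unfold fm
  rw [Finset.image_val_of_injOn fun z hz w hw e => h.inj (hX z hz) (hX w hw) e, Multiset.map_map]
  rfl

/-- **Covariance up to a constant.** -/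
theorem ratio_cov (R : Rf Ω Ωr) (R' : Rf Ω' Ωr') (h : Cov Ω Ω' φ T) (hL : Fam0 Ω.D Λ)
    (hL' : Fam0 Ω'.D Λ') {S : Finset ℂ} (hS : S ⊆ T) {X X' : Finset ℂ} (hX : ∀ z ∈ X, z ∈ Ω.D)
    (hX' : ∀ z ∈ X', z ∈ Ω.D) (hc : X.card = X'.card) (he : Even (X'.card + S.card)) :
    Tendsto (fun a => quo Λ Λ' φ X S a / quo Λ Λ' φ X' S a) (𝓝[>] 0) (𝓝 1) := by
  classical
  have qp : ∀ X : Finset ℂ, (∀ z ∈ X, z ∈ Ω.D) → ∀ a, 0 < quo Λ Λ' φ X S a := fun X hX a =>
    div_pos (Mx_pos _ _ _ _) (mul_pos (h.wt_pos hX) (Mx_pos _ _ _ _))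
  refine (swap (D := Ω.D) (E := fun X Y => (∀ z ∈ Y, z ∈ Ω.D) ∧
    Tendsto (fun a => quo Λ Λ' φ X S a / quo Λ Λ' φ Y S a) (𝓝[>] 0) (𝓝 1)) hX' ⟨hX', ?_⟩
    (fun X Y k1 k2 => ⟨hX', ?_⟩) (fun Y z w hY hz hw zY wY hc => ⟨?_, ?_⟩) X hX hc).2
  · exact tendsto_const_nhds.congr fun a => (div_self (qp _ hX' a).ne').symm
  · have := k1.2.mul k2.2
    rw [one_mul] at this
    exact this.congr fun a => div_mul_div_cancel₀ (qp _ k1.1 a).ne'
  · exact fun x hx => (Finset.mem_insert.1 hx).elim (fun e => e ▸ hw) (hY x)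
  have hS' : ∀ x ∈ Ω.D, x ∉ S := fun x hx e => ext_not (h.ext x (hS e)) hx
  have hd : Disjoint Y S := Finset.disjoint_left.2 fun x hx => hS' x (hY x hx)
  obtain ⟨n, ρ, hi, hm, hn, hf⟩ := enumF (Y.disjUnion S hd)
  have hm' : ∀ p, ρ p ∈ Y ∨ ρ p ∈ S := fun p => Finset.mem_disjUnion.1 (hm p)
  have hn' : ∀ x ∈ Ω.D, x ∉ Y → x ∈ Ω.D \ Set.range ρ := fun x h1 h2 =>
    ⟨h1, fun ⟨p, e⟩ => (hm' p).elim (fun k => h2 (e ▸ k)) fun k => hS' x h1 (e ▸ k)⟩
  have t := (rel_cov R R' h hL hL' (by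
    rw [Finset.card_disjUnion] at hn
    rw [← hc] at he
    obtain ⟨m, hm⟩ := he
    exact ⟨m - 1, by omega⟩) (fun p => (hm' p).imp (hY _) fun k => hS k) hi (hn' w hw wY)
    (hn' z hz zY)).mul_const (‖deriv φ w‖ ^ (1 / 8 : ℝ) / ‖deriv φ z‖ ^ (1 / 8 : ℝ))
  have p1 := (Real.rpow_pos_of_pos (norm_pos_iff.2 (h.ne w hw)) (1 / 8 : ℝ)).ne'
  have p2 := (Real.rpow_pos_of_pos (norm_pos_iff.2 (h.ne z hz)) (1 / 8 : ℝ)).ne'
  rw [div_mul_div_cancel₀ p1, div_self p2] at t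
  refine t.congr fun a => ?_
  have e1 : ∀ v ∈ Ω.D, v ∉ Y → quo Λ Λ' φ (insert v Y) S a =
      AL.QQ (Λ a) (fl a v ::ₘ fam fun p => fl a (ρ p)) 0 / AL.QQ (Λ a) 0 0 /
      (‖deriv φ v‖ ^ (1 / 8 : ℝ) * wt φ Y *
        (AL.QQ (Λ' a) (fl a (φ v) ::ₘ fam fun p => fl a (φ (ρ p))) 0 / AL.QQ (Λ' a) 0 0)) := by
    intro v hv hv'
    unfold quo Mx wt
    rw [h.fm_image (X := insert v Y) fun x hx =>
        Or.inl ((Finset.mem_insert.1 hx).elim (fun e => e ▸ hv) (hY x)),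
      h.fm_image fun x hx => Or.inr (hS hx), hf (fl a), hf fun x => fl a (φ x),
      Finset.prod_insert hv']
    unfold fm
    rw [Finset.insert_val_of_notMem hv', Finset.disjUnion_val]
    simp only [Multiset.map_cons, Multiset.cons_add, Multiset.map_add]
    rfl
  rw [e1 z hz zY, e1 w hw wY]
  unfold qr
  have p3 := (h.wt_pos hY).ne'
  have p4 := (QQ_pos (Λ a) 0).ne'
  have p5 := (QQ_pos (Λ' a) 0).ne'
  have p6 := fun v => (QQ_pos (Λ a) (fl a v ::ₘ fam fun p => fl a (ρ p))).ne'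
  have p7 := fun v => (QQ_pos (Λ' a) (fl a (φ v) ::ₘ fam fun p => fl a (φ (ρ p)))).ne'
  have := p6 w
  have := p7 w
  have := p7 z
  field_simp

end cov

end Vale.Agent.N144.C
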