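import Vale.Agent.N144.C.DisOne
import Vale.Agent.P144Y.Main

/-!
The constant of the conformal covariance for the correlations of spins and of components of the
complement.
-/

namespace Vale.Agent.N144.C

open Filter Topology Finset Metric Vale.Agent.P144
open Vale.Agent.P144.H170 (pt pt_fl_norm)
open Vale.Agent.P144.H436 (boxAt mem_boxAt)
open Vale.Agent.P144.AL (flt idt)
open Vale.Agent.P144Y (Dom Ext fm GW FamB FamP Std OutL MM Vx NormW)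
open Vale.Agent.P144Y.K (smm)
open Vale.Agent.P144Y.N (ev_le ceil_bd mag_sc GW_xi GW_zero1 GW_one1)
open Vale.Agent.P144Z.St (mag_nonneg)

/-- A domain with a family of blocks. -/
structure Wd (Ω Ωr : Dom) (P : ℝ → Finset Site) : Prop where
  rf : Rf Ω Ωr
  std : Std Ω.D
  out : OutL Ω.D
  fam : FamB Ω.D P

/-- The vertices of the family. -/
abbrev VV (P : ℝ → Finset Site) : ℝ → Finset Site := fun a => Vx (P a)

variable {Ω Ωr Ω' Ωr' : Dom} {P P' : ℝ → Finset Site} {X S : Finset ℂ}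

theorem Wd.GX (h : Wd Ω Ωr P) (X S : Finset ℂ) : GX (VV P) X S = GW P X S := by
  funext a
  rw [C.GX, GW, smm.blk _ _ (h.fam.2.1 a)]
  rfl

theorem Wd.norm (h : Wd Ω Ωr P) (hX : ∀ z ∈ X, z ∈ Ω.D) (hS : ∀ z ∈ S, z ∈ Ext Ω.D) :
    NormW Ω.D X S :=
  P144Y.F.normW (P144Y.N.one smm) (P144Y.N.shole (P144Y.N.big smm)) Ω Ωr h.rf.eq h.std h.out
    ⟨P, h.fam.1⟩ X S hX hS

theorem Wd.ex (h : Wd Ω Ωr P) (hX : ∀ z ∈ X, z ∈ Ω.D) (hS : ∀ z ∈ S, z ∈ Ext Ω.D) :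
    Ex (VV P) X S := by
  refine ex_of ?_
  rw [h.GX]
  exact (h.norm hX hS).imp fun g hg => ⟨hg.1, hg.2 P h.fam.1⟩

theorem Wd.lim (h : Wd Ω Ωr P) (hX : ∀ z ∈ X, z ∈ Ω.D) (hS : ∀ z ∈ S, z ∈ Ext Ω.D) :
    Tendsto (GW P X S) (𝓝[>] 0) (𝓝 (gl (VV P) X S)) := h.GX X S ▸ (h.ex hX hS).2

theorem GW_mul {X₁ X₂ X₃ : Finset ℂ} (hc : X₁.card = X₂.card + X₃.card) {a : ℝ} (ha : 0 < a) :
    a ^ (-(X₁.card : ℝ) / 8) = a ^ (-(X₂.card : ℝ) / 8) * a ^ (-(X₃.card : ℝ) / 8) := by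
  rw [← Real.rpow_add ha, hc]
  congr 1
  push_cast
  ring

/-- The Griffiths inequality for the limits. -/
theorem Wd.gks (h : Wd Ω Ωr P) {X₁ S₁ X₂ S₂ X₃ S₃ : Finset ℂ} (x1 : ∀ z ∈ X₁, z ∈ Ω.D)
    (x2 : ∀ z ∈ X₂, z ∈ Ω.D) (x3 : ∀ z ∈ X₃, z ∈ Ω.D) (s1 : ∀ z ∈ S₁, z ∈ Ext Ω.D)
    (s2 : ∀ z ∈ S₂, z ∈ Ext Ω.D) (s3 : ∀ z ∈ S₃, z ∈ Ext Ω.D) (hc : X₁.card = X₂.card + X₃.card)
    (he : ∀ a, MM (P a) (fm a X₂ + fm a S₂ + (fm a X₃ + fm a S₃)) = MM (P a) (fm a X₁ + fm a S₁)) :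
    gl (VV P) X₂ S₂ * gl (VV P) X₃ S₃ ≤ gl (VV P) X₁ S₁ := by
  refine le_of_tendsto_of_tendsto ((h.lim x2 s2).mul (h.lim x3 s3)) (h.lim x1 s1) ?_
  filter_upwards [self_mem_nhdsWithin] with a ha
  have ha : 0 < a := ha
  unfold GW
  rw [GW_mul hc ha, ← he, mul_mul_mul_comm]
  exact mul_le_mul_of_nonneg_left (smm.gks _ _ _) (by positivity)

theorem slack {α β u C η : ℝ} (hβ : 0 < β) (hη : 0 < η) (h1 : α ≤ β * u + C)
    (h2 : C / (η * β) ≤ u) : α ≤ (1 + η) * (β * u) := by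
  rw [div_le_iff₀ (by positivity)] at h2
  linarith

theorem fm_pair [DecidableEq ℂ] {z y : ℂ} (ne : z ≠ y) (a : ℝ) :
    fm a {z, y} = fl a z ::ₘ fl a y ::ₘ 0 := by
  unfold fm
  rw [insert_val_of_notMem (by simpa using ne)]
  rfl

open Classical in
/-- Two spins, one of them close to a component. -/
theorem Wd.one (h : Wd Ω Ωr P) {ξ y : ℂ} (hξ : ξ ∈ Ext Ω.D) (hy : y ∈ Ω.D) {η : ℝ} (hη : 0 < η) :
    ∃ z ∈ Ω.D, z ≠ y ∧
      gl (VV P) {z, y} ∅ ≤ (1 + η) * (gl (VV P) {y} {ξ} * gl (VV P) {z} {ξ}) := by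
  have hP := h.fam
  obtain ⟨C₀, hC₀, hmag⟩ := mag_sc one_pos
  obtain ⟨ρ, hρ, C, hb⟩ := P144Y.N.big smm 1 one_pos _ P h.std hP.1 ξ hξ {y} fun w hw => by
    rw [mem_singleton.1 hw]
    exact Or.inl hy
  obtain ⟨δ, δ0, hδ⟩ := nhds_basis_closedBall.mem_iff.1 (Ω.op.mem_nhds hy)
  obtain ⟨s, s0, s1, s2⟩ : ∃ s > (0 : ℝ), 3 * s ≤ δ ∧ 4 * s ≤ ρ :=
    ⟨min (δ / 3) (ρ / 4), by positivity, by linarith [min_le_left (δ / 3) (ρ / 4)],
      by linarith [min_le_right (δ / 3) (ρ / 4)]⟩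
  have x1 : ∀ z ∈ ({ξ} : Finset ℂ), z ∈ Ext Ω.D := by simpa using hξ
  have y1 : ∀ z ∈ ({y} : Finset ℂ), z ∈ Ω.D := by simpa using hy
  obtain ⟨z, hz, k⟩ := hb (C * (C₀ * s ^ (-(1 : ℝ) / 8)) / (η * gl (VV P) {y} {ξ}))
  have z1 : ∀ w ∈ ({z} : Finset ℂ), w ∈ Ω.D := by simpa using hz
  have ne : z ≠ y := by
    obtain ⟨a, ⟨-, B, b1, -, b2, -⟩, ha, a1⟩ := (k.and (ev_le (c := ρ / 4) (by positivity))).exists
    rintro rfl
    linarith [b2 z (mem_singleton_self _) _ b1, pt_fl_norm ha z]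
  refine ⟨z, hz, ne, slack (h.ex y1 x1).1 hη (le_of_tendsto_of_tendsto
    (h.lim (X := {z, y}) (S := ∅) (by simp [hz, hy]) (by simp))
    (((h.lim y1 x1).mul (h.lim z1 x1)).add_const _) ?_)
    (ge_of_tendsto (h.lim z1 x1) (k.mono fun a e => e.1))⟩
  filter_upwards [k, P144Y.N.ext_ev hP.1.1 hξ, hP.1.1.mem idt hz (flt z),
    hP.1.1.cpt (isCompact_closedBall y δ) hδ, ev_le (c := s / 8) (by positivity)]
    with a ⟨_, B, b1, b2, b3, b4⟩ e1 e2 e3 ⟨ha, a1⟩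
  have n1 := ceil_bd ha s0.le
  have hB : ∀ x ∈ boxAt (fl a y) ⌈s / a⌉₊, ‖pt a x - y‖ ≤ 2 * s + 4 * a := fun x hx => by
    linarith [P144Q.pt_sub_le ha (mem_boxAt.1 hx).1 (mem_boxAt.1 hx).2, pt_fl_norm ha y,
      norm_sub_le_norm_sub_add_norm_sub (pt a x) (pt a (fl a y)) y]
  have c2 := P144Y.G.cov2 1 one_pos (P a) B (boxAt (fl a y) ⌈s / a⌉₊) _ _ (fl a y) e1 e2 b1
    (mem_boxAt.2 (by simp)) (fun x hx => e3 x (by
      rw [mem_closedBall, dist_eq_norm]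
      linarith [hB x hx])) b2 fun x hx x' hx' => by
      by_contra c
      have := P144Q.pt_sub_le ha (x := x') (y := x) (m := 1)
        (by push_cast; linarith [abs_nonneg (x.2 - x'.2)])
        (by push_cast; linarith [abs_nonneg (x.1 - x'.1)])
      push_cast at this
      linarith [b3 y (mem_singleton_self _) x hx, hB x' hx',
        norm_sub_le_norm_sub_add_norm_sub (pt a x) (pt a x') y]
  have e4 : GW P {z, y} ∅ a =
      (a ^ (-(1 : ℝ) / 8)) ^ 2 * MM (P a) (fl a z ::ₘ fl a y ::ₘ 0) := by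
    rw [GW, fm_pair ne, card_pair ne, sq, ← Real.rpow_add ha]
    norm_num [fm]
  have p3 : 0 < a ^ (-(1 : ℝ) / 8) := by positivity
  have c3 := mul_le_mul b4 (hmag a ha s s0 (fl a y)) (mul_nonneg p3.le (mag_nonneg one_pos _ _))
    ((mul_nonneg p3.le (mag_nonneg one_pos _ _)).trans b4)
  rw [e4, GW_xi, GW_xi]
  linarith [mul_le_mul_of_nonneg_left c2 (sq_nonneg (a ^ (-(1 : ℝ) / 8)))]

/-- One spin close to a component. -/
theorem Wd.fact (h : Wd Ω Ωr P) {ξ : ℂ} (hξ : ξ ∈ Ext Ω.D) (hS : ∀ z ∈ S, z ∈ Ext Ω.D)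
    {S' : Finset ℂ} (hS' : ∀ z ∈ S', z ∈ Ext Ω.D)
    (he : ∀ a v, MM (P a) (v ::ₘ fl a ξ ::ₘ fm a S) = MM (P a) (v ::ₘ fm a S')) {η : ℝ}
    (hη : 0 < η) : ∃ z ∈ Ω.D,
      gl (VV P) {z} S' ≤ (1 + η) * (gl (VV P) ∅ S * gl (VV P) {z} {ξ}) := by
  obtain ⟨C, -, hC⟩ := P144Y.N.fact (P144Y.N.big smm) h.std h.fam.1 hξ hS
  obtain ⟨z, hz, k⟩ := hC (C / (η * gl (VV P) ∅ S))
  have x1 : ∀ z ∈ ({ξ} : Finset ℂ), z ∈ Ext Ω.D := by simpa using hξ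
  have z1 : ∀ w ∈ ({z} : Finset ℂ), w ∈ Ω.D := by simpa using hz
  refine ⟨z, hz, slack (h.ex (by simp) hS).1 hη (le_of_tendsto_of_tendsto (h.lim z1 hS')
    (((h.lim (by simp) hS).mul (h.lim z1 x1)).add_const _) (k.mono fun a e => ?_))
    (ge_of_tendsto (h.lim z1 x1) (k.mono fun a e => e.1))⟩
  have := e.2.2
  rwa [he, ← GW_one1] at this

theorem fm_union [DecidableEq ℂ] {C : Finset ℂ} (hd : Disjoint C X) (a : ℝ) :
    fm a (C ∪ X) = fm a C + fm a X := by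
  unfold fm
  rw [← disjUnion_eq_union _ _ hd, disjUnion_val, Multiset.map_add]

open Classical in
/-- A cluster close to the boundary. -/
theorem Wd.clu (h : Wd Ω Ωr P) (hX : ∀ z ∈ X, z ∈ Ω.D) (hS : ∀ z ∈ S, z ∈ Ext Ω.D) {n : ℕ}
    (hn : Even n) {η : ℝ} (hη : 0 < η) : ∃ C : Finset ℂ, (∀ w ∈ C, w ∈ Ω.D) ∧ Disjoint C X ∧
      C.card = n ∧ gl (VV P) (C ∪ X) S ≤ (1 + η) * (gl (VV P) X S * gl (VV P) C ∅) := by
  obtain ⟨C, c1, c2, c3, k⟩ := P144Y.B.clu smm h.std h.fam hS hX (h.norm hX hS) hn hη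
  refine ⟨C, c1, c2, c3, le_of_tendsto_of_tendsto
    (h.lim (fun w hw => (mem_union.1 hw).elim (c1 w) (hX w)) hS)
    (((h.lim hX hS).mul (h.lim c1 (by simp))).const_mul _) ?_⟩
  filter_upwards [k, self_mem_nhdsWithin] with a k ha
  have ha : 0 < a := ha
  unfold GW
  rw [GW_mul (X₂ := X) (X₃ := C) (by rw [card_union_of_disjoint c2, add_comm]) ha, fm_union c2,
    add_assoc, mul_mul_mul_comm, mul_left_comm, show fm a ∅ = 0 from rfl, add_zero]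
  exact mul_le_mul_of_nonneg_left k (by positivity)

/-! ### The constants -/

variable {φ : ℂ → ℂ} {T : Finset ℂ}

open Classical in
/-- The Griffiths inequality is almost an equality for some set of `n` points. -/
def Tri (P : ℝ → Finset Site) (D : Set ℂ) (X S₁ S₂ S₃ : Finset ℂ) (n : ℕ) : Prop :=
  (∀ a R, MM (P a) (R + (fm a S₂ + fm a S₃)) = MM (P a) (R + fm a S₁)) ∧
    ∀ η > (0 : ℝ), ∃ C : Finset ℂ, (∀ w ∈ C, w ∈ D) ∧ Disjoint C X ∧ C.card = n ∧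
      gl (VV P) (C ∪ X) S₁ ≤ (1 + η) * (gl (VV P) X S₂ * gl (VV P) C S₃)

open Classical in
theorem Tri.gks {S₁ S₂ S₃ C : Finset ℂ} {n : ℕ} (t : Tri P Ω.D X S₁ S₂ S₃ n) (h : Wd Ω Ωr P)
    (hX : ∀ z ∈ X, z ∈ Ω.D) (s1 : ∀ z ∈ S₁, z ∈ Ext Ω.D) (s2 : ∀ z ∈ S₂, z ∈ Ext Ω.D)
    (s3 : ∀ z ∈ S₃, z ∈ Ext Ω.D) (hC : ∀ w ∈ C, w ∈ Ω.D) (hd : Disjoint C X) :
    gl (VV P) X S₂ * gl (VV P) C S₃ ≤ gl (VV P) (C ∪ X) S₁ :=
  h.gks (fun w hw => (mem_union.1 hw).elim (hC w) (hX w)) hX hC s1 s2 s3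
    (by rw [card_union_of_disjoint hd, add_comm]) fun a => by
      rw [← t.1, fm_union hd]
      congr 1
      abel

theorem Cov.imD [DecidableEq ℂ] (h : Cov Ω Ω' φ T) (hX : ∀ z ∈ X, z ∈ Ω.D) :
    ∀ z ∈ X.image φ, z ∈ Ω'.D := fun z hz => by
  obtain ⟨w, hw, rfl⟩ := mem_image.1 hz
  exact h.bij.mapsTo (hX w hw)

theorem Cov.imE [DecidableEq ℂ] (h : Cov Ω Ω' φ T) (hS : S ⊆ T) :
    ∀ z ∈ S.image φ, z ∈ Ext Ω'.D := fun z hz => by
  obtain ⟨w, hw, rfl⟩ := mem_image.1 hz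
  exact h.ext' w (hS hw)

open Classical in
theorem Kq_mul (W : Wd Ω Ωr P) (W' : Wd Ω' Ωr' P') (h : Cov Ω Ω' φ T) (hX : ∀ z ∈ X, z ∈ Ω.D)
    (hS : S ⊆ T) : 0 < Kq (VV P) (VV P') φ X S ∧ gl (VV P) X S =
      Kq (VV P) (VV P') φ X S * (wt φ X * gl (VV P') (X.image φ) (S.image φ)) := by
  have e' := W'.ex (h.imD hX) (h.imE hS)
  exact ⟨(quo_lim h hX (W.ex hX fun z hz => h.ext z (hS hz)) e').1,
    (div_mul_cancel₀ _ (mul_pos (h.wt_pos hX) e'.1).ne').symm⟩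

theorem Kq_eqW (W : Wd Ω Ωr P) (W' : Wd Ω' Ωr' P') (h : Cov Ω Ω' φ T) (hS : S ⊆ T)
    {X' : Finset ℂ} (hX : ∀ z ∈ X, z ∈ Ω.D) (hX' : ∀ z ∈ X', z ∈ Ω.D) (hc : X.card = X'.card)
    (he : Even (X'.card + S.card)) : Kq (VV P) (VV P') φ X S = Kq (VV P) (VV P') φ X' S :=
  Kq_eq W.rf W'.rf h W.fam.2.2 W'.fam.2.2 hS hX hX' hc he (W.ex hX fun z hz => h.ext z (hS hz))
    (W'.ex (h.imD hX) (h.imE hS)) (W.ex hX' fun z hz => h.ext z (hS hz))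
    (W'.ex (h.imD hX') (h.imE hS))

theorem le_of_eta {x y : ℝ} (h : ∀ η > (0 : ℝ), x ≤ (1 + η) * y) : x ≤ y := by
  have t : Tendsto (fun η : ℝ => (1 + η) * y) (𝓝[>] 0) (𝓝 ((1 + 0) * y)) :=
    (((continuous_const.add continuous_id).mul continuous_const).tendsto 0).mono_left
      nhdsWithin_le_nhds
  simpa using ge_of_tendsto t (eventually_mem_nhdsWithin.mono h)

open Classical in
theorem tri (W : Wd Ω Ωr P) (W' : Wd Ω' Ωr' P') (h : Cov Ω Ω' φ T) {S₁ S₂ S₃ : Finset ℂ} {n : ℕ}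
    (s1 : S₁ ⊆ T) (s2 : S₂ ⊆ T) (s3 : S₃ ⊆ T) (hX : ∀ z ∈ X, z ∈ Ω.D)
    (t : Tri P Ω.D X S₁ S₂ S₃ n)
    (t' : Tri P' Ω'.D (X.image φ) (S₁.image φ) (S₂.image φ) (S₃.image φ) n) {K₁ K₃ : ℝ}
    (hK : ∀ C : Finset ℂ, (∀ w ∈ C, w ∈ Ω.D) → Disjoint C X → C.card = n →
      Kq (VV P) (VV P') φ (C ∪ X) S₁ = K₁ ∧ Kq (VV P) (VV P') φ C S₃ = K₃) :
    K₁ = Kq (VV P) (VV P') φ X S₂ * K₃ := by
  obtain ⟨p2, e2⟩ := Kq_mul W W' h hX s2
  have g2 := (W'.ex (h.imD hX) (h.imE s2)).1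
  have w2 := h.wt_pos hX
  have key : ∀ C : Finset ℂ, (∀ w ∈ C, w ∈ Ω.D) → Disjoint C X → C.card = n → ∃ w > (0 : ℝ),
      0 < K₁ ∧ 0 < K₃ ∧ 0 < gl (VV P') (X.image φ) (S₂.image φ) *
        gl (VV P') (C.image φ) (S₃.image φ) ∧
      gl (VV P) (C ∪ X) S₁ = K₁ * (w * gl (VV P') (C.image φ ∪ X.image φ) (S₁.image φ)) ∧
      gl (VV P) X S₂ * gl (VV P) C S₃ = Kq (VV P) (VV P') φ X S₂ * K₃ * (w *
        (gl (VV P') (X.image φ) (S₂.image φ) * gl (VV P') (C.image φ) (S₃.image φ))) := by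
    intro C c1 c2 c3
    obtain ⟨p1, e1⟩ := Kq_mul W W' h (X := C ∪ X)
      (fun w hw => (mem_union.1 hw).elim (c1 w) (hX w)) s1
    obtain ⟨p3, e3⟩ := Kq_mul W W' h c1 s3
    obtain ⟨k1, k3⟩ := hK C c1 c2 c3
    rw [k1] at p1 e1
    rw [k3] at p3 e3
    refine ⟨wt φ C * wt φ X, mul_pos (h.wt_pos c1) w2, p1, p3,
      mul_pos g2 (W'.ex (h.imD c1) (h.imE s3)).1, ?_, ?_⟩
    · rw [e1, image_union, wt, prod_union c2]
      rfl
    · rw [e3]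
      conv_lhs => rw [e2]
      ring
  have dj : ∀ C : Finset ℂ, (∀ w ∈ C, w ∈ Ω.D) →
      (Disjoint (C.image φ) (X.image φ) ↔ Disjoint C X) := fun C c1 =>
    ⟨fun d => disjoint_left.2 fun z hz hz' =>
      disjoint_left.1 d (mem_image_of_mem φ hz) (mem_image_of_mem φ hz'), fun d => disjoint_left.2 fun z hz hz' => by
      obtain ⟨u, hu, rfl⟩ := mem_image.1 hz
      obtain ⟨v, hv, e⟩ := mem_image.1 hz'
      exact disjoint_left.1 d hu (h.bij.injOn (hX v hv) (c1 u hu) e ▸ hv)⟩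
  refine le_antisymm (le_of_eta fun η hη => ?_) (le_of_eta fun η hη => ?_)
  · obtain ⟨C, c1, c2, c3, c4⟩ := t.2 η hη
    obtain ⟨w, w0, p1, p3, p4, e1, e3⟩ := key C c1 c2 c3
    have k := t'.gks W' (h.imD hX) (h.imE s1) (h.imE s2) (h.imE s3) (h.imD c1) ((dj C c1).2 c2)
    rw [e1, e3] at c4
    refine le_of_mul_le_mul_right ?_ (mul_pos w0 p4)
    linarith [mul_le_mul_of_nonneg_left k (mul_pos p1 w0).le]
  · obtain ⟨C', c1', c2, c3, c4⟩ := t'.2 η hη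
    obtain ⟨C, c1, rfl⟩ := subset_set_image_iff.1
      (show (C' : Set ℂ) ⊆ φ '' Ω.D from fun z hz => h.bij.surjOn (c1' z hz))
    rw [h.card fun z hz => Or.inl (c1 hz)] at c3
    obtain ⟨w, w0, p1, p3, p4, e1, e3⟩ := key C c1 ((dj C c1).1 c2) c3
    have k := t.gks W hX (fun z hz => h.ext z (s1 hz)) (fun z hz => h.ext z (s2 hz))
      (fun z hz => h.ext z (s3 hz)) c1 ((dj C c1).1 c2)
    rw [e1, e3] at k
    refine le_of_mul_le_mul_right ?_ (mul_pos w0 p4)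
    linarith [mul_le_mul_of_nonneg_left c4 (mul_pos p1 w0).le]

theorem Wd.tri1 (h : Wd Ω Ωr P) {ξ y : ℂ} (hξ : ξ ∈ Ext Ω.D) (hy : y ∈ Ω.D) :
    Tri P Ω.D {y} ∅ {ξ} {ξ} 1 := by
  refine ⟨fun a R => ?_, fun η hη => ?_⟩
  · rw [show fm a ∅ = 0 from rfl, add_zero, add_comm R,
      show fm a {ξ} + fm a {ξ} = fl a ξ ::ₘ fl a ξ ::ₘ 0 from rfl, Multiset.cons_add,
      Multiset.cons_add, zero_add, smm.dbl]
  · obtain ⟨z, hz, ne, k⟩ := h.one hξ hy hη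
    exact ⟨{z}, by simpa using hz, by simpa using ne, card_singleton z, k⟩

theorem Wd.tri2 (h : Wd Ω Ωr P) {ξ : ℂ} (hξ : ξ ∈ Ext Ω.D) (hS : ∀ z ∈ S, z ∈ Ext Ω.D)
    {S' : Finset ℂ} (hS' : ∀ z ∈ S', z ∈ Ext Ω.D)
    (he : ∀ a, fm a S' = fl a ξ ::ₘ fm a S ∨ fm a S = fl a ξ ::ₘ fm a S') :
    Tri P Ω.D ∅ S' S {ξ} 1 := by
  have k : ∀ a R, MM (P a) (fl a ξ ::ₘ (fm a S + R)) = MM (P a) (fm a S' + R) := fun a R => by
    rcases he a with e | e <;> rw [e, Multiset.cons_add]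
    exact smm.dbl _ _ _
  refine ⟨fun a R => ?_, fun η hη => ?_⟩
  · rw [add_comm R, add_comm R, ← k, add_comm (fm a S) (fm a {ξ}), add_assoc]
    rfl
  · obtain ⟨z, hz, k⟩ := h.fact hξ hS hS' (fun a v => by
      have := k a {v}
      rwa [add_comm (fm a S), add_comm (fm a S'), Multiset.singleton_add, Multiset.singleton_add,
        Multiset.cons_swap] at this) hη
    exact ⟨{z}, by simpa using hz, by simp, card_singleton z, by rwa [union_empty]⟩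

theorem Wd.tri3 (h : Wd Ω Ωr P) (hX : ∀ z ∈ X, z ∈ Ω.D) (hS : ∀ z ∈ S, z ∈ Ext Ω.D) {n : ℕ}
    (hn : Even n) : Tri P Ω.D X S S ∅ n :=
  ⟨fun a R => by rw [show fm a ∅ = 0 from rfl, add_zero], fun _ hη => h.clu hX hS hn hη⟩

theorem kap1 (W : Wd Ω Ωr P) (W' : Wd Ω' Ωr' P') (h : Cov Ω Ω' φ T) {ξ y : ℂ} (hξ : ξ ∈ T)
    (hy : y ∈ Ω.D) : Kq (VV P) (VV P') φ {y} {ξ} = 1 := by
  classical
  have x1 : {ξ} ⊆ T := by simpa using hξ
  have y1 : ∀ z ∈ ({y} : Finset ℂ), z ∈ Ω.D := by simpa using hy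
  have k := tri W W' h (empty_subset _) x1 x1 y1 (W.tri1 (h.ext ξ hξ) hy) (by
    rw [image_singleton, image_singleton, image_empty]
    exact W'.tri1 (h.ext' ξ hξ) (h.bij.mapsTo hy)) (K₁ := 1) (K₃ := Kq (VV P) (VV P') φ {y} {ξ})
    fun C c1 c2 c3 => ⟨kap0 W.rf W'.rf h W.fam.2.2 W'.fam.2.2
      (fun w hw => (mem_union.1 hw).elim (c1 w) (y1 w))
      (by rw [card_union_of_disjoint c2, c3, card_singleton]; exact even_two),
      Kq_eqW W W' h x1 c1 y1 c3 (by simp)⟩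
  have p := (Kq_mul W W' h y1 x1).1
  nlinarith

theorem kapS (W : Wd Ω Ωr P) (W' : Wd Ω' Ωr' P') (h : Cov Ω Ω' φ T) (hS : S ⊆ T) :
    (Even S.card → Kq (VV P) (VV P') φ ∅ S = 1) ∧
      (Odd S.card → ∀ z ∈ Ω.D, Kq (VV P) (VV P') φ {z} S = 1) := by
  classical
  induction S using Finset.induction_on with
  | empty => exact ⟨fun _ => by simp [Kq, wt, gl_zero], fun h => absurd h (by simp)⟩
  | insert ξ S hξS ih =>
    have hξ := hS (mem_insert_self _ _)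
    have hS₀ : S ⊆ T := (subset_insert _ _).trans hS
    have x1 : {ξ} ⊆ T := by simpa using hξ
    obtain ⟨i1, i2⟩ := ih hS₀
    have f1 := fun a => P144Y.N.fm_insert hξS a
    have f2 : ∀ a, fm a ((insert ξ S).image φ) = fl a (φ ξ) ::ₘ fm a (S.image φ) := fun a => by
      rw [image_insert]
      refine P144Y.N.fm_insert (fun c => ?_) a
      obtain ⟨w, hw, e⟩ := mem_image.1 c
      exact hξS (h.injT (hS₀ hw) hξ e ▸ hw)
    have e0 := fun z hz => h.ext z (hS₀ hz)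
    have e1 := fun z hz => h.ext z (hS hz)
    have k3 : ∀ C : Finset ℂ, (∀ w ∈ C, w ∈ Ω.D) → C.card = 1 →
        Kq (VV P) (VV P') φ C {ξ} = 1 := fun C c1 c3 => by
      obtain ⟨z, rfl⟩ := card_eq_one.1 c3
      exact kap1 W W' h hξ (c1 z (mem_singleton_self z))
    rw [card_insert_of_notMem hξS]
    refine ⟨fun he => ?_, fun ho z hz => ?_⟩
    · have k := tri W W' h (X := ∅) hS₀ hS x1 (by simp)
        (W.tri2 (h.ext ξ hξ) e1 e0 fun a => Or.inr (f1 a)) (by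
          rw [image_singleton, image_empty]
          exact W'.tri2 (h.ext' ξ hξ) (h.imE hS) (h.imE hS₀) fun a => Or.inr (f2 a))
        (K₁ := 1) (K₃ := 1) fun C c1 _ c3 => ⟨by
          obtain ⟨z, rfl⟩ := card_eq_one.1 c3
          rw [union_empty]
          exact i2 (Nat.not_even_iff_odd.1 (Nat.even_add_one.1 he)) z
            (c1 z (mem_singleton_self z)), k3 C c1 c3⟩
      rw [k, mul_one]
    · have k := tri W W' h (X := ∅) hS hS₀ x1 (by simp)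
        (W.tri2 (h.ext ξ hξ) e0 e1 fun a => Or.inl (f1 a)) (by
          rw [image_singleton, image_empty]
          exact W'.tri2 (h.ext' ξ hξ) (h.imE hS₀) (h.imE hS) fun a => Or.inl (f2 a))
        (K₁ := Kq (VV P) (VV P') φ {z} (insert ξ S)) (K₃ := 1) fun C c1 _ c3 => ⟨by
          rw [union_empty]
          refine Kq_eqW W W' h hS c1 (by simpa using hz) c3 ?_
          rw [card_insert_of_notMem hξS, card_singleton, add_comm]
          exact ho.add_one, k3 C c1 c3⟩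
      rw [k, mul_one, i1 (Nat.not_odd_iff_even.1 (Nat.odd_add_one.1 ho))]

/-- **Covariance of the correlations of spins and components.** -/
theorem kap (W : Wd Ω Ωr P) (W' : Wd Ω' Ωr' P') (h : Cov Ω Ω' φ T) (hS : S ⊆ T)
    (hX : ∀ z ∈ X, z ∈ Ω.D) (he : Even (X.card + S.card)) : Kq (VV P) (VV P') φ X S = 1 := by
  classical
  have key : ∀ (X₀ : Finset ℂ) (n : ℕ), (∀ z ∈ X₀, z ∈ Ω.D) → Even n → X.card = n + X₀.card →
      Kq (VV P) (VV P') φ X S = Kq (VV P) (VV P') φ X₀ S := fun X₀ n x0 hn hc => by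
    have k := tri W W' h hS hS (empty_subset _) x0 (W.tri3 x0 (fun z hz => h.ext z (hS hz)) hn) (by
      rw [image_empty]
      exact W'.tri3 (h.imD x0) (h.imE hS) hn) (K₁ := Kq (VV P) (VV P') φ X S) (K₃ := 1)
      fun C c1 c2 c3 => ⟨Kq_eqW W W' h hS (fun w hw => (mem_union.1 hw).elim (c1 w) (x0 w)) hX
        (by rw [card_union_of_disjoint c2, c3, hc]) he,
        kap0 W.rf W'.rf h W.fam.2.2 W'.fam.2.2 c1 (c3 ▸ hn)⟩
    rw [k, mul_one]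
  rcases Nat.even_or_odd X.card with h1 | h1
  · rw [key ∅ _ (by simp) h1 (by simp)]
    exact (kapS W W' h hS).1 ((Nat.even_add.1 he).1 h1)
  · obtain ⟨x, hx⟩ := W.std.ne
    obtain ⟨m, hm⟩ := h1
    rw [key {x} _ (by simpa using hx) (even_two_mul m) (by rw [card_singleton, hm])]
    exact (kapS W W' h hS).2 (Nat.not_even_iff_odd.1 fun c =>
      Nat.not_even_iff_odd.2 ⟨m, hm⟩ ((Nat.even_add.1 he).2 c)) x hx

end Vale.Agent.N144.C
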