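import Vale.Agent.N144.C.Asm
import Vale.Agent.N144.KY.Asm

/-!
Locally uniform convergence and conformal covariance in the domains of the classes `Nice`.
-/

namespace Vale.Agent.N144.C

open Vale.Agent.P144 Vale.Agent.P144Z
open Vale.Agent.P144Y (Nice)

variable {J : ℝ} {D D' : Set ℂ} {φ : ℂ → ℂ} {p : Pts} {b : Option (ℝ → Config)}

theorem mlim_cls (hJ : 0 < J) (h : Cls D b) (hp : Good D p) : ∃ c, MLim (crit J D b) p c :=
  h.mlim (fun _ => ⟨KY.sExP, KY.sPlus⟩) hJ hp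

theorem locLim_cls (hJ : 0 < J) (h : Cls D b) {C : Pts → ℝ}
    (hC : ∀ p, Good D p → Lim (crit J D b) p (C p)) : LocLim D (crit J D b) C :=
  h.locLim (fun _ => ⟨KY.sExP, KY.sPlus⟩) hJ hC

theorem cov_cls (hJ : 0 < J) (h : Cls D b) (h' : Cls D' b) (B : Bih D D' φ) (hp : Good D p)
    {c c' : ℝ} (hc : Lim (crit J D b) p c) (hc' : Lim (crit J D' b) (im φ p) c') :
    c = fac φ p * c' :=
  h.cov (fun _ => ⟨KY.sExP, KY.sPlus⟩) hJ h' B hp hc hc'

/-- **Limits along moving points.** -/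
theorem mlim_nice (hJ : 0 < J) (h : Nice D b) (hp : Good D p) : ∃ c, MLim (crit J D b) p c :=
  mlim_cls hJ (cls_of h) hp

/-- **Locally uniform convergence.** -/
theorem locLim_nice (hJ : 0 < J) (h : Nice D b) {C : Pts → ℝ}
    (hC : ∀ p, Good D p → Lim (crit J D b) p (C p)) : LocLim D (crit J D b) C :=
  locLim_cls hJ (cls_of h) hC

/-- **Conformal covariance.** -/
theorem cov_nice (hJ : 0 < J) (h : Nice D b) (h' : Nice D' b) (B : Bih D D' φ) (hp : Good D p)
    {c c' : ℝ} (hc : Lim (crit J D b) p c) (hc' : Lim (crit J D' b) (im φ p) c') :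
    c = fac φ p * c' :=
  cov_cls hJ (cls_of h) (cls_of h') B hp hc hc'

end Vale.Agent.N144.C
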