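import Vale.Agent.N144.C.Uq
import Vale.Agent.N144.C.Sqrt

/-!
Matching domains exist (first part); transport of the solutions of the boundary value problems by
conformal maps and by the reflection.
-/

namespace Vale.Agent.N144.C

open Filter Topology Complex Set
open Vale.Agent.P144.H170 (F2 PP gq)
open Vale.Agent.P144.H365 (ResNN)
open Vale.Agent.P144.H135 (w0 kap)
open Vale.Agent.P144.H436 (rc rc_rc)
open Vale.Agent.P144Y (Dom)
open scoped ComplexConjugate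

variable {κ κ' κ₁ κ₁' : Type} [Fintype κ] [Fintype κ'] [Fintype κ₁] [Fintype κ₁']
  {D D' : Set ℂ} {φ g m q : ℂ → ℂ} {ζ : κ → ℂ} {ζ' : κ' → ℂ}

/-! ### Matching domains -/

theorem PP_w0 (ζ : κ → ℂ) (z : ℂ) : PP ζ w0 z = ∏ p, (z - ζ p) := by simp [PP]

/-- The root exists for an even number of corresponding points. -/
theorem exists_Mt (B : Bi D D' φ g) (hc : IsConnected D) {ξ ξ' : κ → ℂ}
    (h : ∀ p, Mp D φ (ξ p) (ξ' p)) (he : Even (Fintype.card κ)) : ∃ m, Mt D φ ξ ξ' m := by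
  obtain ⟨s, hs⟩ := exists_tp (ω := w0) B hc h (fun p => p.elim) (by simpa using he)
  refine ⟨s, hs.sd, hs.ne, fun z hz => ?_⟩
  rw [← hs.eq z hz]
  simp only [fun p => hs.fac p z hz, Finset.prod_mul_distrib, Finset.univ_eq_empty,
    Finset.prod_empty]
  ring

theorem rc_rc_im (D : Set ℂ) : rc '' (rc '' D) = D := by
  simp only [image_image, rc_rc, image_id']

theorem Sm.rf (h : Sm D) : RF h.dom h.refl.dom := ⟨rfl, fun F b =>
  BdA.refl (F' := F) isCompact_empty (empty_subset _) (fun _ _ _ => rfl)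
    (by rw [rc_rc_im]; exact b)⟩

theorem Sm.lin (h : Sm D) : Lin h.dom := fun _ _ _ _ ζ ω q₁ q₂ s t b₁ b₂ => by
  have := BdA.sub (bd_mul (Ω := h.dom) s b₁) (bd_mul (Ω := h.dom) (-t) b₂)
  simp only [ofReal_neg, neg_mul, sub_neg_eq_add] at this
  exact this

/-- The pair of two small domains. -/
def Sm.pair (h : Sm D) (h' : Sm D') (hb : Bih D D' φ) : Pair0 φ where
  Ω := h.dom
  Ω' := h'.dom
  Ωr := h.refl.dom
  Ωr' := h'.refl.dom
  bih := hb
  ne := fun _ hz => (exists_bi h.lip.1 h'.lip.1 hb.d hb.b).elim fun _ B => B.ne hz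
  pb := fun _ _ _ hT hD he b => (exists_bi h.lip.1 h'.lip.1 hb.d hb.b).elim fun _ B =>
    BdA.pull B h'.hasAt hT.isCompact hD he b
  rf := h.rf
  rf' := h'.rf
  lin := h.lin
  lin' := h'.lin
  mt0 := fun _ _ _ hx he => (exists_bi h.lip.1 h'.lip.1 hb.d hb.b).elim fun _ B =>
    exists_Mt B h.con (fun p => Mp.inn B h.con.isPreconnected (hx p)) he

theorem spair0 : SPair0 := fun _ _ _ a b c a' b' c' hb =>
  ⟨Sm.pair ⟨a, b, c⟩ ⟨a', b', c'⟩ hb, rfl, rfl⟩

/-! ### Transport by the conformal map -/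

theorem prod_split [DecidableEq κ] (x : κ → ℂ) (j : κ) (z : ℂ) :
    ∏ i, (z - x i) = (z - x j) * ∏ i : {i // i ≠ j}, (z - x i) :=
  Fintype.prod_eq_mul_prod_subtype_ne _ j

theorem Mt.of_eq {ξ : κ₁ → ℂ} {ξ' : κ₁' → ℂ} (h : Mt D φ ξ ξ' m)
    (e : ∀ z, ∏ p, (z - ξ p) = ∏ p, (z - ζ p)) (e' : ∀ z, ∏ p, (z - ξ' p) = ∏ p, (z - ζ' p)) :
    Mt D φ ζ ζ' m := ⟨h.d, h.ne, fun z hz => by rw [← e, ← e', h.sq z hz]⟩

theorem prod_ne {y : ℂ} : ∏ p, (y - ζ p) ≠ 0 ↔ ∀ p, ζ p ≠ y := by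
  simp only [Finset.prod_ne_zero_iff, Finset.mem_univ, true_imp_iff, sub_ne_zero]
  exact forall_congr' fun _ => ne_comm

theorem sh_der {y : ℂ} (hne : ∀ p, ζ p ≠ y) :
    HasDerivAt (fun z => ∏ p, (z - ζ p)) (2 * sh ζ y * ∏ p, (y - ζ p)) y := by
  have d : DifferentiableAt ℂ (fun z => ∏ p, (z - ζ p)) y := by fun_prop
  have e := logDeriv_prod (s := Finset.univ) (f := fun p z => z - ζ p) (x := y)
    (fun p _ => sub_ne_zero.2 (hne p).symm) fun p _ => by fun_prop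
  rw [logDeriv_apply, div_eq_iff (prod_ne.2 hne)] at e
  refine d.hasDerivAt.congr_deriv ?_
  rw [e, sh, mul_div_cancel₀ _ two_ne_zero]
  simp [logDeriv_apply]

namespace Pair0

variable (c : Pair0 φ)

theorem an {z : ℂ} (hz : z ∈ c.Ω.D) : AnalyticAt ℂ φ z := c.bih.d.analyticAt (c.Ω.op.mem_nhds hz)

theorem mem {z : ℂ} (hz : z ∈ c.Ω.D) : φ z ∈ c.Ω'.D := c.bih.b.mapsTo hz

theorem bi : ∃ g, Bi c.Ω.D c.Ω'.D φ g := exists_bi c.Ω.op c.Ω'.op c.bih.d c.bih.b

theorem tend {y : ℂ} (hy : y ∈ c.Ω.D) : Tendsto φ (𝓝[≠] y) (𝓝[≠] (φ y)) := by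
  refine tendsto_nhdsWithin_iff.2 ⟨(c.an hy).continuousAt.tendsto.mono_left nhdsWithin_le_nhds, ?_⟩
  filter_upwards [self_mem_nhdsWithin, nhdsWithin_le_nhds (c.Ω.op.mem_nhds hy)] with z a b e
  exact a (c.bih.b.injOn b hy e)

/-- The derivative of the difference quotient. -/
theorem ds_der {y : ℂ} (hy : y ∈ c.Ω.D) : HasDerivAt (dslope φ y) (deriv (deriv φ) y / 2) y := by
  obtain ⟨g, B⟩ := c.bi
  have a := (B.ds_diff hy).analyticAt (c.Ω.op.mem_nhds hy)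
  have e : deriv φ =ᶠ[𝓝 y] fun z => dslope φ y z + (z - y) * deriv (dslope φ y) z := by
    filter_upwards [a.eventually_analyticAt] with z b
    have h := (((hasDerivAt_id z).sub_const y).mul b.differentiableAt.hasDerivAt).add_const (φ y)
    rw [one_mul] at h
    refine (h.congr_of_eventuallyEq (Eventually.of_forall fun w => ?_)).deriv
    exact eq_add_of_sub_eq (ds_mul φ y w)
  have h := (a.differentiableAt.hasDerivAt.add (((hasDerivAt_id y).sub_const y).mul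
    a.deriv.differentiableAt.hasDerivAt)).congr_of_eventuallyEq e
  refine a.differentiableAt.hasDerivAt.congr_deriv ?_
  rw [h.deriv]
  simp

variable {ω : κ₁ → ℂ} {ω' : κ₁' → ℂ}

theorem F2_pull {z : ℂ} (hz : z ∈ c.Ω.D) (hm : m z ≠ 0)
    (e : m z ^ 2 * PP ζ' ω' (φ z) = deriv φ z * PP ζ ω z) :
    F2 ζ ω (fun z => m z * q (φ z)) z = F2 ζ' ω' q (φ z) * deriv φ z := by
  have n := c.ne z hz
  unfold F2
  by_cases h : PP ζ ω z = 0
  · rw [h, mul_zero] at e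
    rw [h, (mul_eq_zero.1 e).resolve_left (pow_ne_zero 2 hm)]
    simp
  · have h' : PP ζ' ω' (φ z) ≠ 0 := fun b => mul_ne_zero n h (by rw [← e, b, mul_zero])
    rw [div_mul_eq_mul_div, div_eq_div_iff h h']
    linear_combination q (φ z) ^ 2 * e

theorem res_pull (e : ∀ z ∈ c.Ω.D, F2 ζ ω (fun z => m z * q (φ z)) z =
    F2 ζ' ω' q (φ z) * deriv φ z) {y : ℂ} (hy : y ∈ c.Ω.D) (r : ResNN ζ' ω' q (φ y)) :
    ResNN ζ ω (fun z => m z * q (φ z)) y := by
  obtain ⟨g, B⟩ := c.bi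
  obtain ⟨t, ht, hl⟩ := r
  have t2 := ((c.an hy).deriv.continuousAt.div
    ((B.ds_diff hy).continuousOn.continuousAt (B.op.mem_nhds hy)) (B.ds_ne hy hy)).tendsto
  rw [Pi.div_apply, dslope_same, div_self (B.ne hy)] at t2
  have t3 := (hl.comp (c.tend hy)).mul (t2.mono_left nhdsWithin_le_nhds)
  rw [mul_one] at t3
  refine ⟨t, ht, t3.congr' ?_⟩
  filter_upwards [nhdsWithin_le_nhds (B.op.mem_nhds hy)] with z b
  have e := e z b
  have n := B.ds_ne hy b
  unfold F2 at e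
  simp only [Function.comp_apply, gq, Pi.div_apply]
  rw [e, ds_mul φ y z]
  field_simp

end Pair0

variable {c : Pair0 φ}

theorem Mt.ex (h : Mt c.Ω.D φ ζ ζ' m) {p : κ} (hp : ζ p ∈ c.Ω.D) : ∃ p', ζ' p' = φ (ζ p) := by
  by_contra b
  refine mul_ne_zero (pow_ne_zero 2 (h.ne _ hp)) (prod_ne.2 (not_exists.1 b)) ?_
  rw [h.sq _ hp, Finset.prod_eq_zero (Finset.mem_univ p) (sub_self _), mul_zero]

theorem Mt.iff (h : Mt c.Ω.D φ ζ ζ' m) {y : ℂ} (hy : y ∈ c.Ω.D) :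
    (∀ p, ζ p ≠ y) ↔ ∀ p, ζ' p ≠ φ y := by
  rw [← prod_ne, ← prod_ne, ← mul_ne_zero_iff_left (c.ne y hy), ← h.sq y hy,
    mul_ne_zero_iff_left (pow_ne_zero 2 (h.ne y hy))]

/-- The logarithmic derivative of the root. -/
theorem Mt.der (h : Mt c.Ω.D φ ζ ζ' m) {y : ℂ} (hy : y ∈ c.Ω.D) (hne : ∀ p, ζ p ≠ y) :
    HasDerivAt m (m y * (deriv (deriv φ) y / (2 * deriv φ y) + sh ζ y -
      deriv φ y * sh ζ' (φ y))) y := by
  have d := (h.d.differentiableAt (c.Ω.op.mem_nhds hy)).hasDerivAt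
  have a := c.an hy
  have h1 := (d.pow 2).mul ((sh_der ((h.iff hy).1 hne)).comp y a.differentiableAt.hasDerivAt)
  have h2 := (a.deriv.differentiableAt.hasDerivAt.mul (sh_der hne)).congr_of_eventuallyEq
    (show (fun z => m z ^ 2 * ∏ p, (φ z - ζ' p)) =ᶠ[𝓝 y] _ by
      filter_upwards [c.Ω.op.mem_nhds hy] with z hz using h.sq z hz)
  have e := h1.unique h2
  have e1 := h.sq y hy
  have n1 := c.ne y hy
  have n3 := prod_ne.2 hne
  refine d.congr_deriv ?_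
  simp only [Function.comp_apply, Pi.pow_apply, Nat.cast_ofNat, Nat.add_one_sub_one, pow_one] at e
  refine mul_left_cancel₀ (mul_ne_zero (mul_ne_zero two_ne_zero n1) n3) ?_
  linear_combination m y * e - (2 * deriv m y + 2 * m y * deriv φ y * sh ζ' (φ y)) * e1 -
    (∏ p, (y - ζ p)) * m y * div_mul_cancel₀ (deriv (deriv φ) y) (mul_ne_zero two_ne_zero n1)

/-- **Transport of the solution with a pole.** -/
theorem Pol.pull (h : Mt c.Ω.D φ ζ ζ' m) {y r a : ℂ} (hy : y ∈ c.Ω.D) (hne : ∀ p, ζ p ≠ y)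
    (s : Pol c.Ω' ζ' (φ y) r q a) :
    Pol c.Ω ζ y (m y * r / deriv φ y) (fun z => m z * q (φ z)) (m y * a) := by
  obtain ⟨g, B⟩ := c.bi
  have e : ∀ z ∈ c.Ω.D, F2 ζ w0 (fun z => m z * q (φ z)) z = F2 ζ' w0 q (φ z) * deriv φ z :=
    fun z hz => c.F2_pull hz (h.ne z hz) (by rw [PP_w0, PP_w0, h.sq z hz])
  refine ⟨(h.d.mono sdiff_subset).mul (s.qd.comp (c.bih.d.mono sdiff_subset) fun z hz =>
    ⟨c.mem hz.1, fun b => hz.2 (B.inj hz.1 hy b)⟩), ?_,
    c.pb _ _ ∅ finite_empty (empty_subset _) (fun z hz _ => e z hz) s.bd, fun p hp => ?_⟩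
  · have n := c.ne y hy
    have d := (h.der hy hne).div (c.ds_der hy) (B.ds_ne hy hy)
    have t1 := (hasDerivAt_iff_tendsto_slope.1 d).const_mul r
    have t2 := ((h.der hy hne).continuousAt.tendsto.mono_left nhdsWithin_le_nhds).mul
      (s.loc.comp (c.tend hy))
    convert (t1.add t2).congr' ?_ using 2
    · rw [dslope_same]
      field_simp
      ring
    · filter_upwards [self_mem_nhdsWithin, nhdsWithin_le_nhds (B.op.mem_nhds hy)] with z a b
      have n1 := B.ds_ne hy b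
      have n2 := sub_ne_zero.2 (show z ≠ y from a)
      simp only [slope_def_field, Function.comp_apply, Pi.div_apply, dslope_same, ds_mul φ y z]
      field_simp
      ring
  · obtain ⟨p', e'⟩ := h.ex hp
    exact c.res_pull e hp (e' ▸ s.rs p' (e' ▸ c.mem hp))

/-- The data at the energies, pulled back; `σ k` is a root of `φ' (y k)`. -/
noncomputable def EF.pull {n : ℕ} (e : EF n) (φ m : ℂ → ℂ) (y σ : Fin n → ℂ) : EF n where
  R := fun k => m (y k) * e.R k / σ k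
  q := fun l η z => m z * e.q l (η * σ l) (φ z)
  Y := fun l η => σ l * e.Y l (η * σ l)

/-- **Transport of the data at the energies.** -/
theorem IsE.pull (h : Mt c.Ω.D φ ζ ζ' m) {n : ℕ} {y σ : Fin n → ℂ} {e : EF n}
    (hy : ∀ k, y k ∈ c.Ω.D) (hne : ∀ p k, ζ p ≠ y k) (hσ : ∀ k, σ k ^ 2 = deriv φ (y k))
    (s : IsE c.Ω' ζ' (fun k => φ (y k)) e) : IsE c.Ω ζ y (e.pull φ m y σ) := by
  have n : ∀ k, σ k ≠ 0 := fun k b => c.ne _ (hy k) (by rw [← hσ, b, zero_pow two_ne_zero])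
  refine ⟨fun k => ?_, fun l η => ?_, fun k l a s' t η η' => ?_, fun l s' t η η' => ?_,
    fun l η => ?_⟩
  · simp only [EF.pull]
    rw [div_pow, mul_pow, s.hR, h.sq _ (hy k), hσ, mul_div_cancel_left₀ _ (c.ne _ (hy k))]
  · have := n l
    convert Pol.pull h (hy l) (fun p => hne p l) (s.pol l (η * σ l)) using 1 <;>
      simp only [EF.pull, ← hσ] <;> field_simp
  · simp only [EF.pull, add_mul, mul_assoc]
    rw [s.linq k l a]
    ring
  · simp only [EF.pull, add_mul, mul_assoc]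
    rw [s.linY l]
    ring
  · simp only [EF.pull, ← mul_assoc]
    exact s.asy l _

/-- The kernels between the energies. -/
theorem kE_pull {n : ℕ} {y σ : Fin n → ℂ} (e : EF n) (hm : ∀ k, m (y k) ≠ 0)
    (Y₀ : Fin n → ℂ → ℂ) (k : Fin n) (η : ℂ) (l : Fin n) (η' : ℂ) :
    kE (e.pull φ m y σ) y (fun k η => σ k * Y₀ k (η * σ k)) k η l η' =
      kE e (fun k => φ (y k)) Y₀ k (η * σ k) l (η' * σ l) := by
  unfold kE
  split_ifs with a
  · simp only [EF.pull, a]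
    congr 1
    ring
  · have := hm k
    simp only [EF.pull]
    rw [div_div_eq_mul_div, mul_assoc (m _), mul_div_mul_left _ _ this]
    congr 1
    ring

variable {ξ : κ₁ → ℂ} {ξ' : κ₁' → ℂ} {ω : ℂ}

theorem Mt.one (h : Mt c.Ω.D φ ξ ξ' m) (e : ∀ z, ∏ p, (z - ξ p) = (z - ω) * ∏ p, (z - ζ p))
    (e' : ∀ z, ∏ p, (z - ξ' p) = (z - φ ω) * ∏ p, (z - ζ' p)) (hω : ω ∈ c.Ω.D) {z : ℂ}
    (hz : z ∈ c.Ω.D) :
    m z ^ 2 * (∏ p, (φ z - ζ' p)) * dslope φ ω z = deriv φ z * ∏ p, (z - ζ p) := by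
  obtain ⟨g, B⟩ := c.bi
  have k : ∀ z ∈ c.Ω.D, z ≠ ω →
      m z ^ 2 * (∏ p, (φ z - ζ' p)) * dslope φ ω z = deriv φ z * ∏ p, (z - ζ p) := fun z a b => by
    have := h.sq z a
    rw [e, e', ds_mul φ ω z] at this
    exact mul_left_cancel₀ (sub_ne_zero.2 b) (by linear_combination this)
  by_cases b : z = ω
  · subst b
    have a := c.an hz
    have c1 := h.d.continuousOn.continuousAt (B.op.mem_nhds hz)
    have c2 := (B.ds_diff hz).continuousOn.continuousAt (B.op.mem_nhds hz)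
    have c3 := a.continuousAt
    have c4 := a.deriv.continuousAt
    refine tendsto_nhds_unique_of_eventuallyEq (l := 𝓝[≠] z)
      (f := fun y => m y ^ 2 * (∏ p, (φ y - ζ' p)) * dslope φ z y)
      (g := fun y => deriv φ y * ∏ p, (y - ζ p))
      ((ContinuousAt.tendsto (by fun_prop)).mono_left nhdsWithin_le_nhds)
      ((ContinuousAt.tendsto (by fun_prop)).mono_left nhdsWithin_le_nhds) ?_
    filter_upwards [self_mem_nhdsWithin, nhdsWithin_le_nhds (B.op.mem_nhds hz)] with y a1 a2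
    exact k y a2 a1
  · exact k z hz b

theorem Mt.src (h : Mt c.Ω.D φ ξ ξ' m) (e : ∀ z, ∏ p, (z - ξ p) = (z - ω) * ∏ p, (z - ζ p))
    (e' : ∀ z, ∏ p, (z - ξ' p) = (z - φ ω) * ∏ p, (z - ζ' p)) (hω : ω ∈ c.Ω.D) :
    m ω ^ 2 * ∏ p, (φ ω - ζ' p) = ∏ p, (ω - ζ p) := by
  have := h.one e e' hω hω
  rw [dslope_same] at this
  exact mul_left_cancel₀ (c.ne ω hω) (by linear_combination this)

/-- **Transport of the solution with a source.** -/
theorem SSol.pull (h : Mt c.Ω.D φ ξ ξ' m) (e : ∀ z, ∏ p, (z - ξ p) = (z - ω) * ∏ p, (z - ζ p))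
    (e' : ∀ z, ∏ p, (z - ξ' p) = (z - φ ω) * ∏ p, (z - ζ' p)) (hω : ω ∈ c.Ω.D)
    (s : SSol c.Ω' ζ' (φ ω) q) : SSol c.Ω ζ ω fun z => m z * q (φ z) := by
  obtain ⟨g, B⟩ := c.bi
  have k : ∀ z ∈ c.Ω.D, F2 ζ (fun _ : Unit => ω) (fun z => m z * q (φ z)) z =
      F2 ζ' (fun _ : Unit => φ ω) q (φ z) * deriv φ z := fun z hz => c.F2_pull hz (h.ne z hz) (by
    have := h.sq z hz
    rw [e, e'] at this
    simp only [PP, Fintype.prod_unique]
    linear_combination this)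
  refine ⟨h.d.mul (s.diff.comp c.bih.d c.bih.b.mapsTo),
    c.pb _ _ ∅ finite_empty (empty_subset _) (fun z hz _ => k z hz) s.bd, fun p hp => ?_, ?_⟩
  · obtain ⟨p', b⟩ : ∃ p', ζ' p' = φ (ζ p) := by
      by_contra b
      refine mul_ne_zero (mul_ne_zero (pow_ne_zero 2 (h.ne _ hp)) (prod_ne.2 (not_exists.1 b)))
        (B.ds_ne hω hp) ?_
      rw [h.one e e' hω hp, Finset.prod_eq_zero (Finset.mem_univ p) (sub_self _), mul_zero]
    exact c.res_pull k hp (b ▸ s.res p' (b ▸ c.mem hp))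
  · rw [← h.src e e' hω, ← s.src]
    ring

/-- **Transport of the gradient.** -/
theorem gA_pull (h : Mt c.Ω.D φ ξ ξ' m) (e : ∀ z, ∏ p, (z - ξ p) = (z - ω) * ∏ p, (z - ζ p))
    (e' : ∀ z, ∏ p, (z - ξ' p) = (z - φ ω) * ∏ p, (z - ζ' p)) (hω : ω ∈ c.Ω.D)
    (hne : ∀ p, ζ p ≠ ω) (s : SSol c.Ω' ζ' (φ ω) q) : gA ζ ω (fun z => m z * q (φ z)) =
      deriv φ ω * gA ζ' (φ ω) q + deriv (deriv φ) ω / (8 * deriv φ ω) := by
  obtain ⟨g, B⟩ := c.bi
  have n := prod_ne.2 hne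
  have n' : ∏ p, (φ ω - ζ' p) ≠ 0 := right_ne_zero_of_mul (h.src e e' hω ▸ n)
  have n1 := s.ne (prod_ne.1 n')
  have n2 := c.ne ω hω
  have a := c.an hω
  have k : (fun z => (m z * q (φ z)) ^ 2 / ∏ p, (z - ζ p)) =ᶠ[𝓝 ω]
      fun z => q (φ z) ^ 2 / (∏ p, (φ z - ζ' p)) * (deriv φ z / dslope φ ω z) := by
    have c3 := a.continuousAt
    filter_upwards [B.op.mem_nhds hω, (show ContinuousAt (fun z => ∏ p, (z - ζ p)) ω by
      fun_prop).eventually_ne n, (show ContinuousAt (fun z => ∏ p, (φ z - ζ' p)) ω by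
      fun_prop).eventually_ne n'] with z b1 b2 b3
    rw [div_mul_div_comm, div_eq_div_iff b2 (mul_ne_zero b3 (B.ds_ne hω b1))]
    linear_combination q (φ z) ^ 2 * h.one e e' hω b1
  have d1 : DifferentiableAt ℂ (fun w => q w ^ 2 / ∏ p, (w - ζ' p)) (φ ω) :=
    ((s.diff.differentiableAt (B.op'.mem_nhds (c.mem hω))).pow 2).div (by fun_prop) n'
  have d := ((d1.hasDerivAt.comp ω a.differentiableAt.hasDerivAt).mul
    (a.deriv.differentiableAt.hasDerivAt.div (c.ds_der hω) (B.ds_ne hω hω))).congr_of_eventuallyEq k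
  have k0 := k.self_of_nhds
  unfold gA
  simp only [Function.comp_apply, Pi.div_apply, dslope_same, d.deriv] at k0 ⊢
  rw [k0]
  field_simp
  ring

/-! ### The reflection -/

theorem exists_u (n : ℕ) : ∃ u : ℂ, u ^ 2 = -I * (-1) ^ n :=
  (P144.H365.exists_sqrt _).imp fun _ h => by rw [pow_two, h]

variable {Ω Ωr : Dom}

/-- **The mirror image of the solution with a source.** -/
theorem SSol.refl (h : RF Ω Ωr) {u : ℂ} (hu : u ^ 2 = -I * (-1) ^ (Fintype.card κ + 1))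
    (s : SSol Ω ζ ω q) : SSol Ωr (fun p => rc (ζ p)) (rc ω) fun z => u * conj (q (rc z)) where
  diff := by
    have := diff_rc (q := q) Ωr.op isClosed_empty u (by
      rw [h.1, rc_rc_im]; exact s.diff.mono sdiff_subset)
    rwa [sdiff_empty] at this
  bd := by
    convert h.2 _ s.bd using 2 with z
    simpa only [rc_rc] using F2_rc (ζ := fun p => rc (ζ p)) (ω := fun _ : Unit => rc ω) (q := q) hu z
  res := fun p hp => res_rc (ζ := fun p => rc (ζ p)) (ω := fun _ : Unit => rc ω) hu (by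
    simp only [rc_rc]
    rw [h.1, mem_rc, rc_rc] at hp
    exact s.res p hp)
  src := src_rc (ζ := fun p => rc (ζ p)) hu (by simpa only [rc_rc] using s.src)

theorem gA_refl {u : ℂ} (hu : u ≠ 0) (hω : ω ∈ Ω.D) (hne : ∀ p, ζ p ≠ ω) (s : SSol Ω ζ ω q) :
    gA (fun p => rc (ζ p)) (rc ω) (fun z => u * conj (q (rc z))) = -conj (gA ζ ω q) := by
  have d1 : DifferentiableAt ℂ (fun w => q w ^ 2 / ∏ p, (w - ζ p)) (rc (rc ω)) := by
    rw [rc_rc]
    exact ((s.diff.differentiableAt (Ω.op.mem_nhds hω)).pow 2).div (by fun_prop) (prod_ne.2 hne)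
  have k : ∀ z, (u * conj (q (rc z))) ^ 2 / ∏ p, (z - rc (ζ p)) =
      u ^ 2 / (-1) ^ Fintype.card κ * conj (q (rc z) ^ 2 / ∏ p, (rc z - ζ p)) := fun z => by
    have : ∀ p, z - rc (ζ p) = -conj (rc z - ζ p) := fun p => by rw [← rc_sub, rc_rc]
    simp only [this, Finset.prod_neg, Finset.card_univ, map_div₀, map_pow, map_prod]
    ring
  have n : u ^ 2 / (-1) ^ Fintype.card κ ≠ 0 := div_ne_zero (pow_ne_zero _ hu) (by simp)
  unfold gA
  simp only [k]
  rw [((der_rc d1.hasDerivAt).const_mul _).deriv, mul_left_comm, mul_div_mul_left _ _ n, rc_rc,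
    map_div₀ _ (deriv _ _), map_mul, conj_ofNat, neg_div]

end Vale.Agent.N144.C
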