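import Vale.Agent.N144.C.Defs

/-!
Linearity and uniqueness of the solutions of the boundary value problems.
-/

namespace Vale.Agent.N144.C

open Filter Topology Complex Set
open Vale.Agent.P144.H170 (F2 gq Mk)
open Vale.Agent.P144.H365 (ResNN rs_real rs_sub rs_lim mem_MF rs)
open Vale.Agent.P144.H135 (w0)
open Vale.Agent.P144Y (Dom)

variable {κ κ' : Type} [Fintype κ] [Fintype κ'] {Ω : Dom} {ζ : κ → ℂ} {z' r r₁ r₂ c c₁ c₂ : ℂ}
  {q q₁ q₂ : ℂ → ℂ}

theorem res_mul {ω : κ' → ℂ} {m : ℂ} (t : ℝ) (h : ResNN ζ ω q m) :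
    ResNN ζ ω (fun z => t * q z) m := by
  obtain ⟨c, hc, hl⟩ := h
  have h1 := hl.const_mul ((t ^ 2 : ℝ) : ℂ)
  rw [← ofReal_mul] at h1
  refine ⟨t ^ 2 * c, by positivity, h1.congr fun z => ?_⟩
  unfold gq
  push_cast
  ring

theorem bd_mul {ω : κ' → ℂ} (t : ℝ) (h : Ω.Bd (F2 ζ ω q)) : Ω.Bd (F2 ζ ω fun z => t * q z) :=
  Ω.smul _ _ (t ^ 2) ∅ (sq_nonneg t) finite_empty (empty_subset _)
    (fun z _ _ => by unfold F2; push_cast; ring) h

theorem res_congr {ω : κ' → ℂ} {m : ℂ} (he : q₁ =ᶠ[𝓝[≠] m] q₂) (h : ResNN ζ ω q₁ m) :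
    ResNN ζ ω q₂ m := by
  obtain ⟨c, hc, hl⟩ := h
  refine ⟨c, hc, hl.congr' ?_⟩
  filter_upwards [he] with z hz
  unfold gq
  rw [hz]

theorem bd_congr {F F' : ℂ → ℂ} {T : Set ℂ} (hT : T.Finite) (hD : T ⊆ Ω.D)
    (he : ∀ z ∈ Ω.D, z ∉ T → F' z = F z) (h : Ω.Bd F) : Ω.Bd F' :=
  Ω.smul _ _ 1 T zero_le_one hT hD (fun z a b => by rw [he z a b, ofReal_one, one_mul]) h

theorem res_lin {ω : κ' → ℂ} (hi : Function.Injective (Sum.elim ζ ω)) {m : ℂ} (hm : m ∈ Mk ζ ω)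
    (d₁ : ContinuousAt q₁ m) (d₂ : ContinuousAt q₂ m) (h₁ : ResNN ζ ω q₁ m) (h₂ : ResNN ζ ω q₂ m)
    (s t : ℝ) : ResNN ζ ω (fun z => s * q₁ z + t * q₂ z) m := by
  have hm' := mem_MF.2 hm
  obtain ⟨a, ha, e₁⟩ := rs_real hi hm' (d₁.const_mul _) (res_mul s h₁)
  obtain ⟨b, hb, e₂⟩ := rs_real hi hm' (d₂.const_mul _) (res_mul (-t) h₂)
  obtain ⟨c, hc, e⟩ := rs_sub (q := fun z => s * q₁ z + t * q₂ z) ha hb e₁ e₂ (by push_cast; ring)
  exact ⟨c, hc, e ▸ rs_lim hi hm' ((d₁.const_mul _).add (d₂.const_mul _))⟩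

omit [Fintype κ] in
theorem inj_w0 (hi : Function.Injective ζ) : Function.Injective (Sum.elim ζ w0) := by
  rintro (p | p) (p' | p') h
  · rw [hi h]
  exacts [p'.elim, p.elim, p.elim]

omit [Fintype κ] in
theorem inj_one {ω : ℂ} (hi : Function.Injective ζ) (hne : ∀ p, ζ p ≠ ω) :
    Function.Injective (Sum.elim ζ fun _ : Unit => ω) := by
  rintro (p | p) (p' | p') h
  · rw [hi h]
  exacts [absurd h (hne p), absurd h.symm (hne p'), rfl]

theorem Pol.at (h : Pol Ω ζ z' r q c) {z : ℂ} (hz : z ∈ Ω.D) (hne : z ≠ z') :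
    DifferentiableAt ℂ q z :=
  h.qd.differentiableAt ((Ω.op.sdiff isClosed_singleton).mem_nhds ⟨hz, hne⟩)

theorem Pol.mul (h : Pol Ω ζ z' r q c) (t : ℝ) :
    Pol Ω ζ z' (t * r) (fun z => t * q z) (t * c) where
  qd := h.qd.const_mul _
  loc := by
    convert h.loc.const_mul (t : ℂ) using 2 <;> ring
  bd := bd_mul t h.bd
  rs := fun p hp => res_mul t (h.rs p hp)

/-- The values off the domain and at the pole do not matter. -/
theorem Pol.congr (h : Pol Ω ζ z' r q₁ c) (hz : z' ∈ Ω.D)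
    (he : ∀ z ∈ Ω.D, z ≠ z' → q₂ z = q₁ z) : Pol Ω ζ z' r q₂ c where
  qd := h.qd.congr fun z a => he z a.1 a.2
  loc := h.loc.congr' (by
    filter_upwards [self_mem_nhdsWithin, nhdsWithin_le_nhds (Ω.op.mem_nhds hz)] with z a b
    rw [he z b a])
  bd := bd_congr (finite_singleton z') (singleton_subset_iff.2 hz)
    (fun z a b => by unfold F2; rw [he z a b]) h.bd
  rs := fun p hp => res_congr (by
    by_cases e : ζ p = z'
    · filter_upwards [self_mem_nhdsWithin, nhdsWithin_le_nhds (Ω.op.mem_nhds hp)] with z a b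
      exact (he z b (e ▸ a)).symm
    · filter_upwards [nhdsWithin_le_nhds ((Ω.op.sdiff isClosed_singleton).mem_nhds ⟨hp, e⟩)]
        with z a using (he z a.1 a.2).symm) (h.rs p hp)

/-- **Linearity.** -/
theorem Pol.lin (hL : Lin Ω) (hi : Function.Injective ζ) (hne : ∀ p, ζ p ≠ z')
    (h₁ : Pol Ω ζ z' r₁ q₁ c₁) (h₂ : Pol Ω ζ z' r₂ q₂ c₂) (s t : ℝ) :
    Pol Ω ζ z' (s * r₁ + t * r₂) (fun z => s * q₁ z + t * q₂ z) (s * c₁ + t * c₂) where
  qd := (h₁.qd.const_mul _).add (h₂.qd.const_mul _)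
  loc := by
    convert (h₁.loc.const_mul (s : ℂ)).add (h₂.loc.const_mul (t : ℂ)) using 2 <;> ring
  bd := hL _ _ ζ w0 q₁ q₂ s t h₁.bd h₂.bd
  rs := fun p hp => res_lin (inj_w0 hi) (Or.inl ⟨p, rfl⟩) (h₁.at hp (hne p)).continuousAt
    (h₂.at hp (hne p)).continuousAt (h₁.rs p hp) (h₂.rs p hp) s t

/-- **Uniqueness** of the solution with a pole. -/
theorem Pol.unique (hi : Function.Injective ζ) (hne : ∀ p, ζ p ≠ z') (hz : z' ∈ Ω.D)
    (h₁ : Pol Ω ζ z' r q₁ c₁) (h₂ : Pol Ω ζ z' r q₂ c₂) :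
    (∀ z ∈ Ω.D, z ≠ z' → q₁ z = q₂ z) ∧ c₁ = c₂ := by
  classical
  set q := Function.update (fun z => q₁ z - q₂ z) z' (c₁ - c₂) with hq
  have e : ∀ z, z ≠ z' → q z = q₁ z - q₂ z := fun z a => Function.update_of_ne a _ _
  have d : ∀ z ∈ Ω.D, z ≠ z' → DifferentiableAt ℂ q z := fun z a b =>
    ((h₁.at a b).sub (h₂.at a b)).congr_of_eventuallyEq
      (by filter_upwards [isOpen_ne.mem_nhds b] with y hy using e y hy)
  have l : ContinuousAt q z' := continuousAt_update_same.2 (by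
    convert h₁.loc.sub h₂.loc using 2 <;> ring)
  have key := Ω.uniX κ Empty ζ w0 q q₁ q₂ {z'} (fun p => p.elim) (inj_w0 hi) (finite_singleton _)
    (singleton_subset_iff.2 hz) (by
      rintro _ rfl (⟨p, hp⟩ | ⟨p, -⟩)
      exacts [hne p hp, p.elim]) (fun z a => by
      by_cases b : z = z'
      · subst b
        refine (analyticAt_of_differentiable_on_punctured_nhds_of_continuousAt ?_ l
          ).differentiableAt.differentiableWithinAt
        filter_upwards [self_mem_nhdsWithin, nhdsWithin_le_nhds (Ω.op.mem_nhds a)] with y b1 b2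
        exact d y b2 b1
      · exact (d z a b).differentiableWithinAt) (fun z _ b => e z b)
    (fun p hp => (h₁.at hp (hne p)).continuousAt) (fun p hp => (h₂.at hp (hne p)).continuousAt)
    h₁.bd h₂.bd h₁.rs h₂.rs fun p => p.elim
  refine ⟨fun z a b => sub_eq_zero.1 (e z b ▸ key z a), sub_eq_zero.1 ?_⟩
  simpa only [hq, Function.update_self] using key z' hz

variable {ω : ℂ}

theorem SSol.mul (h : SSol Ω ζ ω q) {t : ℝ} (ht : t * t = 1) : SSol Ω ζ ω fun z => t * q z where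
  diff := h.diff.const_mul _
  bd := bd_mul t h.bd
  res := fun p hp => res_mul t (h.res p hp)
  src := by
    have : (t : ℂ) * t = 1 := by exact_mod_cast ht
    rw [← h.src]
    linear_combination (Real.pi / 2 : ℂ) * (1 - I) * q ω ^ 2 * this

theorem SSol.ne (h : SSol Ω ζ ω q) (hne : ∀ p, ζ p ≠ ω) : q ω ≠ 0 := fun e => by
  have := h.src
  rw [e, zero_pow two_ne_zero, mul_zero] at this
  exact Finset.prod_ne_zero_iff.2 (fun p _ => sub_ne_zero.2 (hne p).symm) this.symm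

theorem src_ne : (Real.pi / 2 : ℂ) * (1 - I) ≠ 0 :=
  mul_ne_zero (div_ne_zero (ofReal_ne_zero.2 Real.pi_ne_zero) two_ne_zero) fun e => by
    simpa using congrArg re e

/-- **Uniqueness** of the solution with a source, up to the sign. -/
theorem SSol.unique (hi : Function.Injective ζ) (hne : ∀ p, ζ p ≠ ω) (hω : ω ∈ Ω.D)
    (h₁ : SSol Ω ζ ω q₁) (h₂ : SSol Ω ζ ω q₂) :
    ∃ t : ℝ, t * t = 1 ∧ ∀ z ∈ Ω.D, q₁ z = t * q₂ z := by
  obtain ⟨t, ht, e⟩ : ∃ t : ℝ, t * t = 1 ∧ q₁ ω = t * q₂ ω := by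
    rcases sq_eq_sq_iff_eq_or_eq_neg.1 (mul_left_cancel₀ src_ne (h₁.src.trans h₂.src.symm))
      with e | e
    · exact ⟨1, one_mul _, by simpa using e⟩
    · exact ⟨-1, by norm_num, by simpa using e⟩
  have h₃ := h₂.mul ht
  have c : ∀ {q}, SSol Ω ζ ω q → ∀ p, ζ p ∈ Ω.D → ContinuousAt q (ζ p) := fun h p hp =>
    h.diff.continuousOn.continuousAt (Ω.op.mem_nhds hp)
  exact ⟨t, ht, fun z hz => sub_eq_zero.1 (Ω.uniX κ Unit ζ (fun _ => ω)
    (fun z => q₁ z - t * q₂ z) q₁ (fun z => t * q₂ z) ∅ (fun _ => hω) (inj_one hi hne)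
    finite_empty (empty_subset _) (fun _ a => a.elim) (h₁.diff.sub h₃.diff) (fun _ _ _ => rfl)
    (c h₁) (c h₃) h₁.bd h₃.bd h₁.res h₃.res (fun _ => sub_eq_zero.2 e) z hz)⟩

theorem gA_congr (he : ∀ᶠ z in 𝓝 ω, q₁ z ^ 2 = q₂ z ^ 2) : gA ζ ω q₁ = gA ζ ω q₂ := by
  unfold gA
  rw [he.self_of_nhds, EventuallyEq.deriv_eq (f₁ := fun z => q₁ z ^ 2 / ∏ p, (z - ζ p))
    (f := fun z => q₂ z ^ 2 / ∏ p, (z - ζ p)) (he.mono fun z a => by simp only [a])]

/-- The gradient does not depend on the solution. -/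
theorem SSol.gA_eq (hi : Function.Injective ζ) (hne : ∀ p, ζ p ≠ ω) (hω : ω ∈ Ω.D)
    (h₁ : SSol Ω ζ ω q₁) (h₂ : SSol Ω ζ ω q₂) : gA ζ ω q₁ = gA ζ ω q₂ := by
  obtain ⟨t, ht, e⟩ := h₁.unique hi hne hω h₂
  have : (t : ℂ) * t = 1 := by exact_mod_cast ht
  refine gA_congr ?_
  filter_upwards [Ω.op.mem_nhds hω] with z hz
  rw [e z hz]
  linear_combination q₂ z ^ 2 * this

/-- **Uniqueness** of the data at the energies, up to the signs of the roots. -/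
theorem IsE.unique {m : ℕ} {y : Fin m → ℂ} {e e' : EF m} (hi : Function.Injective ζ)
    (hne : ∀ p k, ζ p ≠ y k) (hy : ∀ k, y k ∈ Ω.D) (h : IsE Ω ζ y e) (h' : IsE Ω ζ y e') :
    ∃ t : Fin m → ℝ, (∀ k, t k * t k = 1) ∧ (∀ k, e'.R k = t k * e.R k) ∧
      (∀ l η, ∀ z ∈ Ω.D, z ≠ y l → e'.q l η z = t l * e.q l η z) ∧ e'.Y = e.Y := by
  have k : ∀ k, ∃ t : ℝ, t * t = 1 ∧ e'.R k = t * e.R k := fun k => by
    rcases sq_eq_sq_iff_eq_or_eq_neg.1 ((h'.hR k).trans (h.hR k).symm) with a | a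
    · exact ⟨1, one_mul _, by simpa using a⟩
    · exact ⟨-1, by norm_num, by simpa using a⟩
  choose t t1 t2 using k
  have u := fun l η => (h'.pol l η).unique hi (fun p => hne p l) (hy l)
    (by rw [t2 l, mul_assoc]; exact (h.pol l η).mul (t l))
  refine ⟨t, t1, t2, fun l η => (u l η).1, funext fun l => funext fun η => ?_⟩
  have a := (u l η).2
  rw [← mul_assoc, ← t2 l] at a
  refine mul_left_cancel₀ (fun b => ?_) a
  have := h'.hR l
  rw [b, zero_pow two_ne_zero] at this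
  exact Finset.prod_ne_zero_iff.2 (fun p _ => sub_ne_zero.2 (hne p l).symm) this.symm

end Vale.Agent.N144.C
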